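import Mathlib

/-!
The quintic profile of the nearly flat Klein bottle in the three-sphere.
-/

namespace Vale.Agent.P205.Full.Klein

/-- Even part, first coefficient. -/
noncomputable def pp (γ L : ℝ) : ℝ := -2 * γ * L
/-- Even part, second coefficient. -/
noncomputable def pq (γ L : ℝ) : ℝ := (8 * γ ^ 2 - 2 * γ) * L / 3
/-- Odd part, first coefficient. -/
noncomputable def pr (γ : ℝ) : ℝ := 1 / 2 - 2 * γ
/-- Odd part, second coefficient. -/
noncomputable def pw (γ L : ℝ) : ℝ := 3 / 8 - 5 * γ / 3 + 2 * γ ^ 2 / 3 + 2 * γ ^ 2 * L ^ 2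

/-- The profile `cos 2χ` as a function of `t = cos Y`. -/
noncomputable def psi (γ L t : ℝ) : ℝ :=
  t + (1 - t ^ 2) * (pp γ L + pq γ L * (1 - t ^ 2) + t * (pr γ + pw γ L * (1 - t ^ 2)))

/-- The relative conformal factor minus one, as a function of `Y`. -/
noncomputable def kH (γ L Y : ℝ) : ℝ := L * psi γ L (Real.cos Y)

/-- The odd multiple of the glide length. -/
noncomputable def kTheta (m : ℕ) (γ : ℝ) : ℝ :=
  Real.pi * Real.sqrt (((m : ℝ) ^ 2 + ((m : ℝ) - 1) ^ 2) / (2 * γ))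

/-- The asymmetry of the two weights `m` and `m - 1`. -/
noncomputable def kL (m : ℕ) : ℝ :=
  ((m : ℝ) ^ 2 - ((m : ℝ) - 1) ^ 2) / ((m : ℝ) ^ 2 + ((m : ℝ) - 1) ^ 2)

end Vale.Agent.P205.Full.Klein
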