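import Mathlib
import Vale.Agent.P205.Full.Klein.Profile

/-!
Polynomial identities behind the model Klein bottle in the three-sphere.
-/

namespace Vale.Agent.P205.Full.Klein

/-- The coefficient of `t ^ 0`. -/
noncomputable def tc0 (γ L : ℝ) : ℝ :=
  -225 / 64 + 71 / 4 * γ - 287 / 18 * γ ^ 2 - 109 / 6 * γ ^ 2 * L ^ 2 + 44 / 9 * γ ^ 3 - 28 / 9
  * γ ^ 3 * L ^ 2 - 4 / 9 * γ ^ 4 + 488 / 9 * γ ^ 4 * L ^ 2 + 1940 / 27 * γ ^ 4 * L ^ 4 - 256 /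
  9 * γ ^ 5 * L ^ 2 - 2048 / 9 * γ ^ 5 * L ^ 4 + 2048 / 9 * γ ^ 6 * L ^ 4 - 2048 / 27 * γ ^ 7 *
  L ^ 4

/-- The coefficient of `t ^ 1`. -/
noncomputable def tc1 (γ L : ℝ) : ℝ :=
  -35 / 2 * γ * L + 1028 / 9 * γ ^ 2 * L - 608 / 3 * γ ^ 3 * L - 536 / 3 * γ ^ 3 * L ^ 3 + 320 /
  3 * γ ^ 4 * L + 6464 / 9 * γ ^ 4 * L ^ 3 - 128 / 9 * γ ^ 5 * L - 2656 / 3 * γ ^ 5 * L ^ 3 -
  512 / 3 * γ ^ 5 * L ^ 5 + 1280 / 3 * γ ^ 6 * L ^ 3 + 1024 / 3 * γ ^ 6 * L ^ 5 - 512 / 9 * γ ^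
  7 * L ^ 3 - 512 / 3 * γ ^ 7 * L ^ 5

/-- The coefficient of `t ^ 2`. -/
noncomputable def tc2 (γ L : ℝ) : ℝ :=
  225 / 32 - 993 / 16 * γ + 1444 / 9 * γ ^ 2 + 1699 / 18 * γ ^ 2 * L ^ 2 - 314 / 3 * γ ^ 3 -
  1133 / 2 * γ ^ 3 * L ^ 2 + 24 * γ ^ 4 + 8168 / 9 * γ ^ 4 * L ^ 2 + 2008 / 9 * γ ^ 4 * L ^ 4 -
  16 / 9 * γ ^ 5 - 5840 / 9 * γ ^ 5 * L ^ 2 - 384 * γ ^ 5 * L ^ 4 + 512 / 3 * γ ^ 6 * L ^ 2 +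
  128 / 3 * γ ^ 6 * L ^ 4 + 128 * γ ^ 6 * L ^ 6 - 128 / 9 * γ ^ 7 * L ^ 2 + 1280 / 9 * γ ^ 7 * L
  ^ 4 - 128 * γ ^ 7 * L ^ 6

/-- The coefficient of `t ^ 3`. -/
noncomputable def tc3 (γ L : ℝ) : ℝ :=
  145 / 128 * γ * L + 35 / 144 * γ ^ 2 * L - 4477 / 72 * γ ^ 3 * L + 541 / 8 * γ ^ 3 * L ^ 3 +
  5318 / 27 * γ ^ 4 * L - 486 * γ ^ 4 * L ^ 3 - 310 / 3 * γ ^ 5 * L + 3236 / 3 * γ ^ 5 * L ^ 3 +
  166 * γ ^ 5 * L ^ 5 + 176 / 9 * γ ^ 6 * L - 2720 / 3 * γ ^ 6 * L ^ 3 - 592 * γ ^ 6 * L ^ 5 -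
  32 / 27 * γ ^ 7 * L + 160 * γ ^ 7 * L ^ 3 + 480 * γ ^ 7 * L ^ 5 - 32 * γ ^ 7 * L ^ 7

/-- The coefficient of `t ^ 4`. -/
noncomputable def tc4 (γ L : ℝ) : ℝ :=
  -225 / 64 + 509 / 16 * γ - 1565 / 18 * γ ^ 2 - 565 / 8 * γ ^ 2 * L ^ 2 + 206 / 3 * γ ^ 3 +
  1003 / 2 * γ ^ 3 * L ^ 2 - 20 * γ ^ 4 - 3476 / 3 * γ ^ 4 * L ^ 2 - 2752 / 9 * γ ^ 4 * L ^ 4 +
  16 / 9 * γ ^ 5 + 1232 * γ ^ 5 * L ^ 2 + 1088 * γ ^ 5 * L ^ 4 - 416 * γ ^ 6 * L ^ 2 - 3008 / 3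
  * γ ^ 6 * L ^ 4 - 288 * γ ^ 6 * L ^ 6 + 128 / 3 * γ ^ 7 * L ^ 2 + 256 / 9 * γ ^ 7 * L ^ 4 +
  384 * γ ^ 7 * L ^ 6

/-- The coefficient of `t ^ 5`. -/
noncomputable def tc5 (γ L : ℝ) : ℝ :=
  657 / 128 * γ * L - 947 / 16 * γ ^ 2 * L + 5749 / 24 * γ ^ 3 * L + 755 / 24 * γ ^ 3 * L ^ 3 -
  3530 / 9 * γ ^ 4 * L - 162 * γ ^ 4 * L ^ 3 + 222 * γ ^ 5 * L + 100 / 3 * γ ^ 5 * L ^ 3 + 54 *
  γ ^ 5 * L ^ 5 - 48 * γ ^ 6 * L + 480 * γ ^ 6 * L ^ 3 + 80 * γ ^ 6 * L ^ 5 + 32 / 9 * γ ^ 7 * L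
  - 416 / 3 * γ ^ 7 * L ^ 3 - 416 * γ ^ 7 * L ^ 5 + 96 * γ ^ 7 * L ^ 7

/-- The coefficient of `t ^ 6`. -/
noncomputable def tc6 (γ L : ℝ) : ℝ :=
  39 / 4 * γ ^ 2 * L ^ 2 - 665 / 6 * γ ^ 3 * L ^ 2 + 1312 / 3 * γ ^ 4 * L ^ 2 + 2344 / 27 * γ ^
  4 * L ^ 4 - 2032 / 3 * γ ^ 5 * L ^ 2 - 5200 / 9 * γ ^ 5 * L ^ 4 + 320 * γ ^ 6 * L ^ 2 + 8704 /
  9 * γ ^ 6 * L ^ 4 + 192 * γ ^ 6 * L ^ 6 - 128 / 3 * γ ^ 7 * L ^ 2 - 4864 / 27 * γ ^ 7 * L ^ 4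
  - 384 * γ ^ 7 * L ^ 6

/-- The coefficient of `t ^ 7`. -/
noncomputable def tc7 (γ L : ℝ) : ℝ :=
  -189 / 128 * γ * L + 309 / 16 * γ ^ 2 * L - 2173 / 24 * γ ^ 3 * L - 137 / 8 * γ ^ 3 * L ^ 3 +
  1598 / 9 * γ ^ 4 * L + 1270 / 9 * γ ^ 4 * L ^ 3 - 386 / 3 * γ ^ 5 * L - 916 / 3 * γ ^ 5 * L ^
  3 - 202 / 3 * γ ^ 5 * L ^ 5 + 112 / 3 * γ ^ 6 * L + 160 / 3 * γ ^ 6 * L ^ 3 + 752 / 3 * γ ^ 6
  * L ^ 5 - 32 / 9 * γ ^ 7 * L + 224 / 9 * γ ^ 7 * L ^ 3 + 224 / 3 * γ ^ 7 * L ^ 5 - 96 * γ ^ 7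
  * L ^ 7

/-- The coefficient of `t ^ 8`. -/
noncomputable def tc8 (γ L : ℝ) : ℝ :=
  -9 / 8 * γ ^ 2 * L ^ 2 + 29 / 2 * γ ^ 3 * L ^ 2 - 596 / 9 * γ ^ 4 * L ^ 2 - 12 * γ ^ 4 * L ^ 4
  + 368 / 3 * γ ^ 5 * L ^ 2 + 304 / 3 * γ ^ 5 * L ^ 4 - 224 / 3 * γ ^ 6 * L ^ 2 - 704 / 3 * γ ^
  6 * L ^ 4 - 32 * γ ^ 6 * L ^ 6 + 128 / 9 * γ ^ 7 * L ^ 2 + 256 / 3 * γ ^ 7 * L ^ 4 + 128 * γ ^
  7 * L ^ 6

/-- The coefficient of `t ^ 9`. -/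
noncomputable def tc9 (γ L : ℝ) : ℝ :=
  27 / 128 * γ * L - 45 / 16 * γ ^ 2 * L + 109 / 8 * γ ^ 3 * L + 27 / 8 * γ ^ 3 * L ^ 3 - 770 /
  27 * γ ^ 4 * L - 30 * γ ^ 4 * L ^ 3 + 218 / 9 * γ ^ 5 * L + 236 / 3 * γ ^ 5 * L ^ 3 + 18 * γ ^
  5 * L ^ 5 - 80 / 9 * γ ^ 6 * L - 160 / 3 * γ ^ 6 * L ^ 3 - 80 * γ ^ 6 * L ^ 5 + 32 / 27 * γ ^
  7 * L + 32 / 3 * γ ^ 7 * L ^ 3 + 32 * γ ^ 7 * L ^ 5 + 32 * γ ^ 7 * L ^ 7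

/-- The square of the twist, up to elementary factors. -/
noncomputable def pT (γ L t : ℝ) : ℝ :=
  tc0 γ L + tc1 γ L * t + tc2 γ L * t ^ 2 + tc3 γ L * t ^ 3 + tc4 γ L * t ^ 4 + tc5 γ L * t ^ 5
  + tc6 γ L * t ^ 6 + tc7 γ L * t ^ 7 + tc8 γ L * t ^ 8 + tc9 γ L * t ^ 9

/-- The reduced profile. -/
noncomputable def pR (γ L t : ℝ) : ℝ :=
  pp γ L + pq γ L * (1 - t ^ 2) + t * (pr γ + pw γ L * (1 - t ^ 2))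

/-- Its derivative in `t`. -/
noncomputable def pRD (γ L t : ℝ) : ℝ :=
  -2 * t * pq γ L + pr γ + pw γ L * (1 - t ^ 2) - 2 * t ^ 2 * pw γ L

/-- The derivative of the profile. -/
noncomputable def pD (γ L t : ℝ) : ℝ := 1 - 2 * t * pR γ L t + (1 - t ^ 2) * pRD γ L t

/-- The quotient `(1 - ψ ^ 2) / (1 - t ^ 2)`. -/
noncomputable def pQ (γ L t : ℝ) : ℝ :=
  (1 - (1 + t) * pR γ L t) * (1 + (1 - t) * pR γ L t)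

/-- Its derivative in `t`. -/
noncomputable def pQD (γ L t : ℝ) : ℝ :=
  -(pR γ L t + (1 + t) * pRD γ L t) * (1 + (1 - t) * pR γ L t)
    + (1 - (1 + t) * pR γ L t) * (-pR γ L t + (1 - t) * pRD γ L t)

theorem psi_eq (γ L t : ℝ) : psi γ L t = t + (1 - t ^ 2) * pR γ L t := rfl

theorem psi_sq_add (γ L t : ℝ) : psi γ L t ^ 2 + (1 - t ^ 2) * pQ γ L t = 1 := by
  rw [psi_eq, pQ]; ring

theorem psi_mul_pD (γ L t : ℝ) :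
    t * pQ γ L t - (1 - t ^ 2) * pQD γ L t / 2 = psi γ L t * pD γ L t := by
  rw [psi_eq, pQ, pQD, pD]; ring

theorem psi_one (γ L : ℝ) : psi γ L 1 = 1 := by rw [psi_eq]; ring

theorem model_identity (γ L t : ℝ) :
    4 * (γ * (1 + L * psi γ L t)) * pQ γ L t - pD γ L t ^ 2 = (1 - t ^ 2) ^ 2 * pT γ L t := by
  simp only [psi_eq, pQ, pD, pRD, pR, pp, pq, pr, pw, pT, tc0, tc1, tc2, tc3, tc4, tc5, tc6, tc7,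
    tc8, tc9]
  ring

theorem hasDerivAt_pR (γ L t : ℝ) : HasDerivAt (pR γ L) (pRD γ L t) t := by
  have h := hasDerivAt_id t
  have hu := (h.pow 2).const_sub 1
  exact (((hu.const_mul (pq γ L)).const_add (pp γ L)).add
    (h.mul ((hu.const_mul (pw γ L)).const_add (pr γ)))).congr_deriv
      (by simp only [pRD, id_eq, Nat.cast_ofNat, Nat.add_one_sub_one, pow_one, Pi.pow_apply,
        ]; ring)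

theorem hasDerivAt_psi_pD (γ L t : ℝ) : HasDerivAt (psi γ L) (pD γ L t) t := by
  have h := hasDerivAt_id t
  exact (h.add (((h.pow 2).const_sub 1).mul (hasDerivAt_pR γ L t))).congr_deriv
    (by simp only [pD, id_eq, Nat.cast_ofNat, Nat.add_one_sub_one, pow_one, Pi.pow_apply,
      pR]; ring)

theorem hasDerivAt_pQ (γ L t : ℝ) : HasDerivAt (pQ γ L) (pQD γ L t) t := by
  have h := hasDerivAt_id t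
  have hR := hasDerivAt_pR γ L t
  exact ((((h.const_add 1).mul hR).const_sub 1).mul (((h.const_sub 1).mul hR).const_add 1)).congr_deriv
    (by simp only [pQD, id_eq, Pi.mul_apply]; ring)

/-- For parameters near `(1/2, 0)` all the quantities under square roots are positive. -/
theorem exists_pos_near : ∃ d > 0, ∀ γ L : ℝ, |γ - 1 / 2| ≤ d → |L| ≤ d → ∀ t ∈ Set.Icc (-1 : ℝ) 1,
    0 < γ ∧ 0 < γ * (1 + L * psi γ L t) ∧ 0 < pQ γ L t ∧ 0 < pT γ L t := by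
  have key : ∀ᶠ x : ℝ × ℝ in nhds (1 / 2, 0), ∀ t ∈ Set.Icc (-1 : ℝ) 1,
      0 < x.1 ∧ 0 < x.1 * (1 + x.2 * psi x.1 x.2 t) ∧ 0 < pQ x.1 x.2 t ∧ 0 < pT x.1 x.2 t := by
    refine isCompact_Icc.eventually_forall_of_forall_eventually fun t ht => ?_
    have c0 : Continuous fun z : (ℝ × ℝ) × ℝ => z.1.1 := continuous_fst.fst
    have c1 : Continuous fun z : (ℝ × ℝ) × ℝ => z.1.1 * (1 + z.1.2 * psi z.1.1 z.1.2 z.2) := by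
      simp only [psi, pp, pq, pr, pw]; fun_prop
    have c2 : Continuous fun z : (ℝ × ℝ) × ℝ => pQ z.1.1 z.1.2 z.2 := by
      simp only [pQ, pR, pp, pq, pr, pw]; fun_prop
    have c3 : Continuous fun z : (ℝ × ℝ) × ℝ => pT z.1.1 z.1.2 z.2 := by
      simp only [pT, tc0, tc1, tc2, tc3, tc4, tc5, tc6, tc7, tc8, tc9]; fun_prop
    refine ((c0.tendsto _).eventually_const_lt ?_).and (((c1.tendsto _).eventually_const_lt ?_).and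
      (((c2.tendsto _).eventually_const_lt ?_).and ((c3.tendsto _).eventually_const_lt ?_)))
    · norm_num
    · norm_num
    · have h1 : t ^ 2 ≤ 1 := by nlinarith [ht.1, ht.2]
      simp only [pQ, pR, pp, pq, pr, pw]
      norm_num
      refine mul_pos ?_ ?_
      · nlinarith [mul_nonneg (sq_nonneg (2 * t + 1))
          (show (0 : ℝ) ≤ 1 / 2 + 7 / 24 * (1 - t ^ 2) by nlinarith), sq_nonneg t]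
      · nlinarith [mul_nonneg (sq_nonneg (2 * t - 1))
          (show (0 : ℝ) ≤ 1 / 2 + 7 / 24 * (1 - t ^ 2) by nlinarith), sq_nonneg t]
    · simp only [pT, tc0, tc1, tc2, tc3, tc4, tc5, tc6, tc7, tc8, tc9]
      norm_num
      have h1 : t ^ 2 ≤ 1 := by nlinarith [ht.1, ht.2]
      nlinarith [sq_nonneg t]
  obtain ⟨e, he, h⟩ := Metric.eventually_nhds_iff.1 key
  refine ⟨e / 2, half_pos he, fun γ L hγ hL => h (y := (γ, L)) ?_⟩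
  rw [Prod.dist_eq, Real.dist_eq, Real.dist_eq, sub_zero, max_lt_iff]
  constructor <;> linarith

end Vale.Agent.P205.Full.Klein
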