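import Mathlib
import Vale.Agent.P205.Full.Klein.ModelPoly

/-!
A Klein bottle of nearly flat conformal type in the unit three-sphere, in closed form up to two
quadratures.
-/

open scoped ContDiff
open Real Set MeasureTheory

namespace Vale.Agent.P205.Full.Klein

/-- The primitive vanishing at zero. -/
noncomputable def prim (f : ℝ → ℝ) (Y : ℝ) : ℝ := ∫ s in (0)..Y, f s

theorem hasDerivAt_prim {f : ℝ → ℝ} (hf : ContDiff ℝ ∞ f) (Y : ℝ) :
    HasDerivAt (prim f) (f Y) Y :=
  intervalIntegral.integral_hasDerivAt_right (hf.continuous.intervalIntegrable _ _)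
    (hf.continuous.stronglyMeasurableAtFilter _ _) hf.continuous.continuousAt

theorem contDiff_prim {f : ℝ → ℝ} (hf : ContDiff ℝ ∞ f) : ContDiff ℝ ∞ (prim f) := by
  rw [contDiff_infty_iff_deriv]
  refine ⟨fun Y => (hasDerivAt_prim hf Y).differentiableAt, ?_⟩
  rwa [funext fun Y => (hasDerivAt_prim hf Y).deriv]

theorem prim_neg_of_even {f : ℝ → ℝ} (h : ∀ s, f (-s) = f s) (Y : ℝ) :
    prim f (-Y) = -prim f Y := by
  have := intervalIntegral.integral_comp_neg (f := f) (a := (0 : ℝ)) (b := Y)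
  simp only [h, neg_zero] at this
  simp only [prim]
  rw [intervalIntegral.integral_symm, ← this]

theorem prim_neg_of_odd {f : ℝ → ℝ} (h : ∀ s, f (-s) = -f s) (Y : ℝ) :
    prim f (-Y) = prim f Y := by
  have := intervalIntegral.integral_comp_neg (f := f) (a := (0 : ℝ)) (b := Y)
  simp only [h, neg_zero, intervalIntegral.integral_neg] at this
  simp only [prim]
  rw [intervalIntegral.integral_symm, ← this, neg_neg]

theorem prim_add_period {f : ℝ → ℝ} (hf : ContDiff ℝ ∞ f) {T : ℝ} (hp : Function.Periodic f T)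
    (Y : ℝ) : prim f (Y + T) = prim f Y + prim f T := by
  have hi : ∀ a b, IntervalIntegrable f volume a b := fun a b =>
    hf.continuous.intervalIntegrable a b
  simp only [prim]
  rw [← intervalIntegral.integral_add_adjacent_intervals (hi 0 Y) (hi Y (Y + T)),
    hp.intervalIntegral_add_eq Y 0, zero_add]

theorem prim_two_pi_of_odd {f : ℝ → ℝ} (hp : Function.Periodic f (2 * π)) (h : ∀ s, f (-s) = -f s) : prim f (2 * π) = 0 := by
  have h1 := hp.intervalIntegral_add_eq 0 (-π)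
  have h2 := intervalIntegral.integral_comp_neg (f := f) (a := -π) (b := π)
  simp only [h, neg_neg, intervalIntegral.integral_neg] at h2
  rw [show -π + 2 * π = π by ring, zero_add] at h1
  simp only [prim]
  rw [h1]
  linarith

/-- The derivative of the angle `χ`, where `cos 2χ = ψ (cos Y)`. -/
noncomputable def angD (γ L Y : ℝ) : ℝ := pD γ L (cos Y) / (2 * √(pQ γ L (cos Y)))

/-- The angle. -/
noncomputable def ang (γ L : ℝ) : ℝ → ℝ := prim (angD γ L)

/-- The reduced twist. -/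
noncomputable def twist (γ L Y : ℝ) : ℝ :=
  sin Y * √(pT γ L (cos Y)) / (pQ γ L (cos Y) * √(γ * (1 + L * psi γ L (cos Y))))

/-- The derivative of the first phase. -/
noncomputable def ph1D (γ L c Y : ℝ) : ℝ := -(c * ((1 - psi γ L (cos Y)) / 2) * twist γ L Y)

/-- The derivative of the second phase. -/
noncomputable def ph2D (γ L c Y : ℝ) : ℝ := c * ((1 + psi γ L (cos Y)) / 2) * twist γ L Y

/-- The conditions on the parameters. -/
def Adm (γ L : ℝ) : Prop := ∀ t ∈ Icc (-1 : ℝ) 1,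
  0 < γ ∧ 0 < γ * (1 + L * psi γ L t) ∧ 0 < pQ γ L t ∧ 0 < pT γ L t

variable {γ L : ℝ}

theorem Adm.at_cos (h : Adm γ L) (Y : ℝ) : 0 < γ ∧ 0 < γ * (1 + L * psi γ L (cos Y)) ∧
    0 < pQ γ L (cos Y) ∧ 0 < pT γ L (cos Y) :=
  h _ ⟨neg_one_le_cos Y, cos_le_one Y⟩

theorem contDiff_psi_cos : ContDiff ℝ ∞ fun Y => psi γ L (cos Y) := by
  unfold psi; fun_prop

theorem contDiff_pQ_cos : ContDiff ℝ ∞ fun Y => pQ γ L (cos Y) := by
  simp only [pQ, pR]; fun_prop

theorem contDiff_angD (h : Adm γ L) : ContDiff ℝ ∞ (angD γ L) := by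
  refine ContDiff.div (by simp only [pD, pR, pRD]; fun_prop) (contDiff_const.mul
    (contDiff_pQ_cos.sqrt fun Y => (h.at_cos Y).2.2.1.ne')) fun Y => ?_
  exact (mul_pos two_pos (sqrt_pos.2 (h.at_cos Y).2.2.1)).ne'

theorem contDiff_twist (h : Adm γ L) : ContDiff ℝ ∞ (twist γ L) := by
  have hT : ContDiff ℝ ∞ fun Y => pT γ L (cos Y) := by
    simp only [pT]; fun_prop
  refine ContDiff.div (contDiff_sin.mul (hT.sqrt fun Y => (h.at_cos Y).2.2.2.ne'))
    (contDiff_pQ_cos.mul ((contDiff_const.mul (contDiff_const.add (contDiff_const.mul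
      contDiff_psi_cos))).sqrt fun Y => (h.at_cos Y).2.1.ne')) fun Y => ?_
  exact (mul_pos (h.at_cos Y).2.2.1 (sqrt_pos.2 (h.at_cos Y).2.1)).ne'

theorem contDiff_ph1D (h : Adm γ L) (c : ℝ) : ContDiff ℝ ∞ (ph1D γ L c) :=
  ((contDiff_const.mul ((contDiff_const.sub contDiff_psi_cos).div_const 2)).mul
    (contDiff_twist h)).neg

theorem contDiff_ph2D (h : Adm γ L) (c : ℝ) : ContDiff ℝ ∞ (ph2D γ L c) :=
  (contDiff_const.mul ((contDiff_const.add contDiff_psi_cos).div_const 2)).mul (contDiff_twist h)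

theorem ph1D_neg (c Y : ℝ) : ph1D γ L c (-Y) = -ph1D γ L c Y := by
  simp only [ph1D, twist, cos_neg, sin_neg]; ring

theorem ph2D_neg (c Y : ℝ) : ph2D γ L c (-Y) = -ph2D γ L c Y := by
  simp only [ph2D, twist, cos_neg, sin_neg]; ring

/-- The angle realises `(ψ, sin Y √Q)` as a point of the unit circle. -/
theorem cos_sin_two_ang (h : Adm γ L) (Y : ℝ) :
    cos (2 * ang γ L Y) = psi γ L (cos Y) ∧ sin (2 * ang γ L Y) = sin Y * √(pQ γ L (cos Y)) := by
  set a := fun Y => psi γ L (cos Y) with ha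
  set b := fun Y => sin Y * √(pQ γ L (cos Y)) with hb
  set k := fun Y => 2 * angD γ L Y with hk
  have hA : ∀ Y, HasDerivAt a (-(k Y * b Y)) Y := fun Y => by
    have hq : 0 < √(pQ γ L (cos Y)) := sqrt_pos.2 (h.at_cos Y).2.2.1
    refine ((hasDerivAt_psi_pD γ L (cos Y)).comp Y (hasDerivAt_cos Y)).congr_deriv ?_
    simp only [hk, hb, angD]
    field_simp
  have hB : ∀ Y, HasDerivAt b (k Y * a Y) Y := fun Y => by
    have hQ := (h.at_cos Y).2.2.1
    have hq : 0 < √(pQ γ L (cos Y)) := sqrt_pos.2 hQ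
    refine ((hasDerivAt_sin Y).mul
      (((hasDerivAt_pQ γ L (cos Y)).comp Y (hasDerivAt_cos Y)).sqrt hQ.ne')).congr_deriv ?_
    simp only [hk, ha, angD, Function.comp_apply]
    have e1 := psi_mul_pD γ L (cos Y)
    have e2 := sin_sq_add_cos_sq Y
    field_simp
    rw [sq_sqrt hQ.le]
    linear_combination (2 : ℝ) * e1 - pQD γ L (cos Y) * e2
  have hX : ∀ Y, HasDerivAt (fun Y => 2 * ang γ L Y) (k Y) Y := fun Y =>
    (hasDerivAt_prim (contDiff_angD h) Y).const_mul 2
  have h0 : ang γ L 0 = 0 := by simp [ang, prim]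
  have c1 : ∀ Y, a Y * cos (2 * ang γ L Y) + b Y * sin (2 * ang γ L Y) = 1 := by
    intro Y
    have hd : ∀ Y, HasDerivAt
        (fun Y => a Y * cos (2 * ang γ L Y) + b Y * sin (2 * ang γ L Y)) 0 Y := fun Y =>
      (((hA Y).mul (hX Y).cos).add ((hB Y).mul (hX Y).sin)).congr_deriv (by ring)
    have := is_const_of_deriv_eq_zero (fun Y => (hd Y).differentiableAt) (fun Y => (hd Y).deriv) Y 0
    rw [this]
    simp [ha, hb, h0, psi_one]
  have c2 : ∀ Y, b Y * cos (2 * ang γ L Y) - a Y * sin (2 * ang γ L Y) = 0 := by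
    intro Y
    have hd : ∀ Y, HasDerivAt
        (fun Y => b Y * cos (2 * ang γ L Y) - a Y * sin (2 * ang γ L Y)) 0 Y := fun Y =>
      (((hB Y).mul (hX Y).cos).sub ((hA Y).mul (hX Y).sin)).congr_deriv (by ring)
    have := is_const_of_deriv_eq_zero (fun Y => (hd Y).differentiableAt) (fun Y => (hd Y).deriv) Y 0
    rw [this]
    simp [ha, hb, h0]
  have e := sin_sq_add_cos_sq (2 * ang γ L Y)
  constructor
  · linear_combination (a Y) * e - cos (2 * ang γ L Y) * c1 Y + sin (2 * ang γ L Y) * c2 Y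
  · linear_combination (b Y) * e - sin (2 * ang γ L Y) * c1 Y - cos (2 * ang γ L Y) * c2 Y

theorem ang_neg (Y : ℝ) : ang γ L (-Y) = -ang γ L Y :=
  prim_neg_of_even (fun s => by simp [angD]) Y

theorem ang_add_four_pi (h : Adm γ L) :
    ∃ k : ℤ, ∀ Y, ang γ L (Y + 4 * π) = ang γ L Y + (k : ℝ) * (2 * π) := by
  have hp : Function.Periodic (angD γ L) (2 * π) := fun Y => by
    simp only [angD, cos_add_two_pi]
  have h2 := (cos_sin_two_ang h (2 * π)).1
  rw [cos_two_pi, psi_one] at h2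
  obtain ⟨k, hk⟩ := (cos_eq_one_iff _).1 h2
  refine ⟨k, fun Y => ?_⟩
  have e1 := prim_add_period (contDiff_angD h) hp Y
  have e2 := prim_add_period (contDiff_angD h) hp (Y + 2 * π)
  rw [show Y + 4 * π = Y + 2 * π + 2 * π by ring]
  simp only [ang] at hk ⊢
  rw [e2, e1, hk]
  ring

theorem prim_phase_four_pi {f : ℝ → ℝ} (hf : ContDiff ℝ ∞ f) (hp : Function.Periodic f (2 * π))
    (ho : ∀ s, f (-s) = -f s) (Y : ℝ) : prim f (Y + 4 * π) = prim f Y := by
  rw [show Y + 4 * π = Y + 2 * π + 2 * π by ring, prim_add_period hf hp, prim_add_period hf hp,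
    prim_two_pi_of_odd hp ho, add_zero, add_zero]

/-- A conformal Klein bottle in the unit sphere of four-space, for every large even weight. -/
theorem exists_model : ∃ d > 0, ∀ (m : ℕ) (γ : ℝ), Even m → 1 ≤ m → |γ - 1 / 2| ≤ d →
    |kL m| ≤ d → ∃ P : ℂ → EuclideanSpace ℝ (Fin 4), ContDiff ℝ ∞ P ∧ (∀ z, ‖P z‖ = 1) ∧
      (∀ z, P ((starRingEnd ℂ) z + (kTheta m γ : ℂ)) = P z) ∧
      (∀ z, P (z + ((4 * π : ℝ) : ℂ) * Complex.I) = P z) ∧
      ∀ z v w, inner ℝ (fderiv ℝ P z v) (fderiv ℝ P z w) =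
        γ * (1 + kH γ (kL m) z.im) * inner ℝ v w := by
  obtain ⟨d, hd, hpos⟩ := exists_pos_near
  refine ⟨d, hd, fun m γ hm hm1 hγ hL => ?_⟩
  set L := kL m with hLdef
  have hA : Adm γ L := hpos γ L hγ hL
  have hγ0 : 0 < γ := (hA.at_cos 0).1
  set M : ℝ := (m : ℝ) with hMdef
  set n : ℝ := M - 1 with hndef
  have hM : 1 ≤ M := by rw [hMdef]; exact_mod_cast hm1
  have hS : 0 < M ^ 2 + n ^ 2 := by positivity
  set lam := √(2 * γ / (M ^ 2 + n ^ 2)) with hlam
  have hlam2 : lam ^ 2 = 2 * γ / (M ^ 2 + n ^ 2) := sq_sqrt (by positivity)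
  set j1 := ph1D γ L (n * lam) with hj1
  set j2 := ph2D γ L (M * lam) with hj2
  set F1 := prim j1 with hF1
  set F2 := prim j2 with hF2
  set P : ℂ → EuclideanSpace ℝ (Fin 4) := fun z => WithLp.toLp 2
    ![cos (ang γ L z.im) * cos (M * lam * z.re + F1 z.im),
      cos (ang γ L z.im) * sin (M * lam * z.re + F1 z.im),
      sin (ang γ L z.im) * cos (n * lam * z.re + F2 z.im),
      sin (ang γ L z.im) * sin (n * lam * z.re + F2 z.im)] with hP
  have him : ContDiff ℝ ∞ fun z : ℂ => z.im := Complex.imCLM.contDiff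
  have hre : ContDiff ℝ ∞ fun z : ℂ => z.re := Complex.reCLM.contDiff
  have hX : ContDiff ℝ ∞ fun z : ℂ => ang γ L z.im :=
    (contDiff_prim (contDiff_angD hA)).comp him
  have hB1 : ContDiff ℝ ∞ fun z : ℂ => M * lam * z.re + F1 z.im :=
    (contDiff_const.mul hre).add ((contDiff_prim (contDiff_ph1D hA _)).comp him)
  have hB2 : ContDiff ℝ ∞ fun z : ℂ => n * lam * z.re + F2 z.im :=
    (contDiff_const.mul hre).add ((contDiff_prim (contDiff_ph2D hA _)).comp him)
  have hPs : ContDiff ℝ ∞ P := by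
    refine (contDiff_piLp 2).2 fun i => ?_
    fin_cases i
    · simpa [hP] using hX.cos.mul hB1.cos
    · simpa [hP] using hX.cos.mul hB1.sin
    · simpa [hP] using hX.sin.mul hB2.cos
    · simpa [hP] using hX.sin.mul hB2.sin
  refine ⟨P, hPs, fun z => ?_, fun z => ?_, fun z => ?_, fun z v w => ?_⟩
  · rw [EuclideanSpace.norm_eq, sqrt_eq_one]
    simp only [hP, Fin.sum_univ_four, norm_eq_abs, sq_abs, Matrix.cons_val, mul_pow]
    linear_combination cos (ang γ L z.im) ^ 2 * sin_sq_add_cos_sq (M * lam * z.re + F1 z.im)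
      + sin (ang γ L z.im) ^ 2 * sin_sq_add_cos_sq (n * lam * z.re + F2 z.im)
      + sin_sq_add_cos_sq (ang γ L z.im)
  · have hT : lam * kTheta m γ = π := by
      rw [hlam, kTheta, ← hMdef, ← hndef, mul_left_comm, ← sqrt_mul (by positivity),
        div_mul_div_cancel₀ hS.ne', div_self (by positivity), sqrt_one, mul_one]
    obtain ⟨j, hj⟩ := hm
    have hMj : M = 2 * (j : ℝ) := by rw [hMdef, hj]; push_cast; ring
    have e1 : M * lam * (z.re + kTheta m γ) + F1 z.im
        = M * lam * z.re + F1 z.im + ((j : ℕ) : ℝ) * (2 * π) := by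
      linear_combination M * hT + π * hMj
    have e2 : n * lam * (z.re + kTheta m γ) + F2 z.im
        = n * lam * z.re + F2 z.im + ((j : ℕ) : ℝ) * (2 * π) - π := by
      linear_combination n * hT + π * hMj + π * hndef
    have f1 : F1 (-z.im) = F1 z.im := prim_neg_of_odd (fun s => ph1D_neg _ s) _
    have f2 : F2 (-z.im) = F2 z.im := prim_neg_of_odd (fun s => ph2D_neg _ s) _
    simp only [hP, Complex.add_re, Complex.add_im, Complex.conj_re, Complex.conj_im,
      Complex.ofReal_re, Complex.ofReal_im, add_zero, f1, f2, ang_neg, cos_neg, sin_neg, e1, e2,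
      cos_sub_pi, sin_sub_pi, cos_add_nat_mul_two_pi, sin_add_nat_mul_two_pi, neg_mul_neg]
  · obtain ⟨k, hk⟩ := ang_add_four_pi hA
    have p1 : Function.Periodic j1 (2 * π) := fun Y => by
      simp only [hj1, ph1D, twist, cos_add_two_pi, sin_add_two_pi]
    have p2 : Function.Periodic j2 (2 * π) := fun Y => by
      simp only [hj2, ph2D, twist, cos_add_two_pi, sin_add_two_pi]
    have f1 := prim_phase_four_pi (contDiff_ph1D hA (n * lam)) p1 (fun s => ph1D_neg _ s) z.im
    have f2 := prim_phase_four_pi (contDiff_ph2D hA (M * lam)) p2 (fun s => ph2D_neg _ s) z.im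
    rw [← hj1, ← hF1] at f1
    rw [← hj2, ← hF2] at f2
    have hw1 : (z + ((4 * π : ℝ) : ℂ) * Complex.I).re = z.re := by simp
    have hw2 : (z + ((4 * π : ℝ) : ℂ) * Complex.I).im = z.im + 4 * π := by simp
    simp only [hP, hw1, hw2, f1, f2, hk, cos_add_int_mul_two_pi, sin_add_int_mul_two_pi]
  · set Y := z.im with hY
    set c := cos (ang γ L Y) with hc
    set s := sin (ang γ L Y) with hs
    set x := angD γ L Y with hx
    have hI : HasFDerivAt (fun q : ℂ => q.im) Complex.imCLM z := Complex.imCLM.hasFDerivAt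
    have hR : HasFDerivAt (fun q : ℂ => q.re) Complex.reCLM z := Complex.reCLM.hasFDerivAt
    have HX := (hasDerivAt_prim (contDiff_angD hA) Y).comp_hasFDerivAt z hI
    have HA := (hR.const_mul (M * lam)).add
      ((hasDerivAt_prim (contDiff_ph1D hA (n * lam)) Y).comp_hasFDerivAt z hI)
    have HB := (hR.const_mul (n * lam)).add
      ((hasDerivAt_prim (contDiff_ph2D hA (M * lam)) Y).comp_hasFDerivAt z hI)
    have H0 := HX.cos.mul HA.cos
    have H1 := HX.cos.mul HA.sin
    have H2 := HX.sin.mul HB.cos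
    have H3 := HX.sin.mul HB.sin
    have hpj : ∀ (i : Fin 4) {F : ℂ → ℝ} {D : ℂ →L[ℝ] ℝ}, HasFDerivAt F D z →
        (∀ q, P q i = F q) → ∀ y, fderiv ℝ P z y i = D y := by
      intro i F D hF heq y
      have h1 := (PiLp.proj (𝕜 := ℝ) 2 (fun _ : Fin 4 => ℝ) i).hasFDerivAt.comp z
        (hPs.differentiable (by simp)).differentiableAt.hasFDerivAt
      have e' : (PiLp.proj (𝕜 := ℝ) 2 (fun _ : Fin 4 => ℝ) i) ∘ P = F := funext heq
      rw [e'] at h1
      exact DFunLike.congr_fun (h1.unique hF) y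
    have q0 := hpj 0 H0 fun q => by simp [hP, ang, hF1, hj1]
    have q1 := hpj 1 H1 fun q => by simp [hP, ang, hF1, hj1]
    have q2 := hpj 2 H2 fun q => by simp [hP, ang, hF2, hj2]
    have q3 := hpj 3 H3 fun q => by simp [hP, ang, hF2, hj2]
    rw [PiLp.inner_apply]
    simp only [Fin.sum_univ_four, RCLike.inner_apply, conj_trivial, q0, q1, q2, q3, Complex.inner,
      Complex.mul_re, Complex.conj_re, Complex.conj_im, mul_neg, sub_neg_eq_add,
      Function.comp_apply, add_apply, smul_apply,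
      Complex.reCLM_apply, Complex.imCLM_apply, smul_eq_mul, Pi.add_apply, ← hY]
    simp only [← show ang γ L = prim (angD γ L) from rfl, ← hc, ← hs, ← hx]
    set θ1 := M * lam * z.re + prim (ph1D γ L (n * lam)) Y
    set θ2 := n * lam * z.re + prim (ph2D γ L (M * lam)) Y
    set u1 := ph1D γ L (n * lam) Y with hu1
    set u2 := ph2D γ L (M * lam) Y with hu2
    set p := psi γ L (cos Y) with hp
    set Q := pQ γ L (cos Y) with hQ
    have hQ0 : 0 < Q := (hA.at_cos Y).2.2.1
    have hG0 : 0 < γ * (1 + L * p) := (hA.at_cos Y).2.1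
    have hT0 := (hA.at_cos Y).2.2.2
    have h2 := cos_sin_two_ang hA Y
    have hc2 : c ^ 2 = (1 + p) / 2 := by
      rw [hc, hp, ← h2.1, cos_two_mul]; ring
    have hs2 : s ^ 2 = (1 - p) / 2 := by
      rw [hs, hp, ← h2.1, cos_two_mul, sin_sq]; ring
    have hrr : lam ^ 2 * (M ^ 2 * ((1 + p) / 2) + n ^ 2 * ((1 - p) / 2)) = γ * (1 + L * p) := by
      rw [hlam2, hLdef, kL, ← hMdef, ← hndef]
      field_simp
      ring
    have hri : M * lam * u1 * ((1 + p) / 2) + n * lam * u2 * ((1 - p) / 2) = 0 := by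
      rw [hu1, hu2, ph1D, ph2D, ← hp]; ring
    have hii : x ^ 2 + u1 ^ 2 * ((1 + p) / 2) + u2 ^ 2 * ((1 - p) / 2) = γ * (1 + L * p) := by
      have e1 : u1 ^ 2 * ((1 + p) / 2) + u2 ^ 2 * ((1 - p) / 2)
          = twist γ L Y ^ 2 * ((1 - p ^ 2) / 4) * (γ * (1 + L * p)) := by
        rw [hu1, hu2, ph1D, ph2D, ← hp, ← hrr]; ring
      have e2 : 1 - p ^ 2 = sin Y ^ 2 * Q := by
        rw [sin_sq, hp, hQ]; linear_combination -(psi_sq_add γ L (cos Y))
      have e3 := model_identity γ L (cos Y)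
      rw [← hp, ← hQ] at e3
      rw [add_assoc, e1, e2, hx, angD, twist, ← hp, ← hQ, div_pow, div_pow, mul_pow, mul_pow,
        mul_pow, sq_sqrt hQ0.le, sq_sqrt hG0.le, sq_sqrt hT0.le]
      generalize γ * (1 + L * p) = G at hG0 e3 ⊢
      field_simp
      rw [show sin Y ^ 4 = (sin Y ^ 2) ^ 2 by ring, sin_sq]
      linear_combination -4 * e3
    calc _ = c ^ 2 * ((M * lam * v.re + u1 * v.im) * (M * lam * w.re + u1 * w.im))
          * (sin θ1 ^ 2 + cos θ1 ^ 2)
          + s ^ 2 * (x * v.im) * (x * w.im) * (sin θ1 ^ 2 + cos θ1 ^ 2)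
          + (s ^ 2 * ((n * lam * v.re + u2 * v.im) * (n * lam * w.re + u2 * w.im))
          + c ^ 2 * (x * v.im) * (x * w.im)) * (sin θ2 ^ 2 + cos θ2 ^ 2) := by
          ring
      _ = _ := by
          rw [sin_sq_add_cos_sq, sin_sq_add_cos_sq, hc2, hs2]
          simp only [kH, ← hp]
          linear_combination (v.re * w.re) * hrr + (v.re * w.im + v.im * w.re) * hri
            + (v.im * w.im) * hii

end Vale.Agent.P205.Full.Klein
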