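import Vale.Agent.P205.Full.Klein.Theta
import Vale.Agent.P205.Full.Klein.Model

/-!
The immersion belonging to a good fixed point.
-/

open scoped ContDiff
open Complex

namespace Vale.Agent.P205.Full.Klein

variable (p : Dat) (N : ℕ) (X : St)

/-- The conformal exponent of the whole map. -/
noncomputable def wexp (x : Pl) : ℝ := p.u x + jq p N X Jet.v x

/-- The coordinate `± θ + i Y`. -/
noncomputable def zeta (s : ℝ) (x : Pl) : ℂ :=
  ((s * theta p N X x : ℝ) : ℂ) + (hYt N X x : ℂ) * I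

variable {p N X} {B : ℝ}

theorem contDiff_zeta (h : Good p B N X) (s : ℝ) : ContDiff ℝ ∞ (zeta p N X s) :=
  (Complex.ofRealCLM.contDiff.comp (contDiff_const.mul (contDiff_theta h))).add
    ((Complex.ofRealCLM.contDiff.comp (contDiff_hYt h)).mul contDiff_const)

theorem fderiv_zeta (h : Good p B N X) (s : ℝ) (x v : Pl) :
    fderiv ℝ (zeta p N X s) x v =
      ((s * (v.1 • zA p N X x + v.2 • zB p N X x).re : ℝ) : ℂ) +
        (((v.1 • zA p N X x + v.2 • zB p N X x).im : ℝ) : ℂ) * I := by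
  have h1 : HasFDerivAt (fun x => ((s * theta p N X x : ℝ) : ℂ))
      (Complex.ofRealCLM.comp (s • Develop.cof (fun x => p.a * flux2 p N X x)
        (fun x => -(p.b * flux1 p N X x)) x)) x :=
    Complex.ofRealCLM.hasFDerivAt.comp x ((hasFDerivAt_theta h x).const_mul s)
  have h2 : HasFDerivAt (fun x => (hYt N X x : ℂ))
      (Complex.ofRealCLM.comp (fderiv ℝ (hYt N X) x)) x :=
    Complex.ofRealCLM.hasFDerivAt.comp x
      ((contDiff_hYt h).differentiable (by simp) x).hasFDerivAt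
  have h3 := (h1.fun_add (h2.mul_const I)).fderiv
  unfold zeta
  rw [h3]
  simp only [add_apply, smul_apply, ContinuousLinearMap.comp_apply, Complex.ofRealCLM_apply,
    Develop.cof_apply, smul_eq_mul, fderiv_hYt h]
  rw [mul_comm (_ : ℂ) I]
  simp only [zA, zB, Complex.real_smul, Complex.add_re, Complex.add_im, Complex.mul_re,
    Complex.mul_im, Complex.mul_I_re, Complex.mul_I_im, Complex.ofReal_re, Complex.ofReal_im,
    Complex.I_re, Complex.I_im]
  push_cast
  ring

/-- The pointwise identity of quadratic forms. -/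
theorem form_identity (h : Good p B N X)
    (hrig : X.γ * eps N X ^ 2 * ‖ratio p N X 0‖ ^ 2 = 1)
    (hnorm : ∀ x, ‖ratio p N X x‖ = ‖ratio p N X 0‖) (x v w : Pl) :
    eps N X ^ 2 * Real.exp (wexp p N X x) ^ 2 *
        (fderiv ℝ (wexp p N X) x v * fderiv ℝ (wexp p N X) x w +
          X.γ * (1 + (jet p N X x).H) *
            inner ℝ (v.1 • zA p N X x + v.2 • zB p N X x) (w.1 • zA p N X x + w.2 • zB p N X x)) =
      Real.exp (p.u x) ^ 2 * (p.a ^ 2 * (v.1 * w.1) + p.b ^ 2 * (v.2 * w.2)) := by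
  obtain ⟨f11, f12, f22, -⟩ := frame_facts h x
  have hD : ∀ z : Pl, fderiv ℝ (wexp p N X) x z =
      z.1 * (p.a * (der p.η1 p.u x + (jet p N X x).v1)) +
        z.2 * (p.b * (der p.η2 p.u x + (jet p N X x).v2)) := by
    intro z
    have hz : z = z.1 • e1 + z.2 • e2 := by ext <;> simp [e1, e2]
    obtain ⟨⟨g1, g2⟩, -⟩ := hd_all p h.hX x
    have hu := fun η => hd_data η x p.hu
    have a1 := ((hu p.η1).add g1).2
    have a2 := ((hu p.η2).add g2).2
    conv_lhs => rw [hz, map_add, map_smul, map_smul]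
    change z.1 • der e1 (wexp p N X) x + z.2 • der e2 (wexp p N X) x = _
    rw [der_e1 (p := p), der_e2 (p := p)]
    unfold wexp jq
    rw [a1, a2]
    simp only [smul_eq_mul]
  have hV : ∀ z : Pl, z.1 • zA p N X x + z.2 • zB p N X x = ratio p N X x *
      (((lam p N X x : ℝ) : ℂ) * (((z.1 * p.a : ℝ) : ℂ) * fr1 p N X x +
        ((z.2 * p.b : ℝ) : ℂ) * fr2 p N X x)) := by
    intro z
    rw [(z_eq_ratio h x).1, (z_eq_ratio h x).2, cp, cq, Complex.real_smul, Complex.real_smul]
    push_cast; ring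
  have hi : ∀ (g : ℂ) (r : ℝ) (V W : ℂ), inner ℝ (g * ((r : ℂ) * V)) (g * ((r : ℂ) * W)) =
      ‖g‖ ^ 2 * r ^ 2 * inner ℝ V W := by
    intro g r V W
    rw [← Complex.normSq_eq_norm_sq]
    simp only [Complex.inner, Complex.normSq_apply, Complex.mul_re, Complex.mul_im,
      Complex.conj_re, Complex.conj_im, Complex.ofReal_re, Complex.ofReal_im]
    ring
  rw [hV, hV, hi, hnorm x, hD, hD]
  have hF : inner ℝ (((v.1 * p.a : ℝ) : ℂ) * fr1 p N X x + ((v.2 * p.b : ℝ) : ℂ) * fr2 p N X x)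
      (((w.1 * p.a : ℝ) : ℂ) * fr1 p N X x + ((w.2 * p.b : ℝ) : ℂ) * fr2 p N X x) =
      Real.exp (-(jet p N X x).v) ^ 2 * ((v.1 * p.a) * (w.1 * p.a) * (1 - (jet p N X x).W1 ^ 2) +
        ((v.1 * p.a) * (w.2 * p.b) + (v.2 * p.b) * (w.1 * p.a)) *
          (-((jet p N X x).W1 * (jet p N X x).W2)) +
        (v.2 * p.b) * (w.2 * p.b) * (1 - (jet p N X x).W2 ^ 2)) := by
    have g11 := congrArg Complex.re f11
    have g12 := congrArg Complex.re f12
    have g22 := congrArg Complex.re f22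
    rw [Complex.ofReal_re] at g11 g22
    rw [Complex.re_ofReal_mul] at g12
    simp only [Complex.inner, Complex.mul_re, Complex.mul_im, Complex.conj_re, Complex.conj_im,
      Complex.add_re, Complex.add_im, Complex.mul_I_re, Complex.mul_I_im, Complex.ofReal_re,
      Complex.ofReal_im, Complex.I_re, Complex.I_im] at g11 g12 g22 ⊢
    linear_combination ((v.1 * p.a) * (w.1 * p.a)) * g11 +
      ((v.1 * p.a) * (w.2 * p.b) + (v.2 * p.b) * (w.1 * p.a)) * g12 +
      ((v.2 * p.b) * (w.2 * p.b)) * g22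
  rw [hF]
  have hH := h.H_gt x
  have hs : lam p N X x ^ 2 = (1 + (jet p N X x).H)⁻¹ := by
    rw [lam, inv_pow, Real.sq_sqrt hH.le]
  rw [hs]
  have hW1 : (jet p N X x).W1 = eps N X * Real.exp (jet p N X x).v *
      (der p.η1 p.u x + (jet p N X x).v1) := rfl
  have hW2 : (jet p N X x).W2 = eps N X * Real.exp (jet p N X x).v *
      (der p.η2 p.u x + (jet p N X x).v2) := rfl
  rw [hW1, hW2, Real.exp_neg,
    show Real.exp (wexp p N X x) = Real.exp (p.u x) * Real.exp (jet p N X x).v from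
      Real.exp_add _ _]
  have hk : X.γ * ‖ratio p N X 0‖ ^ 2 * eps N X ^ 2 = 1 := by linear_combination hrig
  have he := Real.exp_ne_zero (jet p N X x).v
  field_simp
  linear_combination ((v.1 * p.a * (w.1 * p.a) * (1 - (eps N X * Real.exp (jet p N X x).v *
        (der p.η1 p.u x + (jet p N X x).v1)) ^ 2) +
      (v.1 * p.a * (w.2 * p.b) + v.2 * p.b * (w.1 * p.a)) *
        (-((eps N X * Real.exp (jet p N X x).v * (der p.η1 p.u x + (jet p N X x).v1)) *
          (eps N X * Real.exp (jet p N X x).v * (der p.η2 p.u x + (jet p N X x).v2)))) +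
      v.2 * p.b * (w.2 * p.b) * (1 - (eps N X * Real.exp (jet p N X x).v *
        (der p.η2 p.u x + (jet p N X x).v2)) ^ 2))) * hk

theorem norm_scale (h : Good p B N X) : X.γ * eps N X ^ 2 * ‖ratio p N X 0‖ ^ 2 = 1 := by
  have hk : newK p N X = X.κ := congrArg St.κ h.fix
  have hf : newF p N X = X.f := congrArg St.f h.fix
  have hg : newG p N X = X.γ := congrArg St.γ h.fix
  rw [newK, hf, hg, kapFun] at hk
  have hp := Real.sqrt_pos.1 (hk.symm ▸ h.kpos)
  have hsq := Real.sq_sqrt hp.le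
  rw [hk] at hsq
  simp only [] at hsq hp
  rw [norm_ratio_sq h 0]
  have hN : (N : ℝ) ≠ 0 := by
    have := h.hN
    positivity
  have hA : YP p N X 0 = (N : ℝ) ^ 2 * (p.c0 ^ 2 + qR0 p N X 0) := by
    simp only [YP, Jet.P1, Jet.P2, Jet.Y2, qR0, Dat.c0]
    simp only [jet]
    field_simp
    ring
  have hv : (jet p N X 0).v = qPH p N X 0 + (ev X.f 0).re := rfl
  have hden : X.γ * ((1 + (jet p N X 0).H) * (p.c0 ^ 2 + qR0 p N X 0)) ≠ 0 := by
    intro h0
    rw [h0, div_zero] at hp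
    exact lt_irrefl _ hp
  rw [hA, hv, eps, mul_pow, hsq]
  have hS := (sub_pos.2 (h.S_lt 0)).ne'
  have e : Real.exp (-2 * (qPH p N X 0 + (ev X.f 0).re)) =
      (Real.exp (qPH p N X 0 + (ev X.f 0).re) ^ 2)⁻¹ := by
    rw [← Real.exp_nat_mul, ← Real.exp_neg]; congr 1; push_cast; ring
  rw [e]
  have := Real.exp_ne_zero (qPH p N X 0 + (ev X.f 0).re)
  have hH := (h.H_gt 0).ne'
  have hq := (mul_ne_zero_iff.1 (mul_ne_zero_iff.1 hden).2).2
  have hγ := h.gpos.ne'
  field_simp

theorem exists_glide_immersion (h : Good p B N X) {k : ℕ} (hk : N = 2 * k)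
    (hm : 1 ≤ p.m N) (hnorm : ∀ x, ‖ratio p N X x‖ = ‖ratio p N X 0‖)
    {P : ℂ → EuclideanSpace ℝ (Fin 4)} (hP : ContDiff ℝ ∞ P) (hP1 : ∀ z, ‖P z‖ = 1)
    (hPg : ∀ z, P ((starRingEnd ℂ) z + (kTheta (p.m N) X.γ : ℂ)) = P z)
    (hPy : ∀ z, P (z + ((4 * Real.pi : ℝ) : ℂ) * I) = P z)
    (hPm : ∀ z v w, inner ℝ (fderiv ℝ P z v) (fderiv ℝ P z w) =
      X.γ * (1 + kH X.γ (kL (p.m N)) z.im) * inner ℝ v w) :
    ∃ Φ : Pl → EuclideanSpace ℝ (Fin 4), ContDiff ℝ ∞ Φ ∧ (∀ x, Φ (glide x) = Φ x) ∧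
      (∀ x, Φ (x + e2) = Φ x) ∧ ∀ x v w, inner ℝ (fderiv ℝ Φ x v) (fderiv ℝ Φ x w) =
        Real.exp (p.u x) ^ 2 * (p.a ^ 2 * (v.1 * w.1) + p.b ^ 2 * (v.2 * w.2)) := by
  have hN : (N : ℝ) ≠ 0 := by
    have := h.hN
    positivity
  have hΘ : (p.a * N * Jint p N X) ^ 2 = kTheta (p.m N) X.γ ^ 2 := by
    have hg : newG p N X = X.γ := congrArg St.γ h.fix
    have hJ : Jint p N X ≠ 0 := by
      intro h0
      have := h.gpos
      rw [← hg, newG, h0] at this
      simp at this
    rw [← hg, newG, kTheta, mul_pow, mul_pow Real.pi,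
      Real.sq_sqrt (div_nonneg (by positivity) (by
        rw [← newG, hg]; linarith [h.gpos]))]
    have hγ : kN p N ≠ 0 := by
      intro h0
      have := h.gpos
      rw [← hg, newG, h0] at this
      simp at this
    have hs : ((p.m N : ℝ) ^ 2 + ((p.m N : ℝ) - 1) ^ 2) ≠ 0 := by
      intro h0; apply hγ; rw [kN, h0]; simp
    have := p.apos.ne'
    have := Real.pi_ne_zero
    rw [kN]
    field_simp
  obtain ⟨s, hs2, hsΘ⟩ : ∃ s : ℝ, s * s = 1 ∧ s * theta p N X (1 / 2, 0) = kTheta (p.m N) X.γ := by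
    rw [theta_half h]
    rcases eq_or_eq_neg_of_sq_eq_sq _ _ hΘ with e | e
    · exact ⟨1, one_mul 1, by rw [e, one_mul]⟩
    · exact ⟨-1, by norm_num, by rw [e]; ring⟩
  have hw : ∀ x, wexp p N X (glide x) = wexp p N X x := fun x => by
    simp only [wexp, v_glide h, p.usym]
  have hwe : ∀ x, wexp p N X (x + e2) = wexp p N X x := fun x => by
    simp only [wexp, p.hu.per.add2, h.sv.per.add2]
  have hZg : ∀ x, P (zeta p N X s (glide x)) = P (zeta p N X s x) := fun x => by
    conv_rhs => rw [← hPg]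
    congr 1
    simp only [zeta, hYt_glide h, theta_glide h, mul_add, hsΘ, map_add, map_mul, Complex.conj_ofReal,
      Complex.conj_I]
    push_cast
    ring
  have hZe : ∀ x, P (zeta p N X s (x + e2)) = P (zeta p N X s x) := fun x => by
    have hY : hYt N X (x + e2) = hYt N X x + k * (4 * Real.pi) := by
      simp only [hYt, qE, (SP_re_ev h.hX.re).per.add2]
      simp [hY0, e2, hk]
      ring
    have hper : Function.Periodic P (((4 * Real.pi : ℝ) : ℂ) * I) := hPy
    rw [← (hper.nat_mul k) (zeta p N X s x)]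
    congr 1
    simp only [zeta, theta_e2 h, hY]
    push_cast
    ring
  have hZs := contDiff_zeta h s
  have hws : ContDiff ℝ ∞ (wexp p N X) := p.hu.smooth.add h.sv.smooth
  set ε := eps N X with hε
  refine ⟨fun x => (ε * Real.exp (wexp p N X x)) • P (zeta p N X s x),
    (contDiff_const.mul hws.exp).smul (hP.comp hZs), fun x => by simp only [hw, hZg],
    fun x => by simp only [hwe, hZe], fun x v w => ?_⟩
  set J : Pl →L[ℝ] EuclideanSpace ℝ (Fin 4) := fderiv ℝ (fun y => P (zeta p N X s y)) x with hJ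
  have hG : HasFDerivAt (fun y => P (zeta p N X s y)) J x :=
    ((hP.comp hZs).differentiable (by simp) x).hasFDerivAt
  have hJa : ∀ z, J z = fderiv ℝ P (zeta p N X s x) (fderiv ℝ (zeta p N X s) x z) := fun z => by
    rw [hJ, show (fun y => P (zeta p N X s y)) = P ∘ zeta p N X s from rfl,
      fderiv_comp x (hP.differentiable (by simp) _) (hZs.differentiable (by simp) x)]
    rfl
  have horth : ∀ z, inner ℝ (P (zeta p N X s x)) (J z) = (0 : ℝ) := by
    intro z
    have h1 := (hG.inner ℝ hG).fderiv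
    have h2 : (fun y => inner ℝ (P (zeta p N X s y)) (P (zeta p N X s y))) =
        fun _ : Pl => (1 : ℝ) :=
      funext fun y => by rw [real_inner_self_eq_norm_sq, hP1, one_pow]
    rw [h2] at h1
    have h3 := DFunLike.congr_fun h1 z
    simp [fderivInnerCLM_apply, real_inner_comm] at h3
    linarith
  have hwd := (hws.differentiable (by simp) x).hasFDerivAt
  have hd := ((hwd.exp.const_mul ε).fun_smul hG).fderiv
  have hΦd : ∀ z, fderiv ℝ (fun x => (ε * Real.exp (wexp p N X x)) • P (zeta p N X s x)) x z =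
      (ε * Real.exp (wexp p N X x)) •
        (fderiv ℝ (wexp p N X) x z • P (zeta p N X s x) + J z) := by
    intro z
    rw [hd]
    simp [smul_add, smul_smul, mul_comm, mul_left_comm, add_comm]
  have hnn : inner ℝ (P (zeta p N X s x)) (P (zeta p N X s x)) = (1 : ℝ) := by
    rw [real_inner_self_eq_norm_sq, hP1, one_pow]
  rw [hΦd, hΦd]
  simp only [inner_smul_left, inner_smul_right, inner_add_left, inner_add_right, horth,
    real_inner_comm (P (zeta p N X s x)) (J v), hnn, conj_trivial]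
  rw [hJa v, hJa w, hPm, fderiv_zeta h, fderiv_zeta h]
  have him : (zeta p N X s x).im = hYt N X x := by simp [zeta]
  have hH : kH X.γ (kL (p.m N)) (hYt N X x) = (jet p N X x).H := rfl
  rw [him, hH]
  rw [← form_identity h (norm_scale h) hnorm x v w]
  simp only [Complex.inner, Complex.mul_re, Complex.conj_re, Complex.conj_im, Complex.add_re,
    Complex.add_im, Complex.mul_I_re, Complex.mul_I_im, Complex.ofReal_re, Complex.ofReal_im,
    Complex.I_re, Complex.I_im]
  linear_combination (ε ^ 2 * Real.exp (wexp p N X x) ^ 2 * (X.γ * (1 + (jet p N X x).H)) *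
    (((v.1 • zA p N X x).re + (v.2 • zB p N X x).re) *
      ((w.1 • zA p N X x).re + (w.2 • zB p N X x).re))) * hs2

end Vale.Agent.P205.Full.Klein
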