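import Vale.Agent.P205.Full.Klein.Calc

/-!
Real valued families and the basic atoms of the order calculus.
-/

open scoped ContDiff
open Complex

namespace Vale.Agent.P205.Full.Klein

/-- A real family. -/
abbrev RFam : Type := ℕ → St → Pl → ℝ

/-- The complexification of a real family. -/
noncomputable def cpx (φ : RFam) : Fam := fun N X x => (φ N X x : ℂ)

/-- The order of a real family. -/
def RE (κ0 : ℝ) (w : ℕ → ℝ) (φ : RFam) : Prop := Est κ0 w (cpx φ)

/-- A real family controlled by lower order norms. -/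
def RL (κ0 : ℝ) (φ : RFam) : Prop := Low κ0 (cpx φ)

/-- A bounded order. -/
def o1 : ℕ → ℝ := fun _ => 1
/-- A small order. -/
noncomputable def oS : ℕ → ℝ := fun N => ((N : ℝ))⁻¹
/-- A large order. -/
def oL : ℕ → ℝ := fun N => (N : ℝ)

variable {κ0 : ℝ} {w w1 w2 : ℕ → ℝ} {φ ψ : RFam}

theorem RE.congr (h : RE κ0 w φ) (he : ∀ N X x, φ N X x = ψ N X x) : RE κ0 w ψ :=
  Est.congr h fun N X x => by simp [cpx, he N X x]

theorem RL.congr (h : RL κ0 φ) (he : ∀ N X x, φ N X x = ψ N X x) : RL κ0 ψ :=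
  Low.congr h fun N X x => by simp [cpx, he N X x]

theorem RE.mono (h : RE κ0 w φ) {K : ℝ} {M : ℕ} (hK : 0 ≤ K)
    (hle : ∀ N, M ≤ N → w N ≤ K * w1 N ∧ 0 ≤ w1 N) : RE κ0 w1 φ :=
  Est.mono h hK hle

theorem RE.add (hφ : RE κ0 w φ) (hψ : RE κ0 w ψ) : RE κ0 w (fun N X x => φ N X x + ψ N X x) :=
  (Est.add hφ hψ).congr fun N X x => by simp [cpx]

theorem RE.mul (hφ : RE κ0 w1 φ) (hψ : RE κ0 w2 ψ) :
    RE κ0 (fun N => w1 N * w2 N) (fun N X x => φ N X x * ψ N X x) :=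
  (Est.mul hφ hψ).congr fun N X x => by simp [cpx]

theorem RL.add (hφ : RL κ0 φ) (hψ : RL κ0 ψ) : RL κ0 (fun N X x => φ N X x + ψ N X x) :=
  (Low.add hφ hψ).congr fun N X x => by simp [cpx]

theorem RL.mul (hφ : RL κ0 φ) (hψ : RL κ0 ψ) : RL κ0 (fun N X x => φ N X x * ψ N X x) :=
  (Low.mul hφ hψ).congr fun N X x => by simp [cpx]

theorem RE.exp (hφ : RE κ0 o1 φ) (hl : RL κ0 φ) :
    RE κ0 o1 (fun N X x => Real.exp (φ N X x)) :=
  (Est.exp hφ hl).congr fun N X x => by simp [cpx, Complex.ofReal_exp]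

theorem RL.exp (hl : RL κ0 φ) : RL κ0 (fun N X x => Real.exp (φ N X x)) :=
  (Low.exp hl).congr fun N X x => by simp [cpx, Complex.ofReal_exp]

theorem est_fixed {g : ℕ → Pl → ℂ} (hg : ∀ N, SP (g N)) {K : ℝ} (hK : 0 ≤ K)
    (hw : ∀ N, 1 ≤ N → 0 ≤ w N) (hb : ∀ N, 1 ≤ N → nrm 0 (sqCoef (g N)) ≤ K * w N) :
    Est κ0 w (fun N _ x => g N x) := by
  intro B
  refine ⟨K, 1, hK, le_rfl, fun N hN => ⟨hw N hN, fun X _ => hg N, fun X _ => hb N hN,
    fun X Y _ _ => ?_, fun j R => ⟨nrm j (sqCoef (g N)), fun X _ _ _ => ?_⟩⟩⟩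
  · simp only [cf, sub_self, nrm_zero]
    exact mul_nonneg (mul_nonneg hK (div_nonneg (hw N hN) (Nat.cast_nonneg _))) (dst_nonneg _ _ _)
  · simp only [cf, le_add_iff_nonneg_left]
    exact mul_nonneg (mul_nonneg hK (div_nonneg (hw N hN) (Nat.cast_nonneg _))) (topN_nonneg _ _ _)

theorem low_fixed {g : ℕ → Pl → ℂ} (hg : ∀ N, SP (g N)) : Low κ0 (fun N _ x => g N x) :=
  fun _ => ⟨0, fun N _ j _ => ⟨nrm j (sqCoef (g N)), fun _ _ _ _ => ⟨hg N, le_rfl⟩⟩⟩

theorem re_seq {s : ℕ → ℝ} {K : ℝ} (hK : 0 ≤ K) (hw : ∀ N, 1 ≤ N → 0 ≤ w N)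
    (hb : ∀ N, 1 ≤ N → |s N| ≤ K * w N) : RE κ0 w (fun N _ _ => s N) :=
  est_fixed (g := fun N _ => (s N : ℂ)) (fun N => sp_const _) hK hw fun N hN => by
    rw [sqCoef_const, nrm_smul, nrm_unit, mul_one, norm_real, Real.norm_eq_abs]
    exact hb N hN

theorem rl_seq (s : ℕ → ℝ) : RL κ0 (fun N _ _ => s N) :=
  low_fixed (g := fun N _ => (s N : ℂ)) fun _ => sp_const _

theorem re_const (a : ℝ) : RE κ0 o1 (fun _ _ _ => a) :=
  re_seq (K := |a|) (abs_nonneg a) (fun _ _ => zero_le_one) fun _ _ => by simp [o1]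

theorem rl_const (a : ℝ) : RL κ0 (fun _ _ _ => a) := rl_seq fun _ => a

theorem RE.smul (a : ℝ) (hφ : RE κ0 w φ) : RE κ0 w (fun N X x => a * φ N X x) := by
  intro B
  obtain ⟨C, N0, h⟩ := ((re_const a).mul hφ) B
  exact ⟨C, N0, by simpa [o1] using h⟩

theorem RE.neg (hφ : RE κ0 w φ) : RE κ0 w (fun N X x => -φ N X x) :=
  (hφ.smul (-1)).congr fun N X x => by ring

theorem RE.sub (hφ : RE κ0 w φ) (hψ : RE κ0 w ψ) : RE κ0 w (fun N X x => φ N X x - ψ N X x) :=
  (hφ.add hψ.neg).congr fun N X x => by ring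

theorem RL.smul (a : ℝ) (hφ : RL κ0 φ) : RL κ0 (fun N X x => a * φ N X x) := (rl_const a).mul hφ

theorem inv_nat_le {B : ℝ} {N : ℕ} (hN : 1 ≤ N) : B / N ≤ |B| := by
  have h : (1 : ℝ) ≤ N := by exact_mod_cast hN
  calc B / N ≤ |B| / N := div_le_div_of_nonneg_right (le_abs_self B) (by linarith)
    _ ≤ |B| := div_le_self (abs_nonneg B) h

/-- A scalar unknown. -/
theorem re_scalar {π : St → ℝ} {c0 : ℝ}
    (hb : ∀ B N X, InBall κ0 B N X → |π X - c0| ≤ B / N)
    (hl : ∀ (N : ℕ) X Y, (N : ℝ) * |π X - π Y| ≤ dst N X Y) :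
    RE κ0 o1 (fun _ X _ => π X) ∧ RL κ0 (fun _ X _ => π X) := by
  have hval : ∀ B N X, 1 ≤ N → InBall κ0 B N X → |π X| ≤ |c0| + |B| := fun B N X hN hX => by
    have := hb B N X hX
    have := inv_nat_le (B := B) hN
    have := abs_sub_abs_le_abs_sub (π X) c0
    linarith
  have hcf : ∀ N X, cf (cpx fun _ X _ => π X) N X = ((π X : ℝ) : ℂ) • unit :=
    fun N X => sqCoef_const _
  refine ⟨fun B => ⟨|c0| + |B| + 1, 1, by positivity, le_rfl, fun N hN => ⟨zero_le_one,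
    fun X _ => sp_const _, fun X hX => ?_, fun X Y _ _ => ?_, fun j R => ⟨|c0| + |B|, fun X hX _ _ => ?_⟩⟩⟩,
    fun B => ⟨1, fun N hN j R => ⟨|c0| + |B|, fun X hX _ _ => ⟨sp_const _, ?_⟩⟩⟩⟩
  · rw [hcf, nrm_smul, nrm_unit, norm_real, Real.norm_eq_abs, o1]
    linarith [hval B N X hN hX]
  · rw [hcf, hcf, ← sub_smul, ← Complex.ofReal_sub, nrm_smul, nrm_unit, norm_real,
      Real.norm_eq_abs, o1, mul_one]
    have hNp : (0 : ℝ) < N := by exact_mod_cast hN
    have h := hl N X Y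
    have hd := dst_nonneg N X Y
    have : |π X - π Y| ≤ dst N X Y / N := by rw [le_div_iff₀ hNp]; linarith
    refine this.trans ?_
    rw [div_eq_mul_inv, one_div, mul_comm]
    refine mul_le_mul_of_nonneg_right (le_mul_of_one_le_left (by positivity) ?_) hd
    linarith [abs_nonneg c0, abs_nonneg B]
  · rw [hcf, nrm_smul, nrm_unit, norm_real, Real.norm_eq_abs, o1, mul_one]
    have : 0 ≤ (|c0| + |B| + 1) * (1 / (N : ℝ)) * topN N j X :=
      mul_nonneg (by positivity) (topN_nonneg _ _ _)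
    linarith [hval B N X hN hX]
  · rw [hcf, nrm_smul, nrm_unit, norm_real, Real.norm_eq_abs, mul_one]
    exact hval B N X hN hX

theorem re_kap : RE κ0 o1 (fun _ X _ => X.κ) ∧ RL κ0 (fun _ X _ => X.κ) :=
  re_scalar (fun _ _ _ h => h.nk) fun N X Y => by
    unfold dst
    have := nrm_nonneg 2 (X.f - Y.f); have := nrm_nonneg 1 (X.e - Y.e)
    have := nrm_nonneg 2 (X.e - Y.e); have := abs_nonneg (X.γ - Y.γ)
    have : (0 : ℝ) ≤ N := Nat.cast_nonneg N
    nlinarith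

theorem re_gam : RE κ0 o1 (fun _ X _ => X.γ) ∧ RL κ0 (fun _ X _ => X.γ) :=
  re_scalar (fun _ _ _ h => h.ng) fun N X Y => by
    unfold dst
    have := nrm_nonneg 2 (X.f - Y.f); have := nrm_nonneg 1 (X.e - Y.e)
    have := nrm_nonneg 2 (X.e - Y.e); have := abs_nonneg (X.κ - Y.κ)
    have : (0 : ℝ) ≤ N := Nat.cast_nonneg N
    nlinarith

theorem cf_re_ev {T : St → Coef} {B : ℝ} {N : ℕ} {X : St}
    (hm : InBall κ0 B N X → ∀ m, Mem m (T X)) (hs : InBall κ0 B N X → Sym (T X))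
    (hX : InBall κ0 B N X) :
    SP (cpx (fun _ X x => (ev (T X) x).re) N X) ∧ cf (cpx fun _ X x => (ev (T X) x).re) N X = T X := by
  have h : cpx (fun _ X x => (ev (T X) x).re) N X = ev (T X) :=
    funext fun x => (Complex.conj_eq_iff_re.1 (ev_real (hs hX) x))
  exact ⟨by rw [h]; exact sp_ev (hm hX), by rw [cf, h]; exact funext (sqCoef_ev (hm hX 0))⟩

/-- A linear unknown field. -/
theorem re_field {T : St → Coef} {D : ℝ} (hD : 0 ≤ D)
    (hm : ∀ B N X, InBall κ0 B N X → ∀ m, Mem m (T X))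
    (hs : ∀ B N X, InBall κ0 B N X → Sym (T X))
    (hw : ∀ N, 1 ≤ N → 0 ≤ w N)
    (hb : ∀ B N X, 1 ≤ N → InBall κ0 B N X → nrm 0 (T X) ≤ D * |B| * w N)
    (hl : ∀ B N X Y, 1 ≤ N → InBall κ0 B N X → InBall κ0 B N Y →
      nrm 0 (T X - T Y) ≤ D * (w N / N) * dst N X Y)
    (hh : ∀ B N j R X, 1 ≤ N → InBall κ0 B N X → nrm (j + 1) X.f ≤ R → nrm (j + 1) X.e ≤ R →
      nrm j (T X) ≤ D * (w N / N) * topN N j X + D * R) :
    RE κ0 w (fun _ X x => (ev (T X) x).re) := by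
  intro B
  refine ⟨D * (|B| + 1), 1, by positivity, le_rfl, fun N hN => ⟨hw N hN,
    fun X hX => (cf_re_ev (hm B N X) (hs B N X) hX).1, fun X hX => ?_, fun X Y hX hY => ?_,
    fun j R => ⟨D * R, fun X hX hf he => ?_⟩⟩⟩
  · rw [(cf_re_ev (hm B N X) (hs B N X) hX).2]
    refine (hb B N X hN hX).trans (mul_le_mul_of_nonneg_right ?_ (hw N hN))
    nlinarith
  · rw [(cf_re_ev (hm B N X) (hs B N X) hX).2, (cf_re_ev (hm B N Y) (hs B N Y) hY).2]
    refine (hl B N X Y hN hX hY).trans (mul_le_mul_of_nonneg_right (mul_le_mul_of_nonneg_right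
      (le_mul_of_one_le_right hD (by linarith [abs_nonneg B])) ?_) (dst_nonneg _ _ _))
    exact div_nonneg (hw N hN) (Nat.cast_nonneg _)
  · rw [(cf_re_ev (hm B N X) (hs B N X) hX).2]
    refine (hh B N j R X hN hX hf he).trans (add_le_add (mul_le_mul_of_nonneg_right
      (mul_le_mul_of_nonneg_right (le_mul_of_one_le_right hD (by linarith [abs_nonneg B])) ?_)
      (topN_nonneg _ _ _)) le_rfl)
    exact div_nonneg (hw N hN) (Nat.cast_nonneg _)

/-- A lower order linear field. -/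
theorem rl_field {T : St → Coef} {D : ℝ}
    (hm : ∀ B N X, InBall κ0 B N X → ∀ m, Mem m (T X))
    (hs : ∀ B N X, InBall κ0 B N X → Sym (T X))
    (hh : ∀ B N j R X, InBall κ0 B N X → nrm (j + 1) X.f ≤ R → nrm (j + 1) X.e ≤ R →
      nrm j (T X) ≤ D * R) :
    RL κ0 (fun _ X x => (ev (T X) x).re) :=
  fun B => ⟨0, fun N _ j R => ⟨D * R, fun X hX hf he =>
    ⟨(cf_re_ev (hm B N X) (hs B N X) hX).1, by
      rw [(cf_re_ev (hm B N X) (hs B N X) hX).2]; exact hh B N j R X hX hf he⟩⟩⟩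

variable {B : ℝ} {N : ℕ} {X Y : St}

theorem InBall.f_le (h : InBall κ0 B N X) (hN : 1 ≤ N) : nrm 2 X.f ≤ |B| :=
  h.nf.trans (inv_nat_le hN)

theorem InBall.e1_le (h : InBall κ0 B N X) (hN : 1 ≤ N) : nrm 1 X.e ≤ |B| :=
  h.ne1.trans (inv_nat_le hN)

theorem dst_f (hN : 1 ≤ N) (X Y : St) : nrm 2 (X.f - Y.f) ≤ 1 / (N : ℝ) * dst N X Y := by
  have hNp : (0 : ℝ) < N := by exact_mod_cast hN
  rw [one_div, inv_mul_eq_div, le_div_iff₀ hNp]
  unfold dst
  have := nrm_nonneg 1 (X.e - Y.e); have := nrm_nonneg 2 (X.e - Y.e)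
  have := abs_nonneg (X.γ - Y.γ); have := abs_nonneg (X.κ - Y.κ)
  nlinarith

theorem dst_e1 (hN : 1 ≤ N) (X Y : St) : nrm 1 (X.e - Y.e) ≤ 1 / (N : ℝ) * dst N X Y := by
  have hNp : (0 : ℝ) < N := by exact_mod_cast hN
  rw [one_div, inv_mul_eq_div, le_div_iff₀ hNp]
  unfold dst
  have := nrm_nonneg 2 (X.f - Y.f); have := nrm_nonneg 2 (X.e - Y.e)
  have := abs_nonneg (X.γ - Y.γ); have := abs_nonneg (X.κ - Y.κ)
  nlinarith

theorem dst_e2 (X Y : St) : nrm 2 (X.e - Y.e) ≤ dst N X Y := by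
  unfold dst
  have := nrm_nonneg 2 (X.f - Y.f); have := nrm_nonneg 1 (X.e - Y.e)
  have := abs_nonneg (X.γ - Y.γ); have := abs_nonneg (X.κ - Y.κ)
  have : (0 : ℝ) ≤ N := Nat.cast_nonneg N
  have : 0 ≤ (N : ℝ) * (nrm 2 (X.f - Y.f) + nrm 1 (X.e - Y.e) + |X.κ - Y.κ| + |X.γ - Y.γ|) := by
    positivity
  linarith

/-- The unknown exponent. -/
noncomputable def qF : RFam := fun _ X x => (ev X.f x).re
/-- The unknown height. -/
noncomputable def qE : RFam := fun _ X x => (ev X.e x).re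
/-- First derivative of the exponent. -/
noncomputable def qF1 (η : Pl) : RFam := fun _ X x => (ev (dC η X.f) x).re
/-- First derivative of the height. -/
noncomputable def qE1 (η : Pl) : RFam := fun _ X x => (ev (dC η X.e) x).re
/-- Second derivative of the exponent. -/
noncomputable def qF2 (ξ η : Pl) : RFam := fun _ X x => (ev (dC ξ (dC η X.f)) x).re
/-- Second derivative of the height. -/
noncomputable def qE2 (ξ η : Pl) : RFam := fun _ X x => (ev (dC ξ (dC η X.e)) x).re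

theorem re_qF : RE κ0 o1 qF ∧ RL κ0 qF :=
  ⟨re_field (T := fun X => X.f) (D := 1) zero_le_one (fun _ _ _ h => h.rf) (fun _ _ _ h => h.sf)
    (fun _ _ => zero_le_one)
    (fun B N X hN h => by
      simpa [o1] using (nrm_mono (Nat.zero_le 2) (h.rf 2)).trans (h.f_le hN))
    (fun B N X Y hN h h' => by
      simpa [o1] using (nrm_mono (Nat.zero_le 2) ((h.rf 2).sub (h'.rf 2))).trans (dst_f hN X Y))
    (fun B N j R X hN h hf he => by
      have := (nrm_mono (Nat.le_succ j) (h.rf _)).trans hf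
      have := topN_nonneg N j X
      have : 0 ≤ 1 * (o1 N / (N : ℝ)) * topN N j X := by simp only [o1]; positivity
      linarith),
   rl_field (T := fun X => X.f) (D := 1) (fun _ _ _ h => h.rf) (fun _ _ _ h => h.sf)
    fun B N j R X h hf he => by simpa using (nrm_mono (Nat.le_succ j) (h.rf _)).trans hf⟩

theorem re_qE : RE κ0 o1 qE ∧ RL κ0 qE :=
  ⟨re_field (T := fun X => X.e) (D := 1) zero_le_one (fun _ _ _ h => h.re) (fun _ _ _ h => h.se)
    (fun _ _ => zero_le_one)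
    (fun B N X hN h => by
      simpa [o1] using (nrm_mono (Nat.zero_le 1) (h.re 1)).trans (h.e1_le hN))
    (fun B N X Y hN h h' => by
      simpa [o1] using (nrm_mono (Nat.zero_le 1) ((h.re 1).sub (h'.re 1))).trans (dst_e1 hN X Y))
    (fun B N j R X hN h hf he => by
      have := (nrm_mono (Nat.le_succ j) (h.re _)).trans he
      have := topN_nonneg N j X
      have : 0 ≤ 1 * (o1 N / (N : ℝ)) * topN N j X := by simp only [o1]; positivity
      linarith),
   rl_field (T := fun X => X.e) (D := 1) (fun _ _ _ h => h.re) (fun _ _ _ h => h.se)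
    fun B N j R X h hf he => by simpa using (nrm_mono (Nat.le_succ j) (h.re _)).trans he⟩

theorem re_qF1 (η : Pl) : RE κ0 o1 (qF1 η) ∧ RL κ0 (qF1 η) :=
  ⟨re_field (T := fun X => dC η X.f) (D := dconst η) (dconst_nonneg η)
    (fun _ _ _ h m => (h.rf (m + 1)).dC η) (fun _ _ _ h => h.sf.dC η)
    (fun _ _ => zero_le_one)
    (fun B N X hN h => by
      simpa [o1, dconst] using (nrm_dC_le η (h.rf 1)).trans (mul_le_mul_of_nonneg_left
        ((nrm_mono one_le_two (h.rf 2)).trans (h.f_le hN)) (dconst_nonneg η)))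
    (fun B N X Y hN h h' => by
      rw [← dC_sub]
      simpa [o1, dconst, mul_assoc] using (nrm_dC_le η ((h.rf 1).sub (h'.rf 1))).trans
        (mul_le_mul_of_nonneg_left
          ((nrm_mono one_le_two ((h.rf 2).sub (h'.rf 2))).trans (dst_f hN X Y)) (dconst_nonneg η)))
    (fun B N j R X hN h hf he => by
      have := (nrm_dC_le η (h.rf (j + 1))).trans (mul_le_mul_of_nonneg_left hf (dconst_nonneg η))
      have := topN_nonneg N j X
      have := dconst_nonneg η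
      have h0 : 0 ≤ dconst η * (o1 N / (N : ℝ)) * topN N j X := by simp only [o1]; positivity
      unfold dconst at *
      linarith),
   rl_field (T := fun X => dC η X.f) (D := dconst η) (fun _ _ _ h m => (h.rf (m + 1)).dC η)
    (fun _ _ _ h => h.sf.dC η) fun B N j R X h hf he =>
      (nrm_dC_le η (h.rf (j + 1))).trans (mul_le_mul_of_nonneg_left hf (dconst_nonneg η))⟩

theorem re_qE1 (η : Pl) : RE κ0 o1 (qE1 η) ∧ RL κ0 (qE1 η) :=
  ⟨re_field (T := fun X => dC η X.e) (D := dconst η) (dconst_nonneg η)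
    (fun _ _ _ h m => (h.re (m + 1)).dC η) (fun _ _ _ h => h.se.dC η)
    (fun _ _ => zero_le_one)
    (fun B N X hN h => by
      simpa [o1, dconst] using (nrm_dC_le η (h.re 1)).trans (mul_le_mul_of_nonneg_left
        (h.e1_le hN) (dconst_nonneg η)))
    (fun B N X Y hN h h' => by
      rw [← dC_sub]
      simpa [o1, dconst, mul_assoc] using (nrm_dC_le η ((h.re 1).sub (h'.re 1))).trans
        (mul_le_mul_of_nonneg_left (dst_e1 hN X Y) (dconst_nonneg η)))
    (fun B N j R X hN h hf he => by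
      have := (nrm_dC_le η (h.re (j + 1))).trans (mul_le_mul_of_nonneg_left he (dconst_nonneg η))
      have := topN_nonneg N j X
      have := dconst_nonneg η
      have h0 : 0 ≤ dconst η * (o1 N / (N : ℝ)) * topN N j X := by simp only [o1]; positivity
      unfold dconst at *
      linarith),
   rl_field (T := fun X => dC η X.e) (D := dconst η) (fun _ _ _ h m => (h.re (m + 1)).dC η)
    (fun _ _ _ h => h.se.dC η) fun B N j R X h hf he =>
      (nrm_dC_le η (h.re (j + 1))).trans (mul_le_mul_of_nonneg_left he (dconst_nonneg η))⟩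

theorem nrm_dC2_le {m : ℕ} (ξ η : Pl) {c : Coef} (hc : Mem (m + 2) c) :
    nrm m (dC ξ (dC η c)) ≤ dconst ξ * dconst η * nrm (m + 2) c := by
  refine (nrm_dC_le ξ (hc.dC η)).trans ?_
  refine (mul_le_mul_of_nonneg_left (nrm_dC_le η hc) (dconst_nonneg ξ)).trans_eq ?_
  unfold dconst; ring

theorem re_qF2 (ξ η : Pl) : RE κ0 o1 (qF2 ξ η) := by
  have hK := mul_nonneg (dconst_nonneg ξ) (dconst_nonneg η)
  refine re_field (T := fun X => dC ξ (dC η X.f)) (D := dconst ξ * dconst η + 0) (by linarith)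
    (fun _ _ _ h m => ((h.rf (m + 1 + 1)).dC η).dC ξ) (fun _ _ _ h => (h.sf.dC η).dC ξ)
    (fun _ _ => zero_le_one) (fun B N X hN h => ?_) (fun B N X Y hN h h' => ?_)
    (fun B N j R X hN h hf he => ?_)
  · simpa [o1] using (nrm_dC2_le ξ η (h.rf 2)).trans (mul_le_mul_of_nonneg_left (h.f_le hN) hK)
  · rw [← dC_sub, ← dC_sub]
    simpa [o1, mul_assoc] using (nrm_dC2_le ξ η ((h.rf 2).sub (h'.rf 2))).trans
      (mul_le_mul_of_nonneg_left (dst_f hN X Y) hK)
  · have hNp : (0 : ℝ) < N := by exact_mod_cast hN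
    have h1 : nrm (j + 2) X.f ≤ o1 N / (N : ℝ) * topN N j X := by
      rw [o1, one_div, inv_mul_eq_div, le_div_iff₀ hNp, topN]
      nlinarith [nrm_nonneg (j + 2) X.e]
    have hR : 0 ≤ (dconst ξ * dconst η + 0) * R :=
      mul_nonneg (by linarith) ((nrm_nonneg _ _).trans hf)
    have := (nrm_dC2_le ξ η (h.rf (j + 2))).trans (mul_le_mul_of_nonneg_left h1 hK)
    linarith

theorem re_qE2 (ξ η : Pl) : RE κ0 oL (qE2 ξ η) := by
  have hK := mul_nonneg (dconst_nonneg ξ) (dconst_nonneg η)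
  refine re_field (T := fun X => dC ξ (dC η X.e)) (D := dconst ξ * dconst η + 0) (by linarith)
    (fun _ _ _ h m => ((h.re (m + 1 + 1)).dC η).dC ξ) (fun _ _ _ h => (h.se.dC η).dC ξ)
    (fun _ _ => Nat.cast_nonneg _) (fun B N X hN h => ?_) (fun B N X Y hN h h' => ?_)
    (fun B N j R X hN h hf he => ?_)
  · have hN1 : (1 : ℝ) ≤ N := by exact_mod_cast hN
    refine (nrm_dC2_le ξ η (h.re 2)).trans
      ((mul_le_mul_of_nonneg_left (h.ne2.trans (le_abs_self B)) hK).trans ?_)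
    rw [oL, add_zero]
    exact le_mul_of_one_le_right (mul_nonneg hK (abs_nonneg B)) hN1
  · rw [← dC_sub, ← dC_sub]
    have hNp : (N : ℝ) ≠ 0 := by
      have : 0 < N := hN
      exact_mod_cast this.ne'
    simpa [oL, hNp] using (nrm_dC2_le ξ η ((h.re 2).sub (h'.re 2))).trans
      (mul_le_mul_of_nonneg_left (dst_e2 (N := N) X Y) hK)
  · have hNp : (N : ℝ) ≠ 0 := by
      have : 0 < N := hN
      exact_mod_cast this.ne'
    have h1 : nrm (j + 2) X.e ≤ oL N / (N : ℝ) * topN N j X := by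
      simp [oL, hNp, topN]
      exact mul_nonneg (Nat.cast_nonneg N) (nrm_nonneg _ _)
    have hR : 0 ≤ (dconst ξ * dconst η + 0) * R :=
      mul_nonneg (by linarith) ((nrm_nonneg _ _).trans hf)
    have := (nrm_dC2_le ξ η (h.re (j + 2))).trans (mul_le_mul_of_nonneg_left h1 hK)
    linarith

end Vale.Agent.P205.Full.Klein
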