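import Vale.Agent.P205.Full.Klein.Parity

/-!
Consequences of an order: bounds with a leading constant independent of the radius.
-/

open scoped ContDiff
open Complex

namespace Vale.Agent.P205.Full.Klein

/-- The centre of the ball. -/
noncomputable def ctr (κ0 : ℝ) : St := ⟨0, 0, κ0, 1 / 2⟩

theorem ctr_mem {κ0 B : ℝ} (hB : 0 ≤ B) (N : ℕ) : InBall κ0 B N (ctr κ0) where
  rf := fun m => mem_zero' m
  re := fun m => mem_zero' m
  sf := fun k => by simp [ctr]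
  se := fun k => by simp [ctr]
  nf := by simpa [ctr, nrm_zero] using div_nonneg hB (Nat.cast_nonneg N)
  ne1 := by simpa [ctr, nrm_zero] using div_nonneg hB (Nat.cast_nonneg N)
  ne2 := by simpa [ctr, nrm_zero] using hB
  nk := by simpa [ctr] using div_nonneg hB (Nat.cast_nonneg N)
  ng := by simpa [ctr] using div_nonneg hB (Nat.cast_nonneg N)

theorem dst_ctr {κ0 B : ℝ} {N : ℕ} {X : St} (hN : 1 ≤ N) (hX : InBall κ0 B N X) :
    dst N X (ctr κ0) ≤ 5 * B := by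
  have hNp : (0 : ℝ) < N := by exact_mod_cast hN
  have h1 := mul_le_mul_of_nonneg_left
    (add_le_add (add_le_add (add_le_add hX.nf hX.ne1) hX.nk) hX.ng) hNp.le
  have h2 : (N : ℝ) * (B / N + B / N + B / N + B / N) = 4 * B := by field_simp; ring
  simp only [dst, ctr, sub_zero]
  linarith [hX.ne2]

/-- A real value with the bounds of an order. -/
structure Small (κ0 B C0 C : ℝ) (w : ℕ → ℝ) (φ : RFam) (N : ℕ) : Prop where
  sp : ∀ X, InBall κ0 B N X → SP (cpx φ N X)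
  nrm : ∀ X, InBall κ0 B N X → Full.nrm 0 (cf (cpx φ) N X) ≤ (C0 + C / N) * w N
  lip : ∀ X Y, InBall κ0 B N X → InBall κ0 B N Y →
    Full.nrm 0 (cf (cpx φ) N X - cf (cpx φ) N Y) ≤ C * (w N / N) * dst N X Y
  pt : ∀ X, InBall κ0 B N X → ∀ x, |φ N X x| ≤ (C0 + C / N) * w N
  ptlip : ∀ X Y, InBall κ0 B N X → InBall κ0 B N Y → ∀ x,
    |φ N X x - φ N Y x| ≤ C * (w N / N) * dst N X Y
  high : ∀ j R, ∃ D, ∀ X, InBall κ0 B N X → Full.nrm (j + 1) X.f ≤ R →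
    Full.nrm (j + 1) X.e ≤ R → Full.nrm j (cf (cpx φ) N X) ≤ C * (w N / N) * topN N j X + D

theorem RE.small {κ0 : ℝ} {w : ℕ → ℝ} {φ : RFam} (h : RE κ0 w φ) :
    ∃ C0, 0 ≤ C0 ∧ ∀ B, 0 ≤ B → ∃ (C : ℝ) (N0 : ℕ), 0 ≤ C ∧ 1 ≤ N0 ∧
      ∀ N, N0 ≤ N → 0 ≤ w N ∧ Small κ0 B C0 C w φ N := by
  obtain ⟨C0, M, hC0, -, hM⟩ := h 0
  refine ⟨C0, hC0, fun B hB => ?_⟩
  obtain ⟨C, N0, hC, h1, hN0⟩ := h B
  refine ⟨C * (5 * B + 1), max N0 M, by positivity, le_trans h1 (le_max_left _ _), fun N hN => ?_⟩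
  obtain ⟨hw, a⟩ := hN0 N (le_trans (le_max_left _ _) hN)
  obtain ⟨-, a0⟩ := hM N (le_trans (le_max_right _ _) hN)
  have hN1 : 1 ≤ N := le_trans h1 (le_trans (le_max_left _ _) hN)
  have hCC : C ≤ C * (5 * B + 1) := le_mul_of_one_le_right hC (by linarith)
  have hlip : ∀ X Y, InBall κ0 B N X → InBall κ0 B N Y →
      Full.nrm 0 (cf (cpx φ) N X - cf (cpx φ) N Y) ≤ C * (5 * B + 1) * (w N / N) * dst N X Y :=
    fun X Y hX hY => (a.lip X Y hX hY).trans (mul_le_mul_of_nonneg_right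
      (mul_le_mul_of_nonneg_right hCC (div_nonneg hw (Nat.cast_nonneg _))) (dst_nonneg _ _ _))
  have hn : ∀ X, InBall κ0 B N X →
      Full.nrm 0 (cf (cpx φ) N X) ≤ (C0 + C * (5 * B + 1) / N) * w N := by
    intro X hX
    have hc := ctr_mem (κ0 := κ0) hB N
    have m1 := mem_sqCoef (a.sp X hX) 0
    have m2 := mem_sqCoef (a.sp _ hc) 0
    have e : cf (cpx φ) N X = cf (cpx φ) N (ctr κ0) +
        (cf (cpx φ) N X - cf (cpx φ) N (ctr κ0)) := by abel
    rw [e]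
    refine (nrm_add_le m2 (m1.sub m2)).trans ((add_le_add (a0.bdd _ (ctr_mem le_rfl N))
      ((a.lip X _ hX hc).trans (mul_le_mul_of_nonneg_left (dst_ctr hN1 hX)
        (mul_nonneg hC (div_nonneg hw (Nat.cast_nonneg _)))))).trans ?_)
    have : 0 ≤ C * (w N / N) := mul_nonneg hC (div_nonneg hw (Nat.cast_nonneg _))
    have e2 : (C0 + C * (5 * B + 1) / N) * w N = C0 * w N + C * (w N / N) * (5 * B + 1) := by ring
    rw [e2]
    nlinarith
  refine ⟨hw, a.sp, hn, hlip, fun X hX x => ?_, fun X Y hX hY x => ?_, fun j R => ?_⟩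
  · have := norm_le_nrm0 (a.sp X hX) x
    simp only [cpx, norm_real, Real.norm_eq_abs] at this
    exact this.trans (hn X hX)
  · have := norm_sub_le_nrm0 (a.sp X hX) (a.sp Y hY) x
    simp only [cpx, ← Complex.ofReal_sub, norm_real, Real.norm_eq_abs] at this
    exact this.trans (hlip X Y hX hY)
  · obtain ⟨D, hD⟩ := a.high j R
    exact ⟨D, fun X hX hf he => (hD X hX hf he).trans (add_le_add (mul_le_mul_of_nonneg_right
      (mul_le_mul_of_nonneg_right hCC (div_nonneg hw (Nat.cast_nonneg _))) (topN_nonneg _ _ _))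
      le_rfl)⟩

theorem exists_lip {E : Type*} [NormedAddCommGroup E] [NormedSpace ℝ E] {φ : E → ℝ} {z0 : E}
    (h : ContDiffAt ℝ 1 φ z0) :
    ∃ r K : ℝ, 0 < r ∧ 0 ≤ K ∧ ∀ y z, ‖y - z0‖ < r → ‖z - z0‖ < r →
      |φ y - φ z| ≤ K * ‖y - z‖ := by
  obtain ⟨K, t, ht, hK⟩ := h.exists_lipschitzOnWith
  obtain ⟨r, hr, hb⟩ := Metric.mem_nhds_iff.1 ht
  refine ⟨r, K, hr, K.2, fun y z hy hz => ?_⟩
  have hy' : y ∈ t := hb (by rwa [Metric.mem_ball, dist_eq_norm])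
  have hz' : z ∈ t := hb (by rwa [Metric.mem_ball, dist_eq_norm])
  simpa [Real.norm_eq_abs] using hK.norm_sub_le hy' hz'

end Vale.Agent.P205.Full.Klein
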