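import Vale.Agent.P205.Full.Klein.Fn

/-!
Order calculus, uniform in the winding `N`, for quantities built from the unknowns
`(f, e, κ, γ)` of the Klein bottle equation.
-/

open scoped ContDiff
open Complex

namespace Vale.Agent.P205.Full.Klein

/-- The unknowns. -/
structure St where
  /-- Correction of the conformal exponent. -/
  f : Coef
  /-- Correction of the height coordinate. -/
  e : Coef
  /-- Scale. -/
  κ : ℝ
  /-- Profile parameter. -/
  γ : ℝ

/-- The ball of radius `B` around the centre `(0, 0, κ0, 1/2)`. -/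
structure InBall (κ0 B : ℝ) (N : ℕ) (X : St) : Prop where
  rf : ∀ m, Mem m X.f
  re : ∀ m, Mem m X.e
  sf : Sym X.f
  se : Sym X.e
  nf : nrm 2 X.f ≤ B / N
  ne1 : nrm 1 X.e ≤ B / N
  ne2 : nrm 2 X.e ≤ B
  nk : |X.κ - κ0| ≤ B / N
  ng : |X.γ - 1 / 2| ≤ B / N

/-- The weighted distance. -/
noncomputable def dst (N : ℕ) (X Y : St) : ℝ :=
  N * (nrm 2 (X.f - Y.f) + nrm 1 (X.e - Y.e) + |X.κ - Y.κ| + |X.γ - Y.γ|) + nrm 2 (X.e - Y.e)

/-- The weighted top order norm. -/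
noncomputable def topN (N j : ℕ) (X : St) : ℝ := N * nrm (j + 2) X.f + nrm (j + 2) X.e

theorem dst_nonneg (N : ℕ) (X Y : St) : 0 ≤ dst N X Y := by
  unfold dst
  have h : ∀ (n : ℕ) (c : Coef), 0 ≤ nrm n c := nrm_nonneg
  have := h 2 (X.f - Y.f); have := h 1 (X.e - Y.e); have := h 2 (X.e - Y.e)
  positivity

theorem topN_nonneg (N j : ℕ) (X : St) : 0 ≤ topN N j X :=
  add_nonneg (mul_nonneg (Nat.cast_nonneg N) (nrm_nonneg _ _)) (nrm_nonneg _ _)

/-- A family of functions depending on `N` and on the unknowns. -/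
abbrev Fam : Type := ℕ → St → Pl → ℂ

/-- The coefficients of a member. -/
noncomputable def cf (φ : Fam) (N : ℕ) (X : St) : Coef := sqCoef (φ N X)

/-- Bound, Lipschitz bound and top order bound at one radius. -/
structure EstAt (κ0 B C : ℝ) (w : ℕ → ℝ) (φ : Fam) (N : ℕ) : Prop where
  sp : ∀ X, InBall κ0 B N X → SP (φ N X)
  bdd : ∀ X, InBall κ0 B N X → nrm 0 (cf φ N X) ≤ C * w N
  lip : ∀ X Y, InBall κ0 B N X → InBall κ0 B N Y →
    nrm 0 (cf φ N X - cf φ N Y) ≤ C * (w N / N) * dst N X Y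
  high : ∀ j R, ∃ D, ∀ X, InBall κ0 B N X → nrm (j + 1) X.f ≤ R → nrm (j + 1) X.e ≤ R →
    nrm j (cf φ N X) ≤ C * (w N / N) * topN N j X + D

/-- The order `w`. -/
def Est (κ0 : ℝ) (w : ℕ → ℝ) (φ : Fam) : Prop :=
  ∀ B : ℝ, ∃ (C : ℝ) (N0 : ℕ), 0 ≤ C ∧ 1 ≤ N0 ∧ ∀ N, N0 ≤ N → 0 ≤ w N ∧ EstAt κ0 B C w φ N

/-- Quantities controlled by lower order norms alone. -/
def Low (κ0 : ℝ) (φ : Fam) : Prop :=
  ∀ B : ℝ, ∃ N0 : ℕ, ∀ N, N0 ≤ N → ∀ j R, ∃ D, ∀ X, InBall κ0 B N X →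
    nrm (j + 1) X.f ≤ R → nrm (j + 1) X.e ≤ R → SP (φ N X) ∧ nrm j (cf φ N X) ≤ D

variable {κ0 : ℝ} {w w1 w2 : ℕ → ℝ} {φ ψ : Fam}

theorem Est.congr (h : Est κ0 w φ) (he : ∀ N X x, φ N X x = ψ N X x) : Est κ0 w ψ := by
  have : φ = ψ := by funext N X x; exact he N X x
  exact this ▸ h

theorem Low.congr (h : Low κ0 φ) (he : ∀ N X x, φ N X x = ψ N X x) : Low κ0 ψ := by
  have : φ = ψ := by funext N X x; exact he N X x
  exact this ▸ h

theorem Est.mono (h : Est κ0 w φ) {K : ℝ} {M : ℕ} (hK : 0 ≤ K)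
    (hle : ∀ N, M ≤ N → w N ≤ K * w1 N ∧ 0 ≤ w1 N) : Est κ0 w1 φ := by
  intro B
  obtain ⟨C, N0, hC, h1, hN⟩ := h B
  refine ⟨C * K, max N0 M, mul_nonneg hC hK, le_trans h1 (le_max_left _ _), fun N hN' => ?_⟩
  obtain ⟨hw, ha⟩ := hN N (le_trans (le_max_left _ _) hN')
  obtain ⟨hl, h0⟩ := hle N (le_trans (le_max_right _ _) hN')
  have e1 : C * w N ≤ C * K * w1 N := by rw [mul_assoc]; exact mul_le_mul_of_nonneg_left hl hC
  have e2 : C * (w N / N) ≤ C * K * (w1 N / N) := by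
    rw [← mul_div_assoc, ← mul_div_assoc]
    exact div_le_div_of_nonneg_right e1 (Nat.cast_nonneg _)
  refine ⟨h0, ha.sp, fun X hX => (ha.bdd X hX).trans e1, fun X Y hX hY =>
    (ha.lip X Y hX hY).trans (mul_le_mul_of_nonneg_right e2 (dst_nonneg _ _ _)), fun j R => ?_⟩
  obtain ⟨D, hD⟩ := ha.high j R
  exact ⟨D, fun X hX hf he => (hD X hX hf he).trans
    (add_le_add (mul_le_mul_of_nonneg_right e2 (topN_nonneg _ _ _)) le_rfl)⟩

theorem Est.add (hφ : Est κ0 w φ) (hψ : Est κ0 w ψ) :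
    Est κ0 w (fun N X x => φ N X x + ψ N X x) := by
  intro B
  obtain ⟨C1, N1, hC1, h1, hN1⟩ := hφ B
  obtain ⟨C2, N2, hC2, h2, hN2⟩ := hψ B
  refine ⟨C1 + C2, max N1 N2, add_nonneg hC1 hC2, le_trans h1 (le_max_left _ _), fun N hN => ?_⟩
  obtain ⟨hw, a⟩ := hN1 N (le_trans (le_max_left _ _) hN)
  obtain ⟨-, b⟩ := hN2 N (le_trans (le_max_right _ _) hN)
  have hc : ∀ X, InBall κ0 B N X →
      cf (fun N X x => φ N X x + ψ N X x) N X = cf φ N X + cf ψ N X :=
    fun X hX => sqCoef_add (a.sp X hX) (b.sp X hX)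
  have mA : ∀ X, InBall κ0 B N X → ∀ m, Mem m (cf φ N X) := fun X hX => mem_sqCoef (a.sp X hX)
  have mB : ∀ X, InBall κ0 B N X → ∀ m, Mem m (cf ψ N X) := fun X hX => mem_sqCoef (b.sp X hX)
  refine ⟨hw, fun X hX => sp_add (a.sp X hX) (b.sp X hX), fun X hX => ?_, fun X Y hX hY => ?_,
    fun j R => ?_⟩
  · rw [hc X hX, add_mul]
    exact (nrm_add_le (mA X hX 0) (mB X hX 0)).trans (add_le_add (a.bdd X hX) (b.bdd X hX))
  · rw [hc X hX, hc Y hY, add_sub_add_comm, add_mul, add_mul]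
    exact (nrm_add_le ((mA X hX 0).sub (mA Y hY 0)) ((mB X hX 0).sub (mB Y hY 0))).trans
      (add_le_add (a.lip X Y hX hY) (b.lip X Y hX hY))
  · obtain ⟨D1, hD1⟩ := a.high j R
    obtain ⟨D2, hD2⟩ := b.high j R
    refine ⟨D1 + D2, fun X hX hf he => ?_⟩
    rw [hc X hX]
    refine (nrm_add_le (mA X hX j) (mB X hX j)).trans
      ((add_le_add (hD1 X hX hf he) (hD2 X hX hf he)).trans_eq ?_)
    ring

theorem Est.mul (hφ : Est κ0 w1 φ) (hψ : Est κ0 w2 ψ) :
    Est κ0 (fun N => w1 N * w2 N) (fun N X x => φ N X x * ψ N X x) := by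
  intro B
  obtain ⟨C1, N1, hC1, h1, hN1⟩ := hφ B
  obtain ⟨C2, N2, hC2, h2, hN2⟩ := hψ B
  refine ⟨6 * (C1 * C2), max N1 N2, by positivity, le_trans h1 (le_max_left _ _), fun N hN => ?_⟩
  obtain ⟨hw1, a⟩ := hN1 N (le_trans (le_max_left _ _) hN)
  obtain ⟨hw2, b⟩ := hN2 N (le_trans (le_max_right _ _) hN)
  have hc : ∀ X, InBall κ0 B N X →
      cf (fun N X x => φ N X x * ψ N X x) N X = conv (cf φ N X) (cf ψ N X) :=
    fun X hX => sqCoef_mul (a.sp X hX) (b.sp X hX)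
  have mA : ∀ X, InBall κ0 B N X → ∀ m, Mem m (cf φ N X) := fun X hX => mem_sqCoef (a.sp X hX)
  have mB : ∀ X, InBall κ0 B N X → ∀ m, Mem m (cf ψ N X) := fun X hX => mem_sqCoef (b.sp X hX)
  set α := C1 * w1 N with hα
  set β := C2 * w2 N with hβ
  have hα0 : 0 ≤ α := mul_nonneg hC1 hw1
  have hβ0 : 0 ≤ β := mul_nonneg hC2 hw2
  have hk : ∀ t : ℝ, C1 * (w1 N / N) * t * β + α * (C2 * (w2 N / N) * t) =
      2 * (C1 * C2 * (w1 N * w2 N / N) * t) := by intro t; rw [hα, hβ]; ring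
  have hpos : 0 ≤ C1 * C2 * (w1 N * w2 N / N) := by positivity
  refine ⟨mul_nonneg hw1 hw2, fun X hX => sp_mul (a.sp X hX) (b.sp X hX), fun X hX => ?_,
    fun X Y hX hY => ?_, fun j R => ?_⟩
  · rw [hc X hX]
    refine ((nrm_conv_le (mA X hX 0) (mB X hX 0)).trans (mul_le_mul (a.bdd X hX) (b.bdd X hX)
      (nrm_nonneg _ _) hα0)).trans ?_
    have : 0 ≤ α * β := mul_nonneg hα0 hβ0
    calc α * β ≤ 6 * (α * β) := by linarith
      _ = _ := by rw [hα, hβ]; ring
  · have ax := mA X hX 0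
    have ay := mA Y hY 0
    have bx := mB X hX 0
    have bY := mB Y hY 0
    have key : conv (cf φ N X) (cf ψ N X) - conv (cf φ N Y) (cf ψ N Y) =
        conv (cf φ N X - cf φ N Y) (cf ψ N X) + conv (cf φ N Y) (cf ψ N X - cf ψ N Y) := by
      rw [conv_sub_left ax ay bx, conv_sub_right ay bx bY]; abel
    rw [hc X hX, hc Y hY, key]
    refine (nrm_add_le ((ax.sub ay).conv bx) (ay.conv (bx.sub bY))).trans ?_
    refine (add_le_add
      ((nrm_conv_le (ax.sub ay) bx).trans (mul_le_mul (a.lip X Y hX hY) (b.bdd X hX)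
        (nrm_nonneg _ _) ((nrm_nonneg _ _).trans (a.lip X Y hX hY))))
      ((nrm_conv_le ay (bx.sub bY)).trans (mul_le_mul (a.bdd Y hY) (b.lip X Y hX hY)
        (nrm_nonneg _ _) hα0))).trans ?_
    rw [hk]
    have : 0 ≤ C1 * C2 * (w1 N * w2 N / N) * dst N X Y := mul_nonneg hpos (dst_nonneg _ _ _)
    linarith
  · obtain ⟨D1, hD1⟩ := a.high j R
    obtain ⟨D2, hD2⟩ := b.high j R
    cases j with
    | zero =>
      refine ⟨α * β, fun X hX hf he => ?_⟩
      rw [hc X hX]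
      refine ((nrm_conv_le (mA X hX 0) (mB X hX 0)).trans (mul_le_mul (a.bdd X hX) (b.bdd X hX)
        (nrm_nonneg _ _) hα0)).trans ?_
      have : 0 ≤ C1 * C2 * (w1 N * w2 N / N) * topN N 0 X := mul_nonneg hpos (topN_nonneg _ _ _)
      linarith
    | succ i =>
      obtain ⟨E1, hE1⟩ := a.high i R
      obtain ⟨E2, hE2⟩ := b.high i R
      obtain ⟨F1, hF1⟩ := a.high 1 R
      obtain ⟨F2, hF2⟩ := b.high 1 R
      obtain ⟨G1, hG1⟩ := a.high 0 R
      obtain ⟨G2, hG2⟩ := b.high 0 R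
      set T : ℝ := N * |R| + |R| with hT
      set k1 : ℝ := C1 * (w1 N / N) with hk1
      set k2 : ℝ := C2 * (w2 N / N) with hk2
      have k1p : 0 ≤ k1 := by positivity
      have k2p : 0 ≤ k2 := by positivity
      refine ⟨5 * (|D1| * β + α * |D2|) + 2 ^ (i + 1) *
        ((k1 * T + |E1|) * (k2 * T + |F2|) + (k1 * T + |F1|) * (k2 * T + |E2|)),
        fun X hX hf he => ?_⟩
      rw [hc X hX]
      refine (nrm_conv_tame (mA X hX (i + 1)) (mB X hX (i + 1))).trans ?_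
      have hfR := hf.trans (le_abs_self R)
      have heR := he.trans (le_abs_self R)
      have lowf : ∀ n, n ≤ i + 2 → nrm n X.f ≤ R ∧ nrm n X.e ≤ R := fun n hn =>
        ⟨(nrm_mono hn (hX.rf _)).trans hf, (nrm_mono hn (hX.re _)).trans he⟩
      have htop : topN N i X ≤ T := by
        unfold topN
        exact add_le_add (mul_le_mul_of_nonneg_left hfR (Nat.cast_nonneg _)) heR
      have tA := topN_nonneg N (i + 1) X
      have f1 : nrm (i + 1) (cf φ N X) * nrm 0 (cf ψ N X) ≤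
          (k1 * topN N (i + 1) X + |D1|) * β :=
        mul_le_mul ((hD1 X hX hf he).trans (add_le_add le_rfl (le_abs_self _))) (b.bdd X hX)
          (nrm_nonneg _ _) (by positivity)
      have f2 : nrm 0 (cf φ N X) * nrm (i + 1) (cf ψ N X) ≤
          α * (k2 * topN N (i + 1) X + |D2|) :=
        mul_le_mul (a.bdd X hX) ((hD2 X hX hf he).trans (add_le_add le_rfl (le_abs_self _)))
          (nrm_nonneg _ _) hα0
      have g1 : 0 ≤ (k1 * topN N (i + 1) X + |D1|) * β := by positivity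
      have g2 : 0 ≤ α * (k2 * topN N (i + 1) X + |D2|) := by positivity
      have expand : 6 * (C1 * C2) * (w1 N * w2 N / N) * topN N (i + 1) X =
          3 * (k1 * topN N (i + 1) X * β + α * (k2 * topN N (i + 1) X)) := by
        rw [hk1, hk2, hα, hβ]; ring
      rw [expand]
      cases i with
      | zero =>
        norm_num at f1 f2 g1 g2 ⊢
        have p1 : 0 ≤ k1 * topN N 1 X * β := by positivity
        have p2 : 0 ≤ α * (k2 * topN N 1 X) := by positivity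
        have p3 : 0 ≤ (k1 * T + |E1|) * (k2 * T + |F2|) := by positivity
        have p4 : 0 ≤ (k1 * T + |F1|) * (k2 * T + |E2|) := by positivity
        have q1 : nrm 0 (cf φ N X) * nrm 1 (cf ψ N X) ≤ α * (k2 * topN N 1 X + |D2|) := f2
        have q2 : nrm 1 (cf φ N X) * nrm 0 (cf ψ N X) ≤ (k1 * topN N 1 X + |D1|) * β := f1
        have r1 : 0 ≤ |D1| * β := by positivity
        have r2 : 0 ≤ α * |D2| := by positivity
        nlinarith
      | succ l =>
        have htop1 : topN N 1 X ≤ T := by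
          unfold topN
          exact add_le_add (mul_le_mul_of_nonneg_left
            (((nrm_mono (by omega) (hX.rf _)).trans hf).trans (le_abs_self R))
            (Nat.cast_nonneg _)) (((nrm_mono (by omega) (hX.re _)).trans he).trans (le_abs_self R))
        have a1 : nrm (l + 1) (cf φ N X) ≤ k1 * T + |E1| :=
          (hE1 X hX (lowf _ (by omega)).1 (lowf _ (by omega)).2).trans
            (add_le_add (mul_le_mul_of_nonneg_left htop k1p) (le_abs_self _))
        have a2 : nrm (l + 1) (cf ψ N X) ≤ k2 * T + |E2| :=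
          (hE2 X hX (lowf _ (by omega)).1 (lowf _ (by omega)).2).trans
            (add_le_add (mul_le_mul_of_nonneg_left htop k2p) (le_abs_self _))
        have b1 : nrm 1 (cf φ N X) ≤ k1 * T + |F1| :=
          (hF1 X hX (lowf _ (by omega)).1 (lowf _ (by omega)).2).trans
            (add_le_add (mul_le_mul_of_nonneg_left htop1 k1p) (le_abs_self _))
        have b2 : nrm 1 (cf ψ N X) ≤ k2 * T + |F2| :=
          (hF2 X hX (lowf _ (by omega)).1 (lowf _ (by omega)).2).trans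
            (add_le_add (mul_le_mul_of_nonneg_left htop1 k2p) (le_abs_self _))
        have f3 : nrm (l + 1) (cf φ N X) * nrm 1 (cf ψ N X) +
            nrm 1 (cf φ N X) * nrm (l + 1) (cf ψ N X) ≤
            (k1 * T + |E1|) * (k2 * T + |F2|) + (k1 * T + |F1|) * (k2 * T + |E2|) :=
          add_le_add (mul_le_mul a1 b2 (nrm_nonneg _ _) (by positivity))
            (mul_le_mul b1 a2 (nrm_nonneg _ _) (by positivity))
        have f4 := mul_le_mul_of_nonneg_left f3 (by positivity : (0 : ℝ) ≤ 2 ^ (l + 1 + 1))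
        have p1 : 0 ≤ k1 * topN N (l + 1 + 1) X * β := by positivity
        have p2 : 0 ≤ α * (k2 * topN N (l + 1 + 1) X) := by positivity
        have r1 : 0 ≤ |D1| * β := by positivity
        have r2 : 0 ≤ α * |D2| := by positivity
        linarith

theorem Low.add (hφ : Low κ0 φ) (hψ : Low κ0 ψ) : Low κ0 (fun N X x => φ N X x + ψ N X x) := by
  intro B
  obtain ⟨N1, h1⟩ := hφ B
  obtain ⟨N2, h2⟩ := hψ B
  refine ⟨max N1 N2, fun N hN j R => ?_⟩
  obtain ⟨D1, hD1⟩ := h1 N (le_trans (le_max_left _ _) hN) j R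
  obtain ⟨D2, hD2⟩ := h2 N (le_trans (le_max_right _ _) hN) j R
  refine ⟨D1 + D2, fun X hX hf he => ?_⟩
  obtain ⟨s1, n1⟩ := hD1 X hX hf he
  obtain ⟨s2, n2⟩ := hD2 X hX hf he
  refine ⟨sp_add s1 s2, ?_⟩
  rw [show cf (fun N X x => φ N X x + ψ N X x) N X = cf φ N X + cf ψ N X from sqCoef_add s1 s2]
  exact (nrm_add_le (mem_sqCoef s1 j) (mem_sqCoef s2 j)).trans (add_le_add n1 n2)

theorem Low.mul (hφ : Low κ0 φ) (hψ : Low κ0 ψ) : Low κ0 (fun N X x => φ N X x * ψ N X x) := by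
  intro B
  obtain ⟨N1, h1⟩ := hφ B
  obtain ⟨N2, h2⟩ := hψ B
  refine ⟨max N1 N2, fun N hN j R => ?_⟩
  obtain ⟨D1, hD1⟩ := h1 N (le_trans (le_max_left _ _) hN) j R
  obtain ⟨D2, hD2⟩ := h2 N (le_trans (le_max_right _ _) hN) j R
  refine ⟨|D1| * |D2|, fun X hX hf he => ?_⟩
  obtain ⟨s1, n1⟩ := hD1 X hX hf he
  obtain ⟨s2, n2⟩ := hD2 X hX hf he
  refine ⟨sp_mul s1 s2, ?_⟩
  rw [show cf (fun N X x => φ N X x * ψ N X x) N X = conv (cf φ N X) (cf ψ N X) from
    sqCoef_mul s1 s2]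
  exact (nrm_conv_le (mem_sqCoef s1 j) (mem_sqCoef s2 j)).trans
    (mul_le_mul (n1.trans (le_abs_self _)) (n2.trans (le_abs_self _)) (nrm_nonneg _ _)
      (abs_nonneg _))

theorem Low.exp (hφ : Low κ0 φ) : Low κ0 (fun N X x => Complex.exp (φ N X x)) := by
  intro B
  obtain ⟨N1, h1⟩ := hφ B
  refine ⟨N1, fun N hN j R => ?_⟩
  obtain ⟨D1, hD1⟩ := h1 N hN j R
  refine ⟨Real.exp D1, fun X hX hf he => ?_⟩
  obtain ⟨s1, n1⟩ := hD1 X hX hf he
  refine ⟨sp_exp s1, ?_⟩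
  rw [show cf (fun N X x => Complex.exp (φ N X x)) N X = expC (cf φ N X) from sqCoef_exp s1]
  exact (expC_bound (mem_sqCoef s1 j)).2.trans (Real.exp_le_exp.2 n1)

theorem Est.exp (hφ : Est κ0 (fun _ => 1) φ) (hl : Low κ0 φ) :
    Est κ0 (fun _ => 1) (fun N X x => Complex.exp (φ N X x)) := by
  intro B
  obtain ⟨C, N1, hC, h1, hN1⟩ := hφ B
  obtain ⟨N2, hN2⟩ := hl.exp B
  refine ⟨Real.exp C + Real.exp (2 * (C + 1)) * C, max N1 N2, by positivity,
    le_trans h1 (le_max_left _ _), fun N hN => ?_⟩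
  obtain ⟨-, a⟩ := hN1 N (le_trans (le_max_left _ _) hN)
  have hc : ∀ X, InBall κ0 B N X →
      cf (fun N X x => Complex.exp (φ N X x)) N X = expC (cf φ N X) :=
    fun X hX => sqCoef_exp (a.sp X hX)
  have hb : ∀ X, InBall κ0 B N X → nrm 0 (cf φ N X) ≤ C := fun X hX => by
    simpa using a.bdd X hX
  refine ⟨zero_le_one, fun X hX => sp_exp (a.sp X hX), fun X hX => ?_, fun X Y hX hY => ?_,
    fun j R => ?_⟩
  · rw [hc X hX, mul_one]
    refine ((expC_bound (mem_sqCoef (a.sp X hX) 0)).2.trans (Real.exp_le_exp.2 (hb X hX))).trans ?_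
    have : 0 ≤ Real.exp (2 * (C + 1)) * C := by positivity
    linarith
  · rw [hc X hX, hc Y hY]
    refine ((expC_lip (mem_sqCoef (a.sp X hX) 0) (mem_sqCoef (a.sp Y hY) 0)
      (R := C + 1) (by linarith) ((hb X hX).trans (by linarith))
      ((hb Y hY).trans (by linarith))).trans (mul_le_mul_of_nonneg_left (a.lip X Y hX hY)
        (Real.exp_pos _).le)).trans ?_
    have hd := dst_nonneg N X Y
    have hE := Real.exp_pos C
    have : 0 ≤ Real.exp C * (1 / (N : ℝ)) * dst N X Y := by positivity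
    nlinarith
  · obtain ⟨D, hD⟩ := hN2 N (le_trans (le_max_right _ _) hN) j R
    refine ⟨D, fun X hX hf he => (hD X hX hf he).2.trans ?_⟩
    have := topN_nonneg N j X
    simp only [le_add_iff_nonneg_left]
    positivity

end Vale.Agent.P205.Full.Klein
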