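import Vale.Agent.P205.Full.Klein.Fixed
import Vale.Agent.P205.Full.Main

/-!
A fixed point of the iteration solves both equations exactly.
-/

open scoped ContDiff
open Complex Filter Topology

namespace Vale.Agent.P205.Full.Klein

/-- The real functions of a jet quantity at a given state. -/
noncomputable def jq (p : Dat) (N : ℕ) (X : St) (g : Jet → ℝ) : Pl → ℝ := fun x => g (jet p N X x)

/-- A fixed point with all the smallness which is needed. -/
structure Good (p : Dat) (B : ℝ) (N : ℕ) (X : St) : Prop where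
  hX : InBall p.κ0 B N X
  hN : 1 ≤ N
  par : Par X
  fix : stepT p N X = X
  kpos : 0 < X.κ
  gpos : 0 < X.γ
  sS : SP (jq p N X Jet.S)
  sH : SP (jq p N X Jet.H)
  sH1 : SP (jq p N X Jet.H1)
  sv : SP (jq p N X Jet.v)
  sY1 : SP (jq p N X Jet.Y1)
  sY2 : SP (jq p N X Jet.Y2)
  sM1 : SP (jq p N X Jet.M1)
  sM2 : SP (jq p N X Jet.M2)
  sW1 : SP (jq p N X Jet.W1)
  sW2 : SP (jq p N X Jet.W2)
  cRK : SP (cpx (jf p Jet.RK) N X)
  cdQ : SP (cpx (jf p Jet.dQ) N X)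
  cX : SP (cpx (jf p Jet.X) N X)
  S_lt : ∀ x, (jet p N X x).S < 1
  H_gt : ∀ x, 0 < 1 + (jet p N X x).H

theorem sp_of_cpx {φ : RFam} {N : ℕ} {X : St} (h : SP (cpx φ N X)) : SP (φ N X) := by
  have e : φ N X = fun x => (cpx φ N X x).re := funext fun x => (Complex.ofReal_re _).symm
  rw [e]
  exact ⟨Complex.reCLM.contDiff.comp h.smooth,
    ⟨fun x => by rw [h.per.add1], fun x => by rw [h.per.add2]⟩⟩

variable (p : Dat)

theorem exists_good_aux (B : ℝ) (hB : 0 ≤ B) : ∃ M : ℕ, 1 ≤ M ∧ ∀ N, M ≤ N → ∀ X,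
    InBall p.κ0 B N X → Par X → stepT p N X = X → Good p B N X := by
  have small : ∀ {w : ℕ → ℝ} {φ : RFam}, RE p.κ0 w φ → ∃ (C : ℝ) (M : ℕ), 0 ≤ C ∧ 1 ≤ M ∧
      ∀ N, M ≤ N → ∀ X, InBall p.κ0 B N X → SP (cpx φ N X) ∧ ∀ x, |φ N X x| ≤ C * w N := by
    intro w φ h
    obtain ⟨C0, hC0, h'⟩ := h.small
    obtain ⟨C, M, hC, hM, hN⟩ := h' B hB
    refine ⟨C0 + C, M, add_nonneg hC0 hC, hM, fun N hNM X hX => ?_⟩
    obtain ⟨hw, hs⟩ := hN N hNM
    refine ⟨hs.sp X hX, fun x => (hs.pt X hX x).trans (mul_le_mul_of_nonneg_right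
      (add_le_add le_rfl (div_le_self hC ?_)) hw)⟩
    exact_mod_cast le_trans hM hNM
  obtain ⟨CS, m1, -, hm1, hS⟩ := small (re_S (κ0 := p.κ0) p).SStoS
  obtain ⟨CH, m2, -, -, hH⟩ := small (re_H (κ0 := p.κ0) p).1
  obtain ⟨_, m3, -, -, hH1⟩ := small (re_H1 (κ0 := p.κ0) p)
  obtain ⟨_, m4, -, -, hv⟩ := small (re_v (κ0 := p.κ0) p).1
  obtain ⟨_, m5, -, -, hY1⟩ := small (re_Y1 (κ0 := p.κ0) p)
  obtain ⟨_, m6, -, -, hY2⟩ := small (re_Y2 (κ0 := p.κ0) p)
  obtain ⟨_, m7, -, -, hM1⟩ := small (re_M1 (κ0 := p.κ0) p)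
  obtain ⟨_, m8, -, -, hM2⟩ := small (re_M2 (κ0 := p.κ0) p)
  obtain ⟨_, m9, -, -, hW1⟩ := small (re_W1 (κ0 := p.κ0) p)
  obtain ⟨_, m10, -, -, hW2⟩ := small (re_W2 (κ0 := p.κ0) p)
  obtain ⟨_, m11, -, -, hR⟩ := small (re_RK (κ0 := p.κ0) p)
  obtain ⟨_, m12, -, -, hD⟩ := small (re_dQ (κ0 := p.κ0) p)
  obtain ⟨_, m13, -, -, hXr⟩ := small (re_X (κ0 := p.κ0) p)
  have hκ : 0 < p.κ0 := by
    have := c0_pos p
    exact Real.sqrt_pos.2 (by positivity)
  obtain ⟨m14, -, hk⟩ := nat_small (|B| + |CS| + |CH|) (min p.κ0 (1 / 2))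
    (lt_min hκ one_half_pos)
  refine ⟨m1 + m2 + m3 + m4 + m5 + m6 + m7 + m8 + m9 + m10 + m11 + m12 + m13 + m14,
    by omega, fun N hN X hX hp hf => ?_⟩
  have hN1 : 1 ≤ N := by omega
  have hNp : (0 : ℝ) < N := by exact_mod_cast hN1
  have hs := hk N (by omega)
  have le : ∀ {c : ℝ}, c ≤ |B| + |CS| + |CH| → c / N < min p.κ0 (1 / 2) := fun hc =>
    lt_of_le_of_lt (div_le_div_of_nonneg_right hc hNp.le) hs
  have := abs_nonneg B; have := abs_nonneg CS; have := abs_nonneg CH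
  have hB' := le (c := B) (by linarith [le_abs_self B])
  refine ⟨hX, hN1, hp, hf, ?_, ?_, sp_of_cpx (hS N (by omega) X hX).1,
    sp_of_cpx (hH N (by omega) X hX).1, sp_of_cpx (hH1 N (by omega) X hX).1,
    sp_of_cpx (hv N (by omega) X hX).1, sp_of_cpx (hY1 N (by omega) X hX).1,
    sp_of_cpx (hY2 N (by omega) X hX).1, sp_of_cpx (hM1 N (by omega) X hX).1,
    sp_of_cpx (hM2 N (by omega) X hX).1, sp_of_cpx (hW1 N (by omega) X hX).1,
    sp_of_cpx (hW2 N (by omega) X hX).1, (hR N (by omega) X hX).1, (hD N (by omega) X hX).1,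
    (hXr N (by omega) X hX).1, fun x => ?_, fun x => ?_⟩
  · linarith [(abs_le.1 hX.nk).1, hB'.trans_le (min_le_left _ _)]
  · linarith [(abs_le.1 hX.ng).1, hB'.trans_le (min_le_right _ _)]
  · have h1 : |(jet p N X x).S| ≤ CS * ((N : ℝ))⁻¹ := (hS N (by omega) X hX).2 x
    rw [← div_eq_mul_inv] at h1
    linarith [(le (c := CS) (by linarith [le_abs_self CS])).trans_le (min_le_right _ _),
      (abs_le.1 h1).2]
  · have h1 : |(jet p N X x).H| ≤ CH * ((N : ℝ))⁻¹ := (hH N (by omega) X hX).2 x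
    rw [← div_eq_mul_inv] at h1
    linarith [(le (c := CH) (by linarith [le_abs_self CH])).trans_le (min_le_right _ _),
      (abs_le.1 h1).1]

/-- Good fixed points exist for large winding. -/
theorem exists_good {Kb : ℝ} (hKb : 0 ≤ Kb)
    (hk : ∀ N, 1 ≤ N → |kN p N - p.c0 ^ 2 / 8| ≤ Kb / N) :
    ∃ (B : ℝ) (N0 : ℕ), ∀ N, N0 ≤ N → ∃ X, Good p B N X := by
  obtain ⟨B, N0, hB, -, h⟩ := exists_fixed_point p hKb hk
  obtain ⟨M, -, hM⟩ := exists_good_aux p B hB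
  refine ⟨B, max N0 M, fun N hN => ?_⟩
  obtain ⟨X, hX, hp, hf⟩ := h N (le_trans (le_max_left _ _) hN)
  exact ⟨X, hM N (le_trans (le_max_right _ _) hN) X hX hp hf⟩

variable {p} {B : ℝ} {N : ℕ} {X : St}

/-- A solution of `Δc = -r` up to a constant. -/
theorem laplace_const {c : Coef} {g : Pl → ℝ} (hg : SP (fun x => (g x : ℂ)))
    (h : linv p.η1 p.η2 (-sqCoef (fun x => (g x : ℂ))) = c) (x : Pl) :
    (ev (dC p.η1 (dC p.η1 c)) x).re + (ev (dC p.η2 (dC p.η2 c)) x).re + g x =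
      (sqCoef (fun y => (g y : ℂ)) 0).re := by
  set r := sqCoef (fun y => (g y : ℂ)) with hr
  obtain ⟨K, hK0, hK⟩ := exists_lsym_bound (hdet p)
  have m0 : Mem 0 r := mem_sqCoef hg 0
  have m2 : Mem 2 c := h ▸ (linv_bound hK hK0 (Full.Mem.neg m0)).1
  have hL : dC p.η1 (dC p.η1 c) + dC p.η2 (dC p.η2 c) = r 0 • unit + -r := by
    funext k
    simp only [Pi.add_apply, Pi.neg_apply, Pi.smul_apply, smul_eq_mul, dC]
    rw [← mul_assoc, ← mul_assoc, ← add_mul, dsym_sq, ← h]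
    unfold linv unit
    by_cases hk : k = 0
    · subst hk; simp
    · have hn : ((lsym p.η1 p.η2 k : ℝ) : ℂ) ≠ 0 := Complex.ofReal_ne_zero.2 (hK k hk).1.ne
      simp only [if_neg hk, Pi.neg_apply, mul_zero, zero_add]
      push_cast
      field_simp
  rw [← Complex.add_re, ← ev_add ((m2.dC _).dC _) ((m2.dC _).dC _), hL,
    ev_add ((mem_unit 0).smul _) (Full.Mem.neg m0), ev_smul, ev_unit, Full.ev_neg, hr, ev_sqCoef hg]
  simp

/-- The height equation holds up to a constant. -/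
theorem EY_const (h : Good p B N X) : ∃ q, ∀ x, (jet p N X x).EY = q := by
  have hs : SP fun x => (((jet p N X x).dQ + (jet p N X x).X : ℝ) : ℂ) := by
    have := sp_add h.cdQ h.cX
    simpa [cpx, jf, Complex.ofReal_add] using this
  have e : cf (cpx (jf p Jet.dQ)) N X + cf (cpx (jf p Jet.X)) N X =
      sqCoef fun x => (((jet p N X x).dQ + (jet p N X x).X : ℝ) : ℂ) := by
    rw [cf, cf, ← sqCoef_add h.cdQ h.cX]
    congr 1; funext x; simp [cpx, jf]
  have he : newE p N X = X.e := congrArg St.e h.fix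
  rw [newE, e] at he
  refine ⟨(sqCoef (fun y => (((jet p N X y).dQ + (jet p N X y).X : ℝ) : ℂ)) 0).re, fun x => ?_⟩
  rw [← laplace_const hs he x, Jet.EY_eq]
  rfl

/-- The flatness equation holds up to a constant. -/
theorem K_const (h : Good p B N X) : ∃ q, ∀ x, (jet p N X x).K = q := by
  have hf : newF p N X = X.f := congrArg St.f h.fix
  refine ⟨(sqCoef (fun y => (((jet p N X y).RK : ℝ) : ℂ)) 0).re, fun x => ?_⟩
  rw [← laplace_const (g := fun y => (jet p N X y).RK) h.cRK hf x, Jet.K_eq]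
  rfl

end Vale.Agent.P205.Full.Klein
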