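import Vale.Agent.P205.Full.Klein.Vanish

/-!
The flat coframe of the rescaled metric and the conformality of the coordinate `θ + i Y`.
-/

open scoped ContDiff
open Complex

namespace Vale.Agent.P205.Full.Klein

variable (p : Dat) (N : ℕ) (X : St)

/-- The rescaling factor. -/
noncomputable def lam (x : Pl) : ℝ := (Real.sqrt (1 + (jet p N X x).H))⁻¹

/-- The first frame vector of the unscaled coframe. -/
noncomputable def fr1 : Pl → ℂ := frame1 p.η1 p.η2 (eps N X) p.u (jq p N X Jet.v)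

/-- The second frame vector of the unscaled coframe. -/
noncomputable def fr2 : Pl → ℂ := frame2 p.η1 p.η2 (eps N X) p.u (jq p N X Jet.v)

/-- The rescaled coframe, first component. -/
noncomputable def cp (x : Pl) : ℂ := ((p.a * lam p N X x : ℝ) : ℂ) * fr1 p N X x

/-- The rescaled coframe, second component. -/
noncomputable def cq (x : Pl) : ℂ := ((p.b * lam p N X x : ℝ) : ℂ) * fr2 p N X x

/-- The differential of `θ + i Y`, first component. -/
noncomputable def zA (x : Pl) : ℂ :=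
  ((p.a * flux2 p N X x : ℝ) : ℂ) + ((p.a * (jet p N X x).Y1 : ℝ) : ℂ) * I

/-- The differential of `θ + i Y`, second component. -/
noncomputable def zB (x : Pl) : ℂ :=
  ((-(p.b * flux1 p N X x) : ℝ) : ℂ) + ((p.b * (jet p N X x).Y2 : ℝ) : ℂ) * I

/-- The ratio of the two coframes. -/
noncomputable def ratio (x : Pl) : ℂ := zA p N X x / cp p N X x

/-- The energy density `Y · P`. -/
noncomputable def YP (x : Pl) : ℝ :=
  (jet p N X x).Y1 * (jet p N X x).P1 + (jet p N X x).Y2 * (jet p N X x).P2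

variable {p N X} {B : ℝ}

theorem lam_pos (h : Good p B N X) (x : Pl) : 0 < lam p N X x :=
  inv_pos.2 (Real.sqrt_pos.2 (h.H_gt x))

theorem sp_lam (h : Good p B N X) : SP (lam p N X) :=
  ⟨((contDiff_const.add h.sH.smooth).sqrt fun x => (h.H_gt x).ne').inv
      fun x => (Real.sqrt_pos.2 (h.H_gt x)).ne',
    ⟨fun x => congrArg (fun s : ℝ => (Real.sqrt (1 + s))⁻¹) (h.sH.per.add1 x),
      fun x => congrArg (fun s : ℝ => (Real.sqrt (1 + s))⁻¹) (h.sH.per.add2 x)⟩⟩

theorem hd_lam (h : Good p B N X) (η x : Pl) :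
    HD η x (lam p N X)
      (-(lam p N X x * dlog p N X x) * (2 * Real.pi * N * η.2 + qE1 η N X x)) := by
  have hp := h.H_gt x
  have hs := (Real.sqrt_pos.2 hp).ne'
  have h0 : HasDerivAt (fun t : ℝ => 1 + t) 1 (jet p N X x).H :=
    (hasDerivAt_id' _).const_add 1
  have hφ := ((h0.sqrt hp.ne').inv hs)
  refine ((hd_H p h.hX η x).1.comp hφ).congr (fun _ => rfl) ?_
  have hq := Real.sq_sqrt hp.le
  simp only [lam, dlog]
  field_simp
  rw [hq]

theorem frame_facts (h : Good p B N X) (x : Pl) :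
    let J := jet p N X x
    ((starRingEnd ℂ) (fr1 p N X x) * fr1 p N X x =
        ((Real.exp (-J.v) ^ 2 * (1 - J.W1 ^ 2) : ℝ) : ℂ)) ∧
      ((starRingEnd ℂ) (fr1 p N X x) * fr2 p N X x =
        ((Real.exp (-J.v) ^ 2 : ℝ) : ℂ) *
          (((-(J.W1 * J.W2) : ℝ) : ℂ) + (rR p N X x : ℂ) * I)) ∧
      ((starRingEnd ℂ) (fr2 p N X x) * fr2 p N X x =
        ((Real.exp (-J.v) ^ 2 * (1 - J.W2 ^ 2) : ℝ) : ℂ)) ∧ fr1 p N X x ≠ 0 := by
  intro J
  obtain ⟨m1, m2, m3, m4⟩ := frame_metric (η1 := p.η1) (η2 := p.η2) (ε := eps N X) (u := p.u)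
    (v := jq p N X Jet.v) (gS_lt h) x
  rw [(gN_W h x).1, (gN_W h x).2] at *
  rw [gR_rR h] at m4
  simp only [fr1, fr2] at *
  have e0 : jq p N X Jet.v x = J.v := rfl
  rw [e0] at m1 m2 m3 m4
  refine ⟨?_, ?_, ?_, fun h0 => ?_⟩
  · apply Complex.ext
    · rw [m1, Complex.ofReal_re]
    · rw [Complex.ofReal_im]; simp; ring
  · apply Complex.ext
    · rw [m2, Complex.re_ofReal_mul]; simp [J]
    · rw [m4, Complex.im_ofReal_mul]; simp
  · apply Complex.ext
    · rw [m3, Complex.ofReal_re]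
    · rw [Complex.ofReal_im]; simp; ring
  · rw [h0, map_zero, zero_mul, Complex.zero_im] at m4
    exact (mul_pos (pow_pos (Real.exp_pos _) 2) (rR_pos h x)).ne m4

theorem sp_cp (h : Good p B N X) : SP (cp p N X) ∧ SP (cq p N X) := by
  have hl := sp_lam h
  have f1 : SP (fr1 p N X) := sp_frame1 p.hu h.sv (gS_lt h)
  have f2 : SP (fr2 p N X) := sp_frame2 p.hu h.sv (gS_lt h)
  exact ⟨⟨(Complex.ofRealCLM.contDiff.comp (contDiff_const.mul hl.smooth)).mul f1.smooth,
      ⟨fun x => by simp only [cp, hl.per.add1, f1.per.add1],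
        fun x => by simp only [cp, hl.per.add2, f1.per.add2]⟩⟩,
    ⟨(Complex.ofRealCLM.contDiff.comp (contDiff_const.mul hl.smooth)).mul f2.smooth,
      ⟨fun x => by simp only [cq, hl.per.add1, f2.per.add1],
        fun x => by simp only [cq, hl.per.add2, f2.per.add2]⟩⟩⟩

theorem cp_ne (h : Good p B N X) (x : Pl) : cp p N X x ≠ 0 :=
  mul_ne_zero (Complex.ofReal_ne_zero.2 (mul_pos p.apos (lam_pos h x)).ne') (frame_facts h x).2.2.2

theorem der_smul_real (η x : Pl) {g : Pl → ℝ} {f : Pl → ℂ} {g' : ℝ} (hg : HD η x g g')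
    (hf : DifferentiableAt ℝ f x) (c : ℝ) :
    der η (fun y => ((c * g y : ℝ) : ℂ) * f y) x =
      ((c * g' : ℝ) : ℂ) * f x + ((c * g x : ℝ) : ℂ) * der η f x := by
  have h1 : HasFDerivAt (fun y => ((c * g y : ℝ) : ℂ))
      (Complex.ofRealCLM.comp (c • fderiv ℝ g x)) x :=
    Complex.ofRealCLM.hasFDerivAt.comp x (hg.1.hasFDerivAt.const_mul c)
  have h2 := (h1.fun_mul hf.hasFDerivAt).fderiv
  simp only [der, h2]
  rw [← hg.2]
  simp [der]
  ring

theorem flatCoframe_klein (h : Good p B N X) :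
    FlatCoframe (cp p N X) (cq p N X) (fun x => p.a * con1 p N X x)
      (fun x => p.b * con2 p N X x) := by
  obtain ⟨s1, s2⟩ := sp_cp h
  obtain ⟨c1, c2⟩ := sp_con h
  refine ⟨s1, s2, ⟨contDiff_const.mul c1.smooth, ⟨fun x => by rw [c1.per.add1],
      fun x => by rw [c1.per.add2]⟩⟩, ⟨contDiff_const.mul c2.smooth, ⟨fun x => by rw [c2.per.add1],
      fun x => by rw [c2.per.add2]⟩⟩, fun x => ?_, fun x => ?_, fun x => ?_⟩
  · obtain ⟨-, f12, -, -⟩ := frame_facts h x
    have e : (starRingEnd ℂ) (cp p N X x) * cq p N X x =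
        ((p.a * lam p N X x * (p.b * lam p N X x) : ℝ) : ℂ) *
          ((starRingEnd ℂ) (fr1 p N X x) * fr2 p N X x) := by
      simp only [cp, cq, map_mul, Complex.conj_ofReal]
      push_cast; ring
    rw [e, f12, ← mul_assoc, ← Complex.ofReal_mul, Complex.im_ofReal_mul]
    simp only [Complex.add_im, Complex.ofReal_im, Complex.mul_I_im, Complex.ofReal_re, zero_add]
    have := lam_pos h x
    exact mul_pos (mul_pos (mul_pos (mul_pos p.apos this) (mul_pos p.bpos this))
      (pow_pos (Real.exp_pos _) 2)) (rR_pos h x)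
  · obtain ⟨f11, f12, f22, -⟩ := frame_facts h x
    have hf1 : DifferentiableAt ℝ (fr1 p N X) x :=
      (sp_frame1 p.hu h.sv (gS_lt h)).smooth.differentiable (by simp) x
    have hf2 : DifferentiableAt ℝ (fr2 p N X) x :=
      (sp_frame2 p.hu h.sv (gS_lt h)).smooth.differentiable (by simp) x
    have t2 := der_smul_real p.η1 x (hd_lam h p.η1 x) hf2 p.b
    have t1 := der_smul_real p.η2 x (hd_lam h p.η2 x) hf1 p.a
    rw [Y_η1] at t2
    rw [Y_η2] at t1
    have hs := frame_str (η1 := p.η1) (η2 := p.η2) (ε := eps N X) p.hu.smooth h.sv.smooth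
      (gS_lt h) x
    change der p.η1 (fr2 p N X) x - der p.η2 (fr1 p N X) x = I * (_ * fr2 p N X x - _ * fr1 p N X x)
      at hs
    rw [der_e1 (p := p), der_e2 (p := p)]
    unfold cq cp
    rw [t1, t2, Complex.real_smul, Complex.real_smul]
    simp only [con1, con2, flux1, flux2]
    have hr := rR_pos h x
    -- the linear relation between the frame vectors
    have key : I * (((jet p N X x).P2 : ℂ) * fr2 p N X x + ((jet p N X x).P1 : ℂ) * fr1 p N X x) =
        (rR p N X x : ℂ) * (((jet p N X x).Y1 : ℂ) * fr2 p N X x -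
          ((jet p N X x).Y2 : ℂ) * fr1 p N X x) := by
      have hne : (starRingEnd ℂ) (fr1 p N X x) ≠ 0 := by
        simp [(frame_facts h x).2.2.2]
      refine mul_left_cancel₀ hne ?_
      have e1 : ∀ a b : ℂ, (starRingEnd ℂ) (fr1 p N X x) *
          (I * (a * fr2 p N X x + b * fr1 p N X x)) =
          I * (a * ((starRingEnd ℂ) (fr1 p N X x) * fr2 p N X x) +
            b * ((starRingEnd ℂ) (fr1 p N X x) * fr1 p N X x)) := by intros; ring
      have e2 : ∀ r a b : ℂ, (starRingEnd ℂ) (fr1 p N X x) *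
          (r * (a * fr2 p N X x - b * fr1 p N X x)) =
          r * (a * ((starRingEnd ℂ) (fr1 p N X x) * fr2 p N X x) -
            b * ((starRingEnd ℂ) (fr1 p N X x) * fr1 p N X x)) := by intros; ring
      rw [e1, e2, f11, f12]
      have hq := rR_sq h x
      simp only [Jet.S] at hq
      apply Complex.ext <;>
        simp only [Jet.P1, Jet.P2, Jet.M1, Jet.M2, Complex.mul_re, Complex.mul_im, Complex.sub_re,
          Complex.sub_im, Complex.add_re, Complex.add_im, Complex.mul_I_re, Complex.mul_I_im,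
          Complex.ofReal_re, Complex.ofReal_im, Complex.I_re, Complex.I_im]
      · linear_combination -(Real.exp (-(jet p N X x).v) ^ 2 *
          (jet p N X x).Y1 * 0) * hq
      · linear_combination -(Real.exp (-(jet p N X x).v) ^ 2 * (jet p N X x).Y1) * hq
    have hrC : (rR p N X x : ℂ) ≠ 0 := Complex.ofReal_ne_zero.2 hr.ne'
    push_cast
    field_simp
    linear_combination ((p.a : ℂ) * p.b * lam p N X x * rR p N X x) * hs +
      ((p.a : ℂ) * p.b * lam p N X x * dlog p N X x) * key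
  · rw [der_e1 (p := p), der_e2 (p := p),
      der_const_mul' _ _ (c2.smooth.differentiable (by simp) x),
      der_const_mul' _ _ (c1.smooth.differentiable (by simp) x), con_flat h x]
    simp only [smul_eq_mul]
    ring

theorem sp_z (h : Good p B N X) : SP (zA p N X) ∧ SP (zB p N X) := by
  obtain ⟨s1, s2⟩ := sp_flux h
  have hc : ContDiff ℝ ∞ (fun r : ℝ => (r : ℂ)) := Complex.ofRealCLM.contDiff
  exact ⟨⟨(hc.comp (contDiff_const.mul s2.smooth)).add
        ((hc.comp (contDiff_const.mul h.sY1.smooth)).mul contDiff_const),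
      ⟨fun x => congrArg₂ (fun r y : ℝ => ((p.a * r : ℝ) : ℂ) + ((p.a * y : ℝ) : ℂ) * I)
          (s2.per.add1 x) (h.sY1.per.add1 x),
        fun x => congrArg₂ (fun r y : ℝ => ((p.a * r : ℝ) : ℂ) + ((p.a * y : ℝ) : ℂ) * I)
          (s2.per.add2 x) (h.sY1.per.add2 x)⟩⟩,
    ⟨(hc.comp (contDiff_const.mul s1.smooth).neg).add
        ((hc.comp (contDiff_const.mul h.sY2.smooth)).mul contDiff_const),
      ⟨fun x => congrArg₂ (fun r y : ℝ => ((-(p.b * r) : ℝ) : ℂ) + ((p.b * y : ℝ) : ℂ) * I)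
          (s1.per.add1 x) (h.sY2.per.add1 x),
        fun x => congrArg₂ (fun r y : ℝ => ((-(p.b * r) : ℝ) : ℂ) + ((p.b * y : ℝ) : ℂ) * I)
          (s1.per.add2 x) (h.sY2.per.add2 x)⟩⟩⟩

theorem z_eq_ratio (h : Good p B N X) (x : Pl) :
    zA p N X x = ratio p N X x * cp p N X x ∧ zB p N X x = ratio p N X x * cq p N X x := by
  have hne := cp_ne h x
  refine ⟨(div_mul_cancel₀ _ hne).symm, ?_⟩
  obtain ⟨f11, f12, -, f0⟩ := frame_facts h x
  rw [ratio, div_mul_eq_mul_div, eq_div_iff hne]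
  have hc : (starRingEnd ℂ) (fr1 p N X x) ≠ 0 := by simp [f0]
  refine mul_left_cancel₀ hc ?_
  have e : ∀ z l : ℂ, (starRingEnd ℂ) (fr1 p N X x) * (z * (l * fr1 p N X x)) =
      z * l * ((starRingEnd ℂ) (fr1 p N X x) * fr1 p N X x) := by intros; ring
  have e' : ∀ z l : ℂ, (starRingEnd ℂ) (fr1 p N X x) * (z * (l * fr2 p N X x)) =
      z * l * ((starRingEnd ℂ) (fr1 p N X x) * fr2 p N X x) := by intros; ring
  rw [cp, cq, e, e', f11, f12]
  have hr := (rR_pos h x).ne'
  have hq := rR_sq h x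
  simp only [Jet.S] at hq
  simp only [zA, zB, flux1, flux2, Jet.P1, Jet.P2, Jet.M1, Jet.M2]
  apply Complex.ext <;>
    simp only [Complex.mul_re, Complex.mul_im, Complex.add_re, Complex.add_im, Complex.mul_I_re,
      Complex.mul_I_im, Complex.ofReal_re, Complex.ofReal_im, Complex.I_re, Complex.I_im] <;>
    field_simp <;> grind

theorem norm_ratio_sq (h : Good p B N X) (x : Pl) :
    ‖ratio p N X x‖ ^ 2 = (1 + (jet p N X x).H) * Real.exp ((jet p N X x).v) ^ 2 *
      (YP p N X x / (1 - (jet p N X x).S)) := by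
  obtain ⟨f11, -, -, f0⟩ := frame_facts h x
  have hn : ‖fr1 p N X x‖ ^ 2 =
      Real.exp (-(jet p N X x).v) ^ 2 * (1 - (jet p N X x).W1 ^ 2) := by
    rw [← Complex.normSq_eq_norm_sq]
    exact Complex.ofReal_injective (by rw [← f11, Complex.normSq_eq_conj_mul_self])
  have hr := rR_pos h x
  have hq := rR_sq h x
  have hl := lam_pos h x
  have hH := h.H_gt x
  have hs : lam p N X x ^ 2 = (1 + (jet p N X x).H)⁻¹ := by
    rw [lam, inv_pow, Real.sq_sqrt hH.le]
  have hw : (1 : ℝ) - (jet p N X x).W1 ^ 2 ≠ 0 := by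
    intro h0
    rw [h0, mul_zero] at hn
    exact f0 (norm_eq_zero.1 (pow_eq_zero_iff two_ne_zero |>.1 hn))
  have hz : ‖zA p N X x‖ ^ 2 = p.a ^ 2 * ((flux2 p N X x) ^ 2 + (jet p N X x).Y1 ^ 2) := by
    rw [← Complex.normSq_eq_norm_sq, zA, Complex.normSq_add_mul_I]; ring
  have hS : (jet p N X x).S < 1 := h.S_lt x
  rw [ratio, norm_div, div_pow, hz, cp, norm_mul, mul_pow, hn, norm_real, Real.norm_eq_abs, sq_abs,
    mul_pow, hs, Real.exp_neg, flux2, div_pow, hq]
  simp only [YP, Jet.P1, Jet.P2, Jet.M1, Jet.M2, Jet.S] at *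
  have := p.apos.ne'
  have := Real.exp_ne_zero ((jet p N X x).v)
  have h1S : (1 : ℝ) - ((jet p N X x).W1 * (jet p N X x).W1 +
      (jet p N X x).W2 * (jet p N X x).W2) ≠ 0 := (sub_pos.2 hS).ne'
  have h2S : (1 : ℝ) - (jet p N X x).W1 ^ 2 - (jet p N X x).W2 ^ 2 ≠ 0 := by
    intro e; apply h1S; rw [← e]; ring
  generalize (jet p N X x).W1 = w1 at *
  generalize (jet p N X x).W2 = w2 at *
  generalize (jet p N X x).Y1 = y1 at *
  generalize (jet p N X x).Y2 = y2 at *
  rw [show (1 : ℝ) - (w1 * w1 + w2 * w2) = 1 - w1 ^ 2 - w2 ^ 2 by ring]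
  field_simp
  ring

end Vale.Agent.P205.Full.Klein
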