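import Vale.Agent.P205.Full.Klein.Orders
import Vale.Agent.P205.Full.Frame
import Vale.Agent.P205.Full.Solution

/-!
The jet is the jet of actual functions.
-/

open scoped ContDiff
open Complex

namespace Vale.Agent.P205.Full.Klein

/-- The derivative at `x` in the direction `η` is `g'`. -/
def HD (η x : Pl) (g : Pl → ℝ) (g' : ℝ) : Prop := DifferentiableAt ℝ g x ∧ der η g x = g'

variable {η x : Pl} {g h : Pl → ℝ} {g' h' : ℝ}

theorem HD.const (c : ℝ) : HD η x (fun _ => c) 0 := ⟨differentiableAt_const c, by simp [der]⟩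

theorem HD.add (a : HD η x g g') (b : HD η x h h') : HD η x (fun y => g y + h y) (g' + h') :=
  ⟨a.1.fun_add b.1, by rw [der_add' η a.1 b.1, a.2, b.2]⟩

theorem HD.sub (a : HD η x g g') (b : HD η x h h') : HD η x (fun y => g y - h y) (g' - h') :=
  ⟨a.1.fun_sub b.1, by rw [der_sub' η a.1 b.1, a.2, b.2]⟩

theorem HD.mul (a : HD η x g g') (b : HD η x h h') :
    HD η x (fun y => g y * h y) (g' * h x + g x * h') :=
  ⟨a.1.fun_mul b.1, by rw [der_mul' η a.1 b.1, a.2, b.2]⟩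

theorem HD.smul (c : ℝ) (a : HD η x g g') : HD η x (fun y => c * g y) (c * g') :=
  ⟨a.1.const_mul c, by rw [der_const_mul' η c a.1, a.2]⟩

theorem HD.neg (a : HD η x g g') : HD η x (fun y => -g y) (-g') := by
  have := a.smul (-1)
  simpa using this

theorem HD.comp {φ : ℝ → ℝ} {φ' : ℝ} (hφ : HasDerivAt φ φ' (g x)) (a : HD η x g g') :
    HD η x (fun y => φ (g y)) (φ' * g') :=
  ⟨hφ.differentiableAt.comp x a.1, by rw [der_comp' η hφ a.1, a.2]⟩

theorem HD.congr (a : HD η x g g') (hg : ∀ y, h y = g y) (he : h' = g') : HD η x h h' := by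
  rw [funext hg, he]; exact a

variable {κ0 B : ℝ} {N : ℕ} {X : St} (p : Dat)

theorem hd_data (η x : Pl) {u : Pl → ℝ} (hu : SP u) : HD η x u (der η u x) :=
  ⟨hu.smooth.differentiable (by simp) x, rfl⟩

theorem hd_ev {c : Coef} (hc : ∀ m, Mem m c) (η x : Pl) :
    HD η x (fun y => (ev c y).re) (ev (dC η c) x).re :=
  ⟨(SP_re_ev hc).smooth.differentiable (by simp) x, der_re_ev (hc 1) η x⟩

theorem hd_Y (hX : InBall κ0 B N X) (η x : Pl) :
    HD η x (fun y => hY0 N y + qE N X y) (2 * Real.pi * N * η.2 + qE1 η N X x) := by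
  refine HD.add ⟨(differentiableAt_snd.const_mul _), ?_⟩ (hd_ev hX.re η x)
  have h : HasFDerivAt (hY0 N) ((2 * Real.pi * N) • ContinuousLinearMap.snd ℝ ℝ ℝ) x := by
    exact (hasFDerivAt_snd (𝕜 := ℝ) (E := ℝ) (F := ℝ) (p := x)).const_mul (2 * Real.pi * N)
  rw [der, h.fderiv]
  simp

theorem Y_η1 (N : ℕ) (X : St) (x : Pl) :
    2 * Real.pi * N * p.η1.2 + qE1 p.η1 N X x = (jet p N X x).Y1 := by
  simp [Jet.Y1, jet, Dat.η1]

theorem Y_η2 (N : ℕ) (X : St) (x : Pl) :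
    2 * Real.pi * N * p.η2.2 + qE1 p.η2 N X x = (jet p N X x).Y2 := by
  simp [Jet.Y2, jet, Dat.η2]; ring

/-- Derivatives of `H` and `H'`. -/
theorem hd_H (hX : InBall κ0 B N X) (η x : Pl) :
    HD η x (fun y => (jet p N X y).H)
        ((jet p N X x).H1 * (2 * Real.pi * N * η.2 + qE1 η N X x)) ∧
      HD η x (fun y => (jet p N X y).H1)
        ((jet p N X x).H2 * (2 * Real.pi * N * η.2 + qE1 η N X x)) := by
  have hY := hd_Y hX η x
  have hc := hY.comp (Real.hasDerivAt_cos _)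
  have hs := hY.comp (Real.hasDerivAt_sin _)
  have h0 := (hc.comp (hasDerivAt_psi X.γ (kL (p.m N)) _)).smul (kL (p.m N))
  have h1 := (((hc.comp (hasDerivAt_psi1 X.γ (kL (p.m N)) _)).mul hs).smul (kL (p.m N))).neg
  exact ⟨h0.congr (fun y => rfl) (by simp [Jet.H1, jet]; ring),
    h1.congr (fun y => rfl) (by simp [Jet.H2, jet]; ring)⟩

theorem hd_p1 (hX : InBall κ0 B N X) (η x : Pl) :
    HD η x (fun y => (jet p N X y).p1)
      (1 / 2 * ((jet p N X x).H1 * (2 * Real.pi * N * η.2 + qE1 η N X x))) :=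
  ((HD.const (-(1 / 2))).add ((hd_H p hX η x).1.smul (1 / 2))).congr (fun _ => rfl) (by ring)

theorem hd_v (hX : InBall κ0 B N X) (η x : Pl) :
    HD η x (fun y => (jet p N X y).v) ((jet p N X x).p1 *
      ((jet p N X x).H1 * (2 * Real.pi * N * η.2 + qE1 η N X x)) + qF1 η N X x) := by
  have hH := (hd_H p hX η x).1
  exact (((hH.smul (-(1 / 2))).add ((hH.mul hH).smul (1 / 4))).add (hd_ev hX.rf η x)).congr
    (fun _ => rfl) (by simp [Jet.p1, qF1]; ring)

theorem hd_vdir (hX : InBall κ0 B N X) (η ξ x : Pl) :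
    HD ξ x (fun y => (jet p N X y).p1 *
        ((jet p N X y).H1 * (2 * Real.pi * N * η.2 + qE1 η N X y)) + qF1 η N X y)
      ((jet p N X x).p2 * ((2 * Real.pi * N * ξ.2 + qE1 ξ N X x) *
          (2 * Real.pi * N * η.2 + qE1 η N X x)) +
        (jet p N X x).p1 * ((jet p N X x).H1 * qE2 ξ η N X x) + qF2 ξ η N X x) := by
  have hY : HD ξ x (fun y => 2 * Real.pi * N * η.2 + qE1 η N X y) (0 + qE2 ξ η N X x) :=
    (HD.const _).add (hd_ev (fun m => (hX.re (m + 1)).dC η) ξ x)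
  exact (((hd_p1 p hX ξ x).mul ((hd_H p hX ξ x).2.mul hY)).add
    (hd_ev (fun m => (hX.rf (m + 1)).dC η) ξ x)).congr (fun _ => rfl)
      (by simp only [Jet.p2, qF2]; ring)

theorem v_η (N : ℕ) (X : St) (x : Pl) :
    ((jet p N X x).p1 * ((jet p N X x).H1 * (2 * Real.pi * N * p.η1.2 + qE1 p.η1 N X x)) +
      qF1 p.η1 N X x = (jet p N X x).v1) ∧
    ((jet p N X x).p1 * ((jet p N X x).H1 * (2 * Real.pi * N * p.η2.2 + qE1 p.η2 N X x)) +
      qF1 p.η2 N X x = (jet p N X x).v2) := by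
  rw [Y_η1, Y_η2]; exact ⟨rfl, rfl⟩

/-- All the first order relations in one direction. -/
theorem hd_all (hX : InBall κ0 B N X) (x : Pl) :
    let J := jet p N X
    (HD p.η1 x (fun y => (J y).v) (J x).v1 ∧ HD p.η2 x (fun y => (J y).v) (J x).v2) ∧
    (HD p.η1 x (fun y => (J y).v1) (J x).v11 ∧ HD p.η1 x (fun y => (J y).v2) (J x).v12 ∧
      HD p.η2 x (fun y => (J y).v1) (J x).v21 ∧ HD p.η2 x (fun y => (J y).v2) (J x).v22) ∧
    (HD p.η1 x (fun y => (J y).W1) (J x).W11 ∧ HD p.η1 x (fun y => (J y).W2) (J x).W12 ∧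
      HD p.η2 x (fun y => (J y).W1) (J x).W21 ∧ HD p.η2 x (fun y => (J y).W2) (J x).W22) := by
  intro J
  have hv : HD p.η1 x (fun y => (J y).v) (J x).v1 ∧ HD p.η2 x (fun y => (J y).v) (J x).v2 :=
    ⟨(hd_v p hX p.η1 x).congr (fun _ => rfl) (v_η p N X x).1.symm,
      (hd_v p hX p.η2 x).congr (fun _ => rfl) (v_η p N X x).2.symm⟩
  have a11 : HD p.η1 x (fun y => (J y).v1) (J x).v11 :=
    (hd_vdir p hX p.η1 p.η1 x).congr (fun y => (v_η p N X y).1.symm)
      (by rw [Y_η1]; rfl)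
  have a12 : HD p.η1 x (fun y => (J y).v2) (J x).v12 :=
    (hd_vdir p hX p.η2 p.η1 x).congr (fun y => (v_η p N X y).2.symm)
      (by rw [Y_η1, Y_η2]; rfl)
  have a21 : HD p.η2 x (fun y => (J y).v1) (J x).v21 :=
    (hd_vdir p hX p.η1 p.η2 x).congr (fun y => (v_η p N X y).1.symm)
      (by rw [Y_η1, Y_η2]; simp only [J, Jet.v21]; simp only [jet]; ring)
  have a22 : HD p.η2 x (fun y => (J y).v2) (J x).v22 :=
    (hd_vdir p hX p.η2 p.η2 x).congr (fun y => (v_η p N X y).2.symm)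
      (by rw [Y_η2]; rfl)
  have hu : ∀ ξ η : Pl, HD ξ x (fun y => der η p.u y) (der ξ (der η p.u) x) :=
    fun ξ η => hd_data ξ x (p.hu.derR η)
  have hE : ∀ {η : Pl} {v' : ℝ}, HD η x (fun y => (J y).v) v' →
      HD η x (fun y => (J y).E) ((J x).E * v') := by
    intro η v' h
    exact ((h.comp (Real.hasDerivAt_exp _)).smul (X.κ * ((N : ℝ))⁻¹)).congr (fun _ => rfl)
      (by simp only [J, Jet.E]; simp only [jet]; ring)
  refine ⟨hv, ⟨a11, a12, a21, a22⟩, ?_, ?_, ?_, ?_⟩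
  · exact ((hE hv.1).mul ((hu _ _).add a11)).congr (fun _ => rfl)
      (by simp only [Jet.W11, J]; simp only [jet]; ring)
  · exact ((hE hv.1).mul ((hu _ _).add a12)).congr (fun _ => rfl)
      (by simp only [Jet.W12, J]; simp only [jet]; ring)
  · exact ((hE hv.2).mul ((hu _ _).add a21)).congr (fun _ => rfl)
      (by simp only [Jet.W21, J]; simp only [jet]; ring)
  · exact ((hE hv.2).mul ((hu _ _).add a22)).congr (fun _ => rfl)
      (by simp only [Jet.W22, J]; simp only [jet]; ring)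

theorem hd_grad (hX : InBall κ0 B N X) (x : Pl) :
    let J := jet p N X
    HD p.η1 x (fun y => (J y).Y1) (J x).e11 ∧ HD p.η1 x (fun y => (J y).Y2) (J x).e12 ∧
      HD p.η2 x (fun y => (J y).Y1) (J x).e21 ∧ HD p.η2 x (fun y => (J y).Y2) (J x).e22 := by
  intro J
  have h : ∀ ξ η : Pl, HD ξ x (fun y => qE1 η N X y) (qE2 ξ η N X x) :=
    fun ξ η => hd_ev (fun m => (hX.re (m + 1)).dC η) ξ x
  exact ⟨(h _ _).congr (fun _ => rfl) rfl,
    ((HD.const _).add (h p.η1 p.η2)).congr (fun _ => rfl) (zero_add _).symm,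
    (h _ _).congr (fun _ => rfl) rfl,
    ((HD.const _).add (h p.η2 p.η2)).congr (fun _ => rfl) (zero_add _).symm⟩

/-- Derivatives of `S` and the divergence formulas. -/
theorem hd_flux (hX : InBall κ0 B N X) (x : Pl) :
    let J := jet p N X
    (HD p.η1 x (fun y => (J y).S) (J x).S1 ∧ HD p.η2 x (fun y => (J y).S) (J x).S2) ∧
      (∃ d1 d2, HD p.η1 x (fun y => (J y).P1) d1 ∧ HD p.η2 x (fun y => (J y).P2) d2 ∧
        d1 + d2 = (J x).e11 + (J x).e22 + (J x).divM) ∧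
      ∃ d1 d2, HD p.η1 x (fun y => (J y).Q1) d1 ∧ HD p.η2 x (fun y => (J y).Q2) d2 ∧
        d1 + d2 = (J x).dQ := by
  intro J
  obtain ⟨_, _, w11, w12, w21, w22⟩ := hd_all p hX x
  obtain ⟨y11, y12, y21, y22⟩ := hd_grad p hX x
  have hS1 : HD p.η1 x (fun y => (J y).S) (J x).S1 :=
    ((w11.mul w11).add (w12.mul w12)).congr (fun _ => rfl) (by simp only [J, Jet.S1]; ring)
  have hS2 : HD p.η2 x (fun y => (J y).S) (J x).S2 :=
    ((w21.mul w21).add (w22.mul w22)).congr (fun _ => rfl) (by simp only [J, Jet.S2]; ring)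
  have m1 := ((w12.mul w12).mul y11).neg.add ((w11.mul w12).mul y12)
  have m2 := ((w21.mul w22).mul y21).sub ((w21.mul w21).mul y22)
  refine ⟨⟨hS1, hS2⟩, ⟨_, _, (y11.add m1).congr (fun _ => rfl) rfl,
    (y22.add m2).congr (fun _ => rfl) rfl, ?_⟩, _, _,
    (m1.add ((hS1.mul y11).smul (1 / 2))).congr (fun _ => rfl) rfl,
    (m2.add ((hS2.mul y22).smul (1 / 2))).congr (fun _ => rfl) rfl, ?_⟩
  · simp only [J, Jet.divM]; ring
  · simp only [J, Jet.divM, Jet.dQ]; ring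

end Vale.Agent.P205.Full.Klein
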