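import Vale.Agent.P205.Full.Klein.StepSpec

/-!
The symmetric fixed point.
-/

open scoped ContDiff
open Complex Filter Topology

namespace Vale.Agent.P205.Full.Klein

variable (p : Dat)

/-- The iteration. -/
noncomputable def iterX (N : ℕ) : ℕ → St
  | 0 => ctr p.κ0
  | n + 1 => stepT p N (iterX N n)

theorem tendsto_nrm_bound {c : ℕ → Coef} {z : Coef} {m : ℕ} {R : ℝ}
    (hc : ∀ k, Tendsto (fun n => c n k) atTop (𝓝 (z k)))
    (hR : ∀ᶠ n in atTop, Mem m (c n) ∧ nrm m (c n) ≤ R) : Mem m z ∧ nrm m z ≤ R := by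
  have hfin : ∀ F : Finset Z2, ∑ k ∈ F, wt k ^ m * ‖z k‖ ≤ R := by
    intro F
    refine le_of_tendsto (tendsto_finsetSum F fun k _ => ((hc k).norm).const_mul (wt k ^ m)) ?_
    filter_upwards [hR] with n hn
    exact (hn.1.sum_le_tsum F fun k _ => wt_pow_mul_nonneg m _ k).trans hn.2
  have hM : Mem m z := summable_of_sum_le (wt_pow_mul_nonneg m _) hfin
  exact ⟨hM, hM.tsum_le_of_sum_le hfin⟩

theorem norm_le_of_mem {m : ℕ} {c : Coef} (hc : Mem m c) (k : Z2) : ‖c k‖ ≤ nrm m c :=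
  (le_mul_of_one_le_left (norm_nonneg _) (one_le_pow₀ (one_le_wt k))).trans
    (hc.le_tsum k fun j _ => wt_pow_mul_nonneg m _ j)

theorem dst_bounds {N : ℕ} (hN : 1 ≤ N) (X Y : St) :
    nrm 2 (X.f - Y.f) ≤ dst N X Y ∧ nrm 2 (X.e - Y.e) ≤ dst N X Y ∧
      |X.κ - Y.κ| ≤ dst N X Y ∧ |X.γ - Y.γ| ≤ dst N X Y := by
  have hN' : (1 : ℝ) ≤ N := by exact_mod_cast hN
  have a := nrm_nonneg 2 (X.f - Y.f); have b := nrm_nonneg 1 (X.e - Y.e)
  have c := nrm_nonneg 2 (X.e - Y.e); have d := abs_nonneg (X.κ - Y.κ)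
  have e := abs_nonneg (X.γ - Y.γ)
  unfold dst
  have h : nrm 2 (X.f - Y.f) + nrm 1 (X.e - Y.e) + |X.κ - Y.κ| + |X.γ - Y.γ| ≤
      (N : ℝ) * (nrm 2 (X.f - Y.f) + nrm 1 (X.e - Y.e) + |X.κ - Y.κ| + |X.γ - Y.γ|) :=
    le_mul_of_one_le_left (by positivity) hN'
  refine ⟨?_, ?_, ?_, ?_⟩ <;> linarith


section Seq

variable {p} {B d1 : ℝ} {N : ℕ} {x : ℕ → St} (hN1 : 1 ≤ N)
  (hmem : ∀ n, InBall p.κ0 B N (x n) ∧ Par (x n))
  (hgeo : ∀ n, dst N (x (n + 1)) (x n) ≤ d1 * (1 / 2) ^ n)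

theorem dst_triangle {a b c : St} (κ0 : ℝ) (ha : InBall κ0 B N a) (hb : InBall κ0 B N b)
    (hc : InBall κ0 B N c) : dst N a c ≤ dst N a b + dst N c b := by
  have t : ∀ (i : ℕ) (a b c : Coef), Mem i a → Mem i b → Mem i c →
      nrm i (a - c) ≤ nrm i (a - b) + nrm i (c - b) := by
    intro i a b c ha hb hc
    have e : a - c = (a - b) + -(c - b) := by abel
    rw [e]
    exact (nrm_add_le (ha.sub hb) (Full.Mem.neg (hc.sub hb))).trans (by rw [nrm_neg])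
  have t1 := t 2 _ _ _ (ha.rf 2) (hb.rf 2) (hc.rf 2)
  have t2 := t 1 _ _ _ (ha.re 1) (hb.re 1) (hc.re 1)
  have t3 := t 2 _ _ _ (ha.re 2) (hb.re 2) (hc.re 2)
  have t4 := abs_sub_le a.κ b.κ c.κ
  have t5 := abs_sub_le a.γ b.γ c.γ
  rw [abs_sub_comm b.κ] at t4
  rw [abs_sub_comm b.γ] at t5
  have hN' : (0 : ℝ) ≤ N := Nat.cast_nonneg N
  have h1 := mul_le_mul_of_nonneg_left (add_le_add (add_le_add (add_le_add t1 t2) t4) t5) hN'
  unfold dst
  linarith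

include hN1 hmem hgeo in
theorem exists_lim (g : St → ℂ) (hg : ∀ X Y, InBall p.κ0 B N X → InBall p.κ0 B N Y →
    ‖g X - g Y‖ ≤ dst N X Y) : ∃ z, Tendsto (fun n => g (x n)) atTop (𝓝 z) :=
  cauchySeq_tendsto_of_complete (cauchySeq_of_le_geometric (1 / 2) d1 (by norm_num) fun n => by
    rw [dist_comm, dist_eq_norm]
    exact (hg _ _ (hmem _).1 (hmem _).1).trans (hgeo n))

include hN1 hmem hgeo in
theorem tail_bound (n m : ℕ) : dst N (x n) (x (n + m)) ≤ 2 * d1 * (1 / 2) ^ n := by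
  have key : ∀ m, dst N (x n) (x (n + m)) ≤
      2 * d1 * (1 / 2) ^ n - 2 * d1 * (1 / 2) ^ (n + m) := by
    intro m
    induction m with
    | zero => simp [dst, nrm_zero]
    | succ m ih =>
      have tri := dst_triangle p.κ0 (hmem n).1 (hmem (n + m)).1 (hmem (n + m + 1)).1
      have := hgeo (n + m)
      rw [← add_assoc, pow_succ]
      linarith
  have := key m
  have h0 : 0 ≤ 2 * d1 * (1 / 2) ^ (n + m) := by
    have := (dst_nonneg N (x 1) (x 0)).trans (hgeo 0)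
    simp only [pow_zero, mul_one] at this
    positivity
  linarith

variable {Z : St} (hzf : ∀ k, Tendsto (fun n => (x n).f k) atTop (𝓝 (Z.f k)))
  (hze : ∀ k, Tendsto (fun n => (x n).e k) atTop (𝓝 (Z.e k)))
  (hzk : Tendsto (fun n => (x n).κ) atTop (𝓝 Z.κ))
  (hzg : Tendsto (fun n => (x n).γ) atTop (𝓝 Z.γ))

include hmem hzf hze hzk hzg in
theorem lim_mem (hhi : ∀ j, ∃ R, ∀ n, nrm (j + 1) (x n).f ≤ R ∧ nrm (j + 1) (x n).e ≤ R) :
    InBall p.κ0 B N Z ∧ Par Z := by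
  have rf : ∀ m, Mem m Z.f := fun m => by
    obtain ⟨R, hR⟩ := hhi m
    exact ((tendsto_nrm_bound hzf (Eventually.of_forall fun n =>
      ⟨(hmem n).1.rf (m + 1), (hR n).1⟩)).1).mono (Nat.le_succ m)
  have re' : ∀ m, Mem m Z.e := fun m => by
    obtain ⟨R, hR⟩ := hhi m
    exact ((tendsto_nrm_bound hze (Eventually.of_forall fun n =>
      ⟨(hmem n).1.re (m + 1), (hR n).2⟩)).1).mono (Nat.le_succ m)
  refine ⟨⟨rf, re', ?_, ?_, (tendsto_nrm_bound hzf (Eventually.of_forall fun n =>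
        ⟨(hmem n).1.rf 2, (hmem n).1.nf⟩)).2,
      (tendsto_nrm_bound hze (Eventually.of_forall fun n => ⟨(hmem n).1.re 1, (hmem n).1.ne1⟩)).2,
      (tendsto_nrm_bound hze (Eventually.of_forall fun n => ⟨(hmem n).1.re 2, (hmem n).1.ne2⟩)).2,
      le_of_tendsto' ((hzk.sub_const _).abs) fun n => (hmem n).1.nk,
      le_of_tendsto' ((hzg.sub_const _).abs) fun n => (hmem n).1.ng⟩, ?_⟩
  · intro k
    refine tendsto_nhds_unique (hzf (-k)) ?_
    exact ((continuous_conj.tendsto _).comp (hzf k)).congr fun n => ((hmem n).1.sf k).symm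
  · intro k
    refine tendsto_nhds_unique (hze (-k)) ?_
    exact ((continuous_conj.tendsto _).comp (hze k)).congr fun n => ((hmem n).1.se k).symm
  · constructor <;> funext k
    · refine tendsto_nhds_unique (f := fun n => Tk (x n).f k) ?_ ((hzf k).congr fun n => ?_)
      · exact (hzf (refl2 k)).const_mul _
      · rw [(hmem n).2.1]
    · refine tendsto_nhds_unique (f := fun n => Tk (x n).e k) ?_ ((hze k).neg.congr fun n => ?_)
      · exact (hze (refl2 k)).const_mul _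
      · rw [(hmem n).2.2]; rfl

include hN1 hmem hgeo hzf hze hzk hzg in
theorem conv_bound (n : ℕ) : dst N (x n) Z ≤ (4 * N + 1) * (2 * d1 * (1 / 2) ^ n) := by
  have hev : ∀ (P : ℕ → Prop), (∀ m, P (n + m)) → ∀ᶠ i in atTop, P i := fun P hP =>
    eventually_atTop.2 ⟨n, fun i hi => by obtain ⟨m, rfl⟩ := Nat.exists_eq_add_of_le hi; exact hP m⟩
  have hb := fun m => dst_bounds hN1 (x n) (x (n + m))
  have ht := tail_bound hN1 hmem hgeo n
  have a1 := (tendsto_nrm_bound (c := fun i => (x n).f - (x i).f) (z := (x n).f - Z.f)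
    (fun k => (hzf k).const_sub _)
    (hev _ fun m => ⟨((hmem n).1.rf 2).sub ((hmem _).1.rf 2), (hb m).1.trans (ht m)⟩)).2
  have a2 := tendsto_nrm_bound (c := fun i => (x n).e - (x i).e) (z := (x n).e - Z.e) (m := 2)
    (fun k => (hze k).const_sub _)
    (hev _ fun m => ⟨((hmem n).1.re 2).sub ((hmem _).1.re 2), (hb m).2.1.trans (ht m)⟩)
  have a3 : |(x n).κ - Z.κ| ≤ 2 * d1 * (1 / 2) ^ n :=
    le_of_tendsto ((hzk.const_sub _).abs) (hev _ fun m => (hb m).2.2.1.trans (ht m))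
  have a4 : |(x n).γ - Z.γ| ≤ 2 * d1 * (1 / 2) ^ n :=
    le_of_tendsto ((hzg.const_sub _).abs) (hev _ fun m => (hb m).2.2.2.trans (ht m))
  have a5 := (nrm_mono one_le_two a2.1).trans a2.2
  have hNp : (0 : ℝ) ≤ N := Nat.cast_nonneg N
  have := mul_le_mul_of_nonneg_left (add_le_add (add_le_add (add_le_add a1 a5) a3) a4) hNp
  have a6 := a2.2
  unfold dst
  linarith

end Seq

variable (p : Dat) in
theorem hhi_bound {B : ℝ} {N : ℕ} (hN1 : 1 ≤ N)
    (hmem : ∀ n, InBall p.κ0 B N (iterX p N n) ∧ Par (iterX p N n))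
    (hhigh : ∀ j R, ∃ D, ∀ X, InBall p.κ0 B N X → nrm (j + 1) X.f ≤ R → nrm (j + 1) X.e ≤ R →
      topN N j (stepT p N X) ≤ 1 / 2 * topN N j X + D) :
    ∀ j, ∃ R, ∀ n, nrm (j + 1) (iterX p N n).f ≤ R ∧ nrm (j + 1) (iterX p N n).e ≤ R := by
  intro j
  induction j with
  | zero =>
    refine ⟨|B| + 1, fun n => ⟨?_, ?_⟩⟩
    · have := ((nrm_mono one_le_two ((hmem n).1.rf 2))).trans ((hmem n).1.f_le hN1)
      simp only [zero_add]; linarith [le_abs_self B]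
    · have := (hmem n).1.ne1.trans (inv_nat_le hN1)
      simp only [zero_add]; linarith [abs_nonneg B, le_abs_self B]
  | succ j ih =>
    obtain ⟨R, hR⟩ := ih
    obtain ⟨D, hD⟩ := hhigh j R
    refine ⟨2 * |D|, fun n => ?_⟩
    have key : ∀ n, topN N j (iterX p N n) ≤ 2 * |D| := by
      intro n
      induction n with
      | zero => simp [topN, iterX, ctr, nrm_zero]
      | succ n ihn =>
        show topN N j (stepT p N (iterX p N n)) ≤ _
        linarith [hD _ (hmem n).1 (hR n).1 (hR n).2, le_abs_self D]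
    have key := key n
    unfold topN at key
    have a := nrm_nonneg (j + 2) (iterX p N n).f
    have b := nrm_nonneg (j + 2) (iterX p N n).e
    have hN' : (1 : ℝ) ≤ N := by exact_mod_cast hN1
    have : nrm (j + 2) (iterX p N n).f ≤ (N : ℝ) * nrm (j + 2) (iterX p N n).f :=
      le_mul_of_one_le_left a hN'
    constructor <;> linarith

theorem gf_lip {N : ℕ} (hN1 : 1 ≤ N) {κ0 B : ℝ} (k : Z2) (X Y : St) (hX : InBall κ0 B N X)
    (hY : InBall κ0 B N Y) : ‖X.f k - Y.f k‖ ≤ dst N X Y :=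
  (norm_le_of_mem ((hX.rf 2).sub (hY.rf 2)) k).trans (dst_bounds hN1 X Y).1

theorem ge_lip {N : ℕ} (hN1 : 1 ≤ N) {κ0 B : ℝ} (k : Z2) (X Y : St) (hX : InBall κ0 B N X)
    (hY : InBall κ0 B N Y) : ‖X.e k - Y.e k‖ ≤ dst N X Y :=
  (norm_le_of_mem ((hX.re 2).sub (hY.re 2)) k).trans (dst_bounds hN1 X Y).2.1

theorem gk_lip {N : ℕ} (hN1 : 1 ≤ N) (X Y : St) : ‖(X.κ : ℂ) - (Y.κ : ℂ)‖ ≤ dst N X Y := by
  rw [← Complex.ofReal_sub, norm_real, Real.norm_eq_abs]; exact (dst_bounds hN1 X Y).2.2.1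

theorem gg_lip {N : ℕ} (hN1 : 1 ≤ N) (X Y : St) : ‖(X.γ : ℂ) - (Y.γ : ℂ)‖ ≤ dst N X Y := by
  rw [← Complex.ofReal_sub, norm_real, Real.norm_eq_abs]; exact (dst_bounds hN1 X Y).2.2.2

theorem lim_fixed {B d1 : ℝ} {N : ℕ} {x : ℕ → St} {Z : St} (hN1 : 1 ≤ N)
    (hxs : ∀ n, x (n + 1) = stepT p N (x n))
    (hmem : ∀ n, InBall p.κ0 B N (x n) ∧ Par (x n)) (hZb : InBall p.κ0 B N Z)
    (hball : ∀ X, InBall p.κ0 B N X → InBall p.κ0 B N (stepT p N X))
    (hlip : ∀ X Y, InBall p.κ0 B N X → InBall p.κ0 B N Y →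
      dst N (stepT p N X) (stepT p N Y) ≤ 1 / 2 * dst N X Y)
    (hconv : ∀ n, dst N (x n) Z ≤ (4 * N + 1) * (2 * d1 * (1 / 2) ^ n))
    (g : St → ℂ) (hg : ∀ X Y, InBall p.κ0 B N X → InBall p.κ0 B N Y →
      ‖g X - g Y‖ ≤ dst N X Y) : Tendsto (fun n => g (x n)) atTop (𝓝 (g (stepT p N Z))) := by
  have hz : Tendsto (fun n => (4 * (N : ℝ) + 1) * (2 * d1 * (1 / 2) ^ n)) atTop (𝓝 0) := by
    simpa using ((tendsto_pow_atTop_nhds_zero_of_lt_one (by norm_num : (0 : ℝ) ≤ 1 / 2)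
      (by norm_num)).const_mul (2 * d1)).const_mul (4 * (N : ℝ) + 1)
  refine (tendsto_add_atTop_iff_nat 1).1 ?_
  rw [tendsto_iff_norm_sub_tendsto_zero]
  refine squeeze_zero (fun n => norm_nonneg _) (fun n => ?_) hz
  rw [hxs]
  refine (hg _ _ (hball _ (hmem n).1) (hball _ hZb)).trans
    ((hlip _ _ (hmem n).1 hZb).trans ?_)
  linarith [hconv n, dst_nonneg N (x n) Z]

theorem exists_fixed_point {Kb : ℝ} (hKb : 0 ≤ Kb)
    (hk : ∀ N, 1 ≤ N → |kN p N - p.c0 ^ 2 / 8| ≤ Kb / N) :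
    ∃ (B : ℝ) (N0 : ℕ), 0 ≤ B ∧ 1 ≤ N0 ∧ ∀ N, N0 ≤ N →
      ∃ X, InBall p.κ0 B N X ∧ Par X ∧ stepT p N X = X := by
  obtain ⟨B, N0, hB, hN0, hstep⟩ := step_spec p hKb hk
  refine ⟨B, N0, hB, hN0, fun N hN => ?_⟩
  obtain ⟨hball, hpar, hlip, hhigh⟩ := hstep N hN
  have hN1 : 1 ≤ N := le_trans hN0 hN
  have hxs : ∀ n, iterX p N (n + 1) = stepT p N (iterX p N n) := fun n => rfl
  have hmem : ∀ n, InBall p.κ0 B N (iterX p N n) ∧ Par (iterX p N n) := by
    intro n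
    induction n with
    | zero => exact ⟨ctr_mem hB N, by simp [Par, iterX, ctr, Tk, funext_iff]⟩
    | succ n ih => exact ⟨hball _ ih.1, hpar _ ih.1 ih.2⟩
  have hgeo : ∀ n, dst N (iterX p N (n + 1)) (iterX p N n) ≤
      dst N (iterX p N 1) (iterX p N 0) * (1 / 2) ^ n := by
    intro n
    induction n with
    | zero => simp
    | succ n ih =>
      have h := hlip _ _ (hmem (n + 1)).1 (hmem n).1
      rw [← hxs, ← hxs] at h
      rw [pow_succ]
      linarith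
  obtain ⟨zk, hzk⟩ := exists_lim hN1 hmem hgeo (fun X => (X.κ : ℂ)) fun X Y _ _ =>
    gk_lip hN1 X Y
  obtain ⟨zg, hzg⟩ := exists_lim hN1 hmem hgeo (fun X => (X.γ : ℂ)) fun X Y _ _ =>
    gg_lip hN1 X Y
  choose zf hzf using fun k => exists_lim hN1 hmem hgeo (fun X => X.f k) (gf_lip hN1 k)
  choose ze hze using fun k => exists_lim hN1 hmem hgeo (fun X => X.e k) (ge_lip hN1 k)
  have hk' : Tendsto (fun n => (iterX p N n).κ) atTop (𝓝 zk.re) := by
    simpa [Function.comp_def] using (Complex.continuous_re.tendsto _).comp hzk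
  have hg' : Tendsto (fun n => (iterX p N n).γ) atTop (𝓝 zg.re) := by
    simpa [Function.comp_def] using (Complex.continuous_re.tendsto _).comp hzg
  let Z : St := ⟨zf, ze, zk.re, zg.re⟩
  obtain ⟨hZb, hZp⟩ := lim_mem (Z := Z) hmem hzf hze hk' hg' (hhi_bound p hN1 hmem hhigh)
  refine ⟨Z, hZb, hZp, ?_⟩
  have hlim := lim_fixed p hN1 hxs hmem hZb hball hlip
    (conv_bound hN1 hmem hgeo (Z := Z) hzf hze hk' hg')
  have e1 : (stepT p N Z).f = zf := funext fun k =>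
    tendsto_nhds_unique (hlim _ (gf_lip hN1 k)) (hzf k)
  have e2 : (stepT p N Z).e = ze := funext fun k =>
    tendsto_nhds_unique (hlim _ (ge_lip hN1 k)) (hze k)
  have e3 : (stepT p N Z).κ = zk.re := by
    rw [← tendsto_nhds_unique (hlim (fun X => (X.κ : ℂ)) fun X Y _ _ => gk_lip hN1 X Y) hzk,
      Complex.ofReal_re]
  have e4 : (stepT p N Z).γ = zg.re := by
    rw [← tendsto_nhds_unique (hlim (fun X => (X.γ : ℂ)) fun X Y _ _ => gg_lip hN1 X Y) hzg,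
      Complex.ofReal_re]
  show stepT p N Z = ⟨zf, ze, zk.re, zg.re⟩
  rw [← e1, ← e2, ← e3, ← e4]

end Vale.Agent.P205.Full.Klein
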