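import Vale.Agent.P205.Full.Coef
import Vale.Agent.P205.Full.Ops

/-!
Coefficients of products, exponentials and derivatives of smooth periodic functions.
-/

open scoped ContDiff
open Complex

namespace Vale.Agent.P205.Full.Klein

variable {f g : Pl → ℂ}

theorem sqCoef_eq {c : Coef} (hc : Mem 0 c) (h : ∀ x, ev c x = g x) : sqCoef g = c := by
  rw [← funext h]
  exact funext (sqCoef_ev hc)

theorem sp_const {α : Type*} [NormedAddCommGroup α] [NormedSpace ℝ α] (a : α) :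
    SP (fun _ : Pl => a) :=
  ⟨contDiff_const, ⟨fun _ => rfl, fun _ => rfl⟩⟩

theorem sp_add (hf : SP f) (hg : SP g) : SP (fun x => f x + g x) :=
  ⟨hf.smooth.add hg.smooth, ⟨fun x => by rw [hf.per.add1, hg.per.add1],
    fun x => by rw [hf.per.add2, hg.per.add2]⟩⟩

theorem sp_mul (hf : SP f) (hg : SP g) : SP (fun x => f x * g x) :=
  ⟨hf.smooth.mul hg.smooth, ⟨fun x => by rw [hf.per.add1, hg.per.add1],
    fun x => by rw [hf.per.add2, hg.per.add2]⟩⟩

theorem sp_exp (hf : SP f) : SP (fun x => exp (f x)) :=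
  ⟨hf.smooth.cexp, ⟨fun x => by rw [hf.per.add1], fun x => by rw [hf.per.add2]⟩⟩

theorem sp_ev {c : Coef} (hc : ∀ m, Mem m c) : SP (ev c) := ⟨contDiff_ev hc, isPer_ev c⟩

theorem sqCoef_add (hf : SP f) (hg : SP g) :
    sqCoef (fun x => f x + g x) = sqCoef f + sqCoef g :=
  sqCoef_eq ((mem_sqCoef hf 0).add (mem_sqCoef hg 0)) fun x => by
    rw [ev_add (mem_sqCoef hf 0) (mem_sqCoef hg 0), ev_sqCoef hf, ev_sqCoef hg]

theorem sqCoef_mul (hf : SP f) (hg : SP g) :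
    sqCoef (fun x => f x * g x) = conv (sqCoef f) (sqCoef g) :=
  sqCoef_eq ((mem_sqCoef hf 0).conv (mem_sqCoef hg 0)) fun x => by
    rw [ev_conv (mem_sqCoef hf 0) (mem_sqCoef hg 0), ev_sqCoef hf, ev_sqCoef hg]

theorem sqCoef_exp (hf : SP f) : sqCoef (fun x => exp (f x)) = expC (sqCoef f) :=
  sqCoef_eq (expC_bound (mem_sqCoef hf 0)).1 fun x => by
    rw [ev_expC (mem_sqCoef hf 0), ev_sqCoef hf]

theorem sqCoef_const (a : ℂ) : sqCoef (fun _ : Pl => a) = a • unit :=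
  sqCoef_eq ((mem_unit 0).smul a) fun x => by rw [ev_smul, ev_unit, mul_one]

theorem sqCoef_smul (a : ℂ) (hf : SP f) : sqCoef (fun x => a * f x) = a • sqCoef f :=
  sqCoef_eq ((mem_sqCoef hf 0).smul a) fun x => by rw [ev_smul, ev_sqCoef hf]

theorem sqCoef_der (η : Pl) (hf : SP f) : sqCoef (der η f) = dC η (sqCoef f) := by
  refine sqCoef_eq ((mem_sqCoef hf 1).dC η) fun x => ?_
  rw [← hasFDerivAt_ev (mem_sqCoef hf 1) x η, funext (ev_sqCoef hf)]
  rfl

theorem sqCoef_ofReal_sym {r : Pl → ℝ} (hr : SP (fun x => (r x : ℂ))) :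
    Sym (sqCoef fun x => (r x : ℂ)) := by
  have hm := mem_sqCoef hr 0
  have hs : Mem 0 (fun k => (starRingEnd ℂ) (sqCoef (fun x => (r x : ℂ)) (-k))) := by
    have h := ((Equiv.neg Z2).summable_iff (f := fun k : Z2 =>
      wt k ^ 0 * ‖sqCoef (fun x => (r x : ℂ)) k‖)).2 hm
    refine h.congr fun k => ?_
    simp
  have key := sqCoef_eq (g := fun x => (r x : ℂ)) hs fun x => by
    have h1 := congrArg (starRingEnd ℂ) (ev_sqCoef hr x)
    rw [Complex.conj_ofReal] at h1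
    rw [← h1, ev, ev, Complex.conj_tsum]
    rw [← (Equiv.neg Z2).tsum_eq]
    refine tsum_congr fun k => ?_
    simp only [Equiv.neg_apply, neg_neg, map_mul]
    congr 1
    rw [ch, ch, ← Complex.exp_conj]
    congr 1
    simp [map_ofNat]
    ring
  intro k
  conv_lhs => rw [key]
  simp

theorem norm_le_nrm0 (hf : SP f) (x : Pl) : ‖f x‖ ≤ nrm 0 (sqCoef f) := by
  rw [← ev_sqCoef hf x]
  exact norm_ev_le (mem_sqCoef hf 0) x

theorem norm_sub_le_nrm0 (hf : SP f) (hg : SP g) (x : Pl) :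
    ‖f x - g x‖ ≤ nrm 0 (sqCoef f - sqCoef g) := by
  rw [← ev_sqCoef hf x, ← ev_sqCoef hg x, ← ev_sub (mem_sqCoef hf 0) (mem_sqCoef hg 0)]
  exact norm_ev_le ((mem_sqCoef hf 0).sub (mem_sqCoef hg 0)) x

end Vale.Agent.P205.Full.Klein
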