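import Vale.Agent.P205.Full.Isothermal

/-!
Isothermal coordinates on the torus which respect a glide reflection.
-/

open scoped ContDiff
open Complex

namespace Vale.Agent.P205.Full.Klein.Sym

open Develop

/-- The glide reflection whose quotient is the Klein bottle. -/
noncomputable def glide (x : Pl) : Pl := (x.1 + 1 / 2, -x.2)

theorem glide_add1 (x : Pl) : glide (x + e1) = glide x + e1 := by
  apply Prod.ext <;> simp [glide, e1]; ring

theorem glide_add2 (x : Pl) : glide (x + e2) + e2 = glide x := by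
  apply Prod.ext <;> simp [glide, e2]

theorem glide_glide (x : Pl) : glide (glide x) = x + e1 := by
  apply Prod.ext <;> simp [glide, e1]; ring

theorem contDiff_glide : ContDiff ℝ ∞ glide :=
  (contDiff_fst.add contDiff_const).prodMk contDiff_snd.neg

/-- The derivative of the glide reflection. -/
noncomputable def flip : Pl →L[ℝ] Pl :=
  (ContinuousLinearMap.fst ℝ ℝ ℝ).prod (-ContinuousLinearMap.snd ℝ ℝ ℝ)

theorem hasFDerivAt_glide (x : Pl) : HasFDerivAt glide flip x :=
  (hasFDerivAt_fst.add_const _).prodMk hasFDerivAt_snd.neg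

theorem der_glide {α : Type*} [NormedAddCommGroup α] [NormedSpace ℝ α] {f : Pl → α} {x : Pl}
    (hf : DifferentiableAt ℝ f (glide x)) :
    der e1 (fun y => f (glide y)) x = der e1 f (glide x) ∧
      der e2 (fun y => f (glide y)) x = -der e2 f (glide x) := by
  have h := (hf.hasFDerivAt.comp x (hasFDerivAt_glide x)).fderiv
  simp only [Function.comp_def] at h
  constructor
  · simp [der, h, flip, e1]
  · simp only [der, h, ContinuousLinearMap.comp_apply, ← map_neg]
    congr 1
    simp [flip, e2]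

theorem SP.glide {α : Type*} [NormedAddCommGroup α] [NormedSpace ℝ α] {f : Pl → α} (hf : SP f) :
    SP fun x => f (glide x) :=
  ⟨hf.smooth.comp contDiff_glide, ⟨fun x => by rw [glide_add1, hf.per.add1],
    fun x => by rw [← glide_add2 x, hf.per.add2]⟩⟩

/-- A flat coframe conformal to a glide invariant metric, transforming into its conjugate. -/
theorem exists_glide_coframe {E F H : Pl → ℝ} (hE : SP E) (hF : SP F) (hH : SP H)
    (hpos : ∀ x, 0 < E x) (hdet : ∀ x, F x ^ 2 < E x * H x) (gE : ∀ x, E (glide x) = E x)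
    (gF : ∀ x, F (glide x) = -F x) (gH : ∀ x, H (glide x) = H x) :
    ∃ (v : Pl → ℝ) (p q : Pl → ℂ) (a b : Pl → ℝ), SP v ∧ FlatCoframe p q a b ∧
      (∀ x, v (glide x) = v x) ∧
      (∀ x, p (glide x) = p x ∧ (starRingEnd ℂ) (p x) = p x) ∧
      (∀ x, q (glide x) = -(starRingEnd ℂ) (q x)) ∧
      (∀ x, a (glide x) = -a x) ∧ (∀ x, b (glide x) = b x) ∧
      ∀ x (v' w' : Pl), Real.exp (-v x) ^ 2 *
          inner ℝ (v'.1 • p x + v'.2 • q x) (w'.1 • p x + w'.2 • q x) =
        E x * (v'.1 * w'.1) + F x * (v'.1 * w'.2 + v'.2 * w'.1) + H x * (v'.2 * w'.2) := by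
  set D : Pl → ℝ := fun x => Real.sqrt (E x * H x - F x ^ 2) with hD
  set r : Pl → ℝ := fun x => Real.sqrt (E x) with hr
  have Dp : ∀ x, 0 < D x := fun x => Real.sqrt_pos.2 (by linarith [hdet x])
  have rp : ∀ x, 0 < r x := fun x => Real.sqrt_pos.2 (hpos x)
  have Dsq : ∀ x, D x ^ 2 = E x * H x - F x ^ 2 := fun x => Real.sq_sqrt (by linarith [hdet x])
  have rsq : ∀ x, r x ^ 2 = E x := fun x => Real.sq_sqrt (hpos x).le
  have hDs : SP D := ⟨((hE.smooth.mul hH.smooth).sub (hF.smooth.pow 2)).sqrt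
      (fun x => by linarith [hdet x]),
    ⟨fun x => by simp [hD, hE.per.add1, hF.per.add1, hH.per.add1],
      fun x => by simp [hD, hE.per.add2, hF.per.add2, hH.per.add2]⟩⟩
  have hrs : SP r := ⟨hE.smooth.sqrt fun x => (hpos x).ne',
    ⟨fun x => by simp [hr, hE.per.add1], fun x => by simp [hr, hE.per.add2]⟩⟩
  set p : Pl → ℂ := fun x => (r x : ℂ) with hp
  set q : Pl → ℂ := fun x => ((F x / r x : ℝ) : ℂ) + ((D x / r x : ℝ) : ℂ) * I with hq
  have hps : SP p := ⟨Complex.ofRealCLM.contDiff.comp hrs.smooth,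
    ⟨fun x => by simp [hp, hrs.per.add1], fun x => by simp [hp, hrs.per.add2]⟩⟩
  have hqs : SP q := ⟨(Complex.ofRealCLM.contDiff.comp
      (hF.smooth.div hrs.smooth fun x => (rp x).ne')).add
      ((Complex.ofRealCLM.contDiff.comp (hDs.smooth.div hrs.smooth fun x => (rp x).ne')).mul
        contDiff_const),
    ⟨fun x => by simp [hq, hrs.per.add1, hF.per.add1, hDs.per.add1],
      fun x => by simp [hq, hrs.per.add2, hF.per.add2, hDs.per.add2]⟩⟩
  have hqim : ∀ x, 0 < (q x).im := fun x => by
    simp [hq]; exact div_pos (Dp x) (rp x)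
  set W : Pl → ℂ := fun x => der e1 q x - der e2 p x with hW
  have hWs : SP W := ⟨(hqs.derR e1).smooth.sub (hps.derR e2).smooth,
    ⟨fun x => by simp [hW, (hqs.derR e1).per.add1, (hps.derR e2).per.add1],
      fun x => by simp [hW, (hqs.derR e1).per.add2, (hps.derR e2).per.add2]⟩⟩
  set a : Pl → ℝ := fun x => -(W x).re / (q x).im with ha
  set b : Pl → ℝ := fun x => (a x * (q x).re - (W x).im) / r x with hb
  have has : SP a := ⟨((Complex.reCLM.contDiff.comp hWs.smooth).neg).div
      (Complex.imCLM.contDiff.comp hqs.smooth) fun x => (hqim x).ne',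
    ⟨fun x => by simp [ha, hWs.per.add1, hqs.per.add1],
      fun x => by simp [ha, hWs.per.add2, hqs.per.add2]⟩⟩
  have hbs : SP b := ⟨((has.smooth.mul (Complex.reCLM.contDiff.comp hqs.smooth)).sub
      (Complex.imCLM.contDiff.comp hWs.smooth)).div hrs.smooth fun x => (rp x).ne',
    ⟨fun x => by simp [hb, hWs.per.add1, hqs.per.add1, has.per.add1, hrs.per.add1],
      fun x => by simp [hb, hWs.per.add2, hqs.per.add2, has.per.add2, hrs.per.add2]⟩⟩
  have hWab : ∀ x, W x = I * ((a x : ℂ) * q x - (b x : ℂ) * p x) := fun x => by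
    have h1 := (hqim x).ne'
    have h2 := (rp x).ne'
    apply Complex.ext <;> simp [hp, ha, hb] <;> field_simp <;> ring
  have h11 : SP fun x => H x / D x := ⟨hH.smooth.div hDs.smooth fun x => (Dp x).ne',
    ⟨fun x => by simp [hH.per.add1, hDs.per.add1], fun x => by simp [hH.per.add2, hDs.per.add2]⟩⟩
  have h12 : SP fun x => -F x / D x := ⟨hF.smooth.neg.div hDs.smooth fun x => (Dp x).ne',
    ⟨fun x => by simp [hF.per.add1, hDs.per.add1], fun x => by simp [hF.per.add2, hDs.per.add2]⟩⟩
  have h22 : SP fun x => E x / D x := ⟨hE.smooth.div hDs.smooth fun x => (Dp x).ne',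
    ⟨fun x => by simp [hE.per.add1, hDs.per.add1], fun x => by simp [hE.per.add2, hDs.per.add2]⟩⟩
  have gD : ∀ x, D (glide x) = D x := fun x => by simp [hD, gE, gF, gH]
  have gr : ∀ x, r (glide x) = r x := fun x => by simp [hr, gE]
  have gp : ∀ x, p (glide x) = p x := fun x => by simp [hp, gr]
  have gq : ∀ x, q (glide x) = -(starRingEnd ℂ) (q x) := fun x => by
    simp [hq, gr, gD, gF, neg_div, Complex.conj_ofReal]
    ring
  have gW : ∀ x, W (glide x) = -(starRingEnd ℂ) (W x) := by
    intro x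
    have h1 := (der_glide (x := x) ((hqs.smooth.differentiable (by simp)) (glide x))).1
    have h2 := (der_glide (x := x) ((hps.smooth.differentiable (by simp)) (glide x))).2
    have hc : HasFDerivAt (fun y => (starRingEnd ℂ) (q y))
        ((Complex.conjCLE : ℂ →L[ℝ] ℂ).comp (fderiv ℝ q x)) x :=
      Complex.conjCLE.hasFDerivAt.comp x (hqs.smooth.differentiable (by simp) x).hasFDerivAt
    rw [show (fun y => q (glide y)) = fun y => -(starRingEnd ℂ) (q y) from funext gq] at h1
    rw [show (fun y => p (glide y)) = p from funext gp] at h2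
    have h3 : der e1 (fun y => -(starRingEnd ℂ) (q y)) x = -(starRingEnd ℂ) (der e1 q x) := by
      simp only [der]
      rw [show fderiv ℝ (fun y => -(starRingEnd ℂ) (q y)) x = _ from hc.neg.fderiv]
      simp
    have h4 : der e2 (fun y => p y) x = (((der e2 r x : ℝ)) : ℂ) := by
      have := (Complex.ofRealCLM.hasFDerivAt.comp x
        (hrs.smooth.differentiable (by simp) x).hasFDerivAt).fderiv
      simp only [Function.comp_def, Complex.ofRealCLM_apply] at this
      simp [der, hp, this]
    simp only [hW]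
    rw [← h1, h3, map_sub, show der e2 p (glide x) = -der e2 p x by rw [h2, neg_neg],
      show der e2 p x = ((der e2 r x : ℝ) : ℂ) from h4, Complex.conj_ofReal]
    ring
  have ga : ∀ x, a (glide x) = -a x := fun x => by
    simp [ha, gW, gq, neg_div]
  have gb : ∀ x, b (glide x) = b x := fun x => by
    simp only [hb, ga, gW, gq, gr]
    simp
  obtain ⟨v0, hv0, hdiv0⟩ := exists_div_eq h11 h12 h22 has hbs
    (fun x => div_pos (by nlinarith [hpos x, hdet x, sq_nonneg (F x)]) (Dp x))
    (fun x => by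
      rw [div_mul_div_comm, div_pow, neg_sq, ← sq]
      gcongr
      · exact pow_pos (Dp x) 2
      · linarith [hdet x])
  set w := fun x => v0 (glide x) with hw_def
  set v : Pl → ℝ := fun x => (v0 x + w x) / 2 with hvdef
  have hws : SP w := SP.glide hv0
  have hv : SP v := ⟨(hv0.smooth.add hws.smooth).div_const 2,
    ⟨fun x => by simp [hvdef, hv0.per.add1, hws.per.add1],
      fun x => by simp [hvdef, hv0.per.add2, hws.per.add2]⟩⟩
  have gv : ∀ x, v (glide x) = v x := fun x => by
    simp [hvdef, hw_def, glide_glide, hv0.per.add1, add_comm]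
  have hdiv : ∀ x,
      der e1 (fun y => H y / D y * der e1 v y + -F y / D y * der e2 v y) x +
        der e2 (fun y => -F y / D y * der e1 v y + E y / D y * der e2 v y) x =
      der e1 b x - der e2 a x := by
    intro x
    set S1 : (Pl → ℝ) → Pl → ℝ := fun f y => H y / D y * der e1 f y + -F y / D y * der e2 f y
    set S2 : (Pl → ℝ) → Pl → ℝ := fun f y => -F y / D y * der e1 f y + E y / D y * der e2 f y
    have sS1 : ∀ f, SP f → ContDiff ℝ ∞ (S1 f) := fun f hf =>
      (h11.smooth.mul (hf.derR e1).smooth).add (h12.smooth.mul (hf.derR e2).smooth)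
    have sS2 : ∀ f, SP f → ContDiff ℝ ∞ (S2 f) := fun f hf =>
      (h12.smooth.mul (hf.derR e1).smooth).add (h22.smooth.mul (hf.derR e2).smooth)
    have hdw : ∀ y, der e1 w y = der e1 v0 (glide y) ∧ der e2 w y = -der e2 v0 (glide y) :=
      fun y => der_glide ((hv0.smooth.differentiable (by simp)) (glide y))
    have hS1 : S1 w = fun y => S1 v0 (glide y) := funext fun y => by
      simp only [S1, hdw, gD, gH, gF]; ring
    have hS2 : S2 w = fun y => -S2 v0 (glide y) := funext fun y => by
      simp only [S2, hdw, gD, gE, gF]; ring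
    have hlin : ∀ η y, der η v y = (der η v0 y + der η w y) / 2 := fun η y => by
      rw [hvdef, show (fun x => (v0 x + w x) / 2) = fun x => (1 / 2 : ℝ) * (v0 x + w x) from
          funext fun x => by ring,
        der_const_mul' η _ ((hv0.smooth.differentiable (by simp) y).fun_add
          (hws.smooth.differentiable (by simp) y)),
        der_add' η (hv0.smooth.differentiable (by simp) y)
          (hws.smooth.differentiable (by simp) y)]
      ring
    have hv1 : S1 v = fun y => 1 / 2 * (S1 v0 y + S1 w y) := funext fun y => by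
      simp only [S1, hlin]; ring
    have hv2 : S2 v = fun y => 1 / 2 * (S2 v0 y + S2 w y) := funext fun y => by
      simp only [S2, hlin]; ring
    have d0 : ∀ {f : Pl → ℝ}, ContDiff ℝ ∞ f → ∀ y, DifferentiableAt ℝ f y := fun hf y =>
      hf.differentiable (by simp) y
    show der e1 (S1 v) x + der e2 (S2 v) x = _
    rw [hv1, hv2, der_const_mul' e1 _ ((d0 (sS1 _ hv0) x).fun_add (d0 (sS1 _ hws) x)),
      der_const_mul' e2 _ ((d0 (sS2 _ hv0) x).fun_add (d0 (sS2 _ hws) x)),
      der_add' e1 (d0 (sS1 _ hv0) x) (d0 (sS1 _ hws) x),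
      der_add' e2 (d0 (sS2 _ hv0) x) (d0 (sS2 _ hws) x), hS1, hS2]
    have k1 := (der_glide (x := x) (d0 (sS1 _ hv0) (glide x))).1
    have k2 := (der_glide (x := x) (d0 (sS2 _ hv0) (glide x))).2
    have k2' : der e2 (fun y => -S2 v0 (glide y)) x = der e2 (S2 v0) (glide x) := by
      have := k2
      simp only [der] at this ⊢
      rw [fderiv_fun_neg, neg_apply, this, neg_neg]
    rw [k1, k2']
    have hx : der e1 (S1 v0) x + der e2 (S2 v0) x = der e1 b x - der e2 a x := hdiv0 x
    have hgx : der e1 (S1 v0) (glide x) + der e2 (S2 v0) (glide x) =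
        der e1 b (glide x) - der e2 a (glide x) := hdiv0 (glide x)
    have kb := (der_glide (x := x) (d0 hbs.smooth (glide x))).1
    have ka := (der_glide (x := x) (d0 has.smooth (glide x))).2
    rw [show (fun y => b (glide y)) = b from funext gb] at kb
    rw [show (fun y => a (glide y)) = fun y => -a y from funext ga] at ka
    simp only [der, fderiv_fun_neg, neg_apply, neg_inj] at ka
    simp only [der] at hx hgx kb ⊢
    linarith
  set v1 := der e1 v with hv1
  set v2 := der e2 v with hv2
  set σ1 : Pl → ℝ := fun x => (-F x * v1 x + E x * v2 x) / D x with hσ1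
  set σ2 : Pl → ℝ := fun x => (-H x * v1 x + F x * v2 x) / D x with hσ2
  have hv1s : SP v1 := hv.derR e1
  have hv2s : SP v2 := hv.derR e2
  have hσ1s : SP σ1 := ⟨((hF.smooth.neg.mul hv1s.smooth).add (hE.smooth.mul hv2s.smooth)).div
      hDs.smooth fun x => (Dp x).ne',
    ⟨fun x => by simp [hσ1, hF.per.add1, hE.per.add1, hDs.per.add1, hv1s.per.add1, hv2s.per.add1],
      fun x => by simp [hσ1, hF.per.add2, hE.per.add2, hDs.per.add2, hv1s.per.add2, hv2s.per.add2]⟩⟩
  have hσ2s : SP σ2 := ⟨((hH.smooth.neg.mul hv1s.smooth).add (hF.smooth.mul hv2s.smooth)).div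
      hDs.smooth fun x => (Dp x).ne',
    ⟨fun x => by simp [hσ2, hF.per.add1, hH.per.add1, hDs.per.add1, hv1s.per.add1, hv2s.per.add1],
      fun x => by simp [hσ2, hF.per.add2, hH.per.add2, hDs.per.add2, hv1s.per.add2, hv2s.per.add2]⟩⟩
  set ev' : Pl → ℝ := fun x => Real.exp (v x) with hev
  set p' : Pl → ℂ := fun x => (ev' x : ℂ) * p x with hp'
  set q' : Pl → ℂ := fun x => (ev' x : ℂ) * q x with hq'
  set a' : Pl → ℝ := fun x => a x + σ1 x with ha'
  set b' : Pl → ℝ := fun x => b x + σ2 x with hb'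
  have dE : ∀ (η : Pl) (g : Pl → ℂ), SP g → ∀ x,
      der η (fun y => (ev' y : ℂ) * g y) x =
        ((ev' x * der η v x : ℝ) : ℂ) * g x + (ev' x : ℂ) * der η g x := by
    intro η g hg x
    have h1 : HasFDerivAt v (fderiv ℝ v x) x :=
      (hv.smooth.differentiable (by simp) x).hasFDerivAt
    have h2 : HasFDerivAt g (fderiv ℝ g x) x :=
      (hg.smooth.differentiable (by simp) x).hasFDerivAt
    have h3 := (h1.exp.fun_smul h2).fderiv
    simp only [der, hev]
    rw [show (fun y => ((Real.exp (v y) : ℝ) : ℂ) * g y) = fun y => Real.exp (v y) • g y from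
      funext fun y => (Complex.real_smul).symm, h3]
    simp [Complex.real_smul]
    ring
  have hfc : FlatCoframe p' q' a' b' := by
    refine ⟨⟨(Complex.ofRealCLM.contDiff.comp hv.smooth.exp).mul hps.smooth,
        ⟨fun x => by simp [hp', hev, hv.per.add1, hps.per.add1],
          fun x => by simp [hp', hev, hv.per.add2, hps.per.add2]⟩⟩,
      ⟨(Complex.ofRealCLM.contDiff.comp hv.smooth.exp).mul hqs.smooth,
        ⟨fun x => by simp [hq', hev, hv.per.add1, hqs.per.add1],
          fun x => by simp [hq', hev, hv.per.add2, hqs.per.add2]⟩⟩,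
      ⟨has.smooth.add hσ1s.smooth, ⟨fun x => by simp [ha', has.per.add1, hσ1s.per.add1],
        fun x => by simp [ha', has.per.add2, hσ1s.per.add2]⟩⟩,
      ⟨hbs.smooth.add hσ2s.smooth, ⟨fun x => by simp [hb', hbs.per.add1, hσ2s.per.add1],
        fun x => by simp [hb', hbs.per.add2, hσ2s.per.add2]⟩⟩, ?_, ?_, ?_⟩
    · intro x
      have h0 : 0 < ev' x := Real.exp_pos _
      have h := mul_pos (mul_pos h0 h0) (mul_pos (rp x) (hqim x))
      have : ((starRingEnd ℂ) (p' x) * q' x).im = ev' x * ev' x * (r x * (q x).im) := by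
        simp [hp', hq', hp]; ring
      linarith
    · intro x
      rw [hp', hq', dE e1 q hqs, dE e2 p hps, ← hv1, ← hv2]
      have hw := hWab x
      simp only [hW] at hw
      have h2 := (rp x).ne'
      have h3 := (Dp x).ne'
      have hD2 := Dsq x
      have hr2 := rsq x
      have key : (v1 x : ℂ) * q x - (v2 x : ℂ) * p x =
          I * ((σ1 x : ℂ) * q x - (σ2 x : ℂ) * p x) := by
        clear hw
        apply Complex.ext <;> simp [hp, hq, hσ1, hσ2] <;> field_simp <;> grind
      simp only [ha', hb']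
      push_cast
      linear_combination (ev' x : ℂ) * hw + (ev' x : ℂ) * key
    · intro x
      have hd := hdiv x
      have e1' : (fun y => H y / D y * der e1 v y + -F y / D y * der e2 v y) = fun y => -σ2 y := by
        funext y; simp only [hσ2, hv1, hv2]; ring
      have e2' : (fun y => -F y / D y * der e1 v y + E y / D y * der e2 v y) = σ1 := by
        funext y; simp only [hσ1, hv1, hv2]; ring
      rw [e1', e2'] at hd
      have n1 : der e1 (fun y => -σ2 y) x = -der e1 σ2 x := by simp [der]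
      rw [n1] at hd
      rw [hb', ha', der_add' e1 (hbs.smooth.differentiable (by simp) x)
          (hσ2s.smooth.differentiable (by simp) x),
        der_add' e2 (has.smooth.differentiable (by simp) x)
          (hσ1s.smooth.differentiable (by simp) x)]
      linarith
  have g1 : ∀ x, v1 (glide x) = v1 x := fun x => by
    have h := (der_glide (x := x) ((hv.smooth.differentiable (by simp)) (glide x))).1
    rw [show (fun y => v (glide y)) = v from funext gv] at h
    exact h.symm
  have g2 : ∀ x, v2 (glide x) = -v2 x := fun x => by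
    have h := (der_glide (x := x) ((hv.smooth.differentiable (by simp)) (glide x))).2
    rw [show (fun y => v (glide y)) = v from funext gv] at h
    simp only [hv2, h, neg_neg]
  refine ⟨v, p', q', a', b', hv, hfc, gv, fun x => ⟨?_, ?_⟩, fun x => ?_, fun x => ?_, fun x => ?_,
    fun x z w => ?_⟩
  · simp [hp', hev, gv, gp]
  · simp [hp', hp, Complex.conj_ofReal]
  · simp only [hq', hev, gv, gq, map_mul, Complex.conj_ofReal, mul_neg]
  · simp only [ha', hσ1, ga, gF, gE, gD, g1, g2]; ring
  · simp only [hb', hσ2, gb, gF, gH, gD, g1, g2]; ring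
  · have he : Real.exp (-v x) * ev' x = 1 := by rw [hev, ← Real.exp_add]; simp
    have h2 := (rp x).ne'
    have hD2 := Dsq x
    have hr2 := rsq x
    simp [Complex.inner, hp', hq', hp, hq]
    field_simp
    grind

/-- Isothermal coordinates which commute with the glide reflection. -/
theorem exists_isothermal_glide {E F H : Pl → ℝ} (hE : SP E) (hF : SP F) (hH : SP H)
    (hpos : ∀ x, 0 < E x) (hdet : ∀ x, F x ^ 2 < E x * H x) (gE : ∀ x, E (glide x) = E x)
    (gF : ∀ x, F (glide x) = -F x) (gH : ∀ x, H (glide x) = H x) :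
    ∃ (a b : ℝ) (ψ : Pl → Pl) (u : Pl → ℝ), 0 < a ∧ 0 < b ∧ SP u ∧
      (∀ x, u (glide x) = u x) ∧ ContDiff ℝ ∞ ψ ∧
      (∀ x, ψ (x + e1) = ψ x + e1) ∧ (∀ x, ψ (x + e2) = ψ x + e2) ∧
      (∀ x, ψ (glide x) = glide (ψ x)) ∧
      ∀ x v w, Real.exp (u (ψ x)) ^ 2 *
          (a ^ 2 * ((fderiv ℝ ψ x v).1 * (fderiv ℝ ψ x w).1) +
            b ^ 2 * ((fderiv ℝ ψ x v).2 * (fderiv ℝ ψ x w).2)) =
        E x * (v.1 * w.1) + F x * (v.1 * w.2 + v.2 * w.1) + H x * (v.2 * w.2) := by
  obtain ⟨v, p, q, a, b, hv, hfc, gv, gp, gq, ga, gb, hg⟩ :=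
    exists_glide_coframe hE hF hH hpos hdet gE gF gH
  obtain ⟨hds, hd1, hd2, hne, hmet⟩ := dev_spec hfc
  obtain ⟨G, hG, hGl, hGr⟩ := dev_inverse hfc
  have hphase : ∀ x, phase a b (glide x) + phase a b x = phase a b (glide 0) := by
    intro x
    have hd : ∀ y, HasFDerivAt (fun z => phase a b (glide z) + phase a b z) (0 : Pl →L[ℝ] ℝ) y := by
      intro y
      refine ((((hasFDerivAt_phase hfc (glide y)).comp y (hasFDerivAt_glide y))).add
        (hasFDerivAt_phase hfc y)).congr_fderiv ?_
      ext <;> simp [cof, flip, ga y, gb y]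
    have := is_const_of_fderiv_eq_zero (fun y => (hd y).differentiableAt)
      (fun y => (hd y).fderiv) x 0
    rw [phase_eq, line_zero] at this
    rw [phase_eq]
    simpa using this
  set K := rot a b (glide 0) with hK
  have hrot : ∀ x, rot a b (glide x) = K * (starRingEnd ℂ) (rot a b x) := fun x => by
    simp only [hK, rot, ← Complex.exp_conj, ← Complex.exp_add]
    congr 1
    rw [show phase a b (glide x) = phase a b (glide 0) - phase a b x by linarith [hphase x]]
    simp [Complex.conj_ofReal]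
    ring
  set c := dev p q a b (glide 0) with hc
  have hdev : ∀ x, dev p q a b (glide x) = K * (starRingEnd ℂ) (dev p q a b x) + c := by
    intro x
    have hd : ∀ y, HasFDerivAt
        (fun z => dev p q a b (glide z) - K * (starRingEnd ℂ) (dev p q a b z))
        (0 : Pl →L[ℝ] ℂ) y := by
      intro y
      refine (((hasFDerivAt_dev hfc (glide y)).comp y (hasFDerivAt_glide y)).sub
        ((Complex.conjCLE.hasFDerivAt.comp y (hasFDerivAt_dev hfc y)).const_mul K)).congr_fderiv ?_
      ext <;> simp [ddev_apply, flip, hrot, (gp y).1, (gp y).2, gq y] <;> ring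
    have := is_const_of_fderiv_eq_zero (fun y => (hd y).differentiableAt)
      (fun y => (hd y).fderiv) x 0
    simp only [dev_zero, map_zero, mul_zero, sub_zero] at this
    linear_combination this
  set t1 := dev p q a b e1 with ht1
  set t2 := dev p q a b e2 with ht2
  have e_t1 : t1 = K * (starRingEnd ℂ) c + c := by
    rw [ht1, ← show glide (glide 0) = e1 by rw [glide_glide, zero_add], hdev, ← hc]
  have e_t2 : -t2 = K * (starRingEnd ℂ) t2 := by
    have h1 := hd2 (glide e2)
    rw [show glide e2 + e2 = glide 0 by rw [← glide_add2 0, zero_add], hdev e2, ← hc] at h1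
    linear_combination h1
  obtain ⟨k, hk, hkK⟩ : ∃ k : ℂ, (starRingEnd ℂ) k * k = 1 ∧ k * k = K := by
    refine ⟨Complex.exp (-((phase a b (glide 0) / 2 : ℝ) : ℂ) * I), ?_, ?_⟩
    · rw [← Complex.exp_conj, ← Complex.exp_add, ← Complex.exp_zero]
      congr 1
      simp [Complex.conj_ofReal, neg_mul, map_div₀, Complex.conj_ofNat]
    · rw [← Complex.exp_add, hK, rot]
      congr 1
      push_cast
      ring
  have hk' : k * (starRingEnd ℂ) k = 1 := by rw [mul_comm]; exact hk
  set c' := (starRingEnd ℂ) k * c with hc'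
  set f : Pl → ℂ := fun x => (starRingEnd ℂ) k * dev p q a b x - ((c'.im / 2 : ℝ) : ℂ) * I with hf
  have hfg : ∀ x, f (glide x) = (starRingEnd ℂ) (f x) + (c'.re : ℂ) := by
    intro x
    have e : (starRingEnd ℂ) k * (k * k * (starRingEnd ℂ) (dev p q a b x) + c) =
        k * (starRingEnd ℂ) (dev p q a b x) + c' := by
      rw [hc']
      linear_combination (k * (starRingEnd ℂ) (dev p q a b x)) * hk
    simp only [hf, hdev, ← hkK]
    rw [e]
    apply Complex.ext <;> simp [map_ofNat] <;> ring
  set A := 2 * c'.re with hA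
  set B := ((starRingEnd ℂ) k * t2).im with hB
  have h1' : (starRingEnd ℂ) k * t1 = (A : ℂ) := by
    rw [e_t1, ← hkK, show (starRingEnd ℂ) k * (k * k * (starRingEnd ℂ) c + c) =
      (starRingEnd ℂ) c' + c' by
        simp only [hc', map_mul, Complex.conj_conj]
        linear_combination k * (starRingEnd ℂ) c * hk]
    apply Complex.ext <;> simp [hA]; ring
  have h2' : (starRingEnd ℂ) k * t2 = (B : ℂ) * I := by
    have h : (starRingEnd ℂ) k * t2 + (starRingEnd ℂ) ((starRingEnd ℂ) k * t2) = 0 := by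
      rw [map_mul, Complex.conj_conj]
      linear_combination -((starRingEnd ℂ) k) * e_t2 +
        ((starRingEnd ℂ) k * (starRingEnd ℂ) t2) * hkK - (k * (starRingEnd ℂ) t2) * hk
    have hre := congrArg Complex.re h
    simp only [Complex.add_re, Complex.conj_re, Complex.zero_re] at hre
    apply Complex.ext
    · simp only [Complex.re_ofReal_mul, Complex.I_re, mul_zero]
      linarith
    · simp [hB]
  have hAB : A * B ≠ 0 := by
    have e : (starRingEnd ℂ) t1 * t2 =
        (starRingEnd ℂ) ((starRingEnd ℂ) k * t1) * ((starRingEnd ℂ) k * t2) := by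
      rw [map_mul, Complex.conj_conj]
      linear_combination -((starRingEnd ℂ) t1 * t2) * hk'
    rw [e, h1', h2'] at hne
    simpa [Complex.conj_ofReal] using hne
  have hA0 : A ≠ 0 := left_ne_zero_of_mul hAB
  have hB0 : B ≠ 0 := right_ne_zero_of_mul hAB
  set ψ : Pl → Pl := fun x => ((f x).re / A, (f x).im / B) with hψ
  set back : Pl → Pl := fun y =>
    G (k * (((A * y.1 : ℝ) : ℂ) + ((B * y.2 + c'.im / 2 : ℝ) : ℂ) * I)) with hback
  have hbl : ∀ x, back (ψ x) = x := by
    intro x
    simp only [hback, hψ]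
    rw [mul_div_cancel₀ _ hA0, mul_div_cancel₀ _ hB0]
    refine (congrArg G ?_).trans (hGl x)
    have : ((f x).re : ℂ) + (((f x).im + c'.im / 2 : ℝ) : ℂ) * I =
        (starRingEnd ℂ) k * dev p q a b x := by
      apply Complex.ext <;> simp [hf]
    rw [this, ← mul_assoc, hk', one_mul]
  have hbr : ∀ y, ψ (back y) = y := by
    intro y
    simp only [hψ, hf, hback, hGr, ← mul_assoc, hk, one_mul]
    apply Prod.ext <;> simp [hA0, hB0]
  have hp1 : ∀ x, ψ (x + e1) = ψ x + e1 := fun x => by
    have e : f (x + e1) = f x + (A : ℂ) := by simp only [hf, hd1, mul_add, h1']; ring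
    simp only [hψ, e]; apply Prod.ext <;> simp [e1, add_div, hA0]
  have hp2 : ∀ x, ψ (x + e2) = ψ x + e2 := fun x => by
    have e : f (x + e2) = f x + (B : ℂ) * I := by simp only [hf, hd2, mul_add, h2']; ring
    simp only [hψ, e]; apply Prod.ext <;> simp [e2, add_div, hB0]
  have hpg : ∀ x, ψ (glide x) = glide (ψ x) := fun x => by
    have hc : c'.re = A * (1 / 2) := by rw [hA]; ring
    show ((f (glide x)).re / A, (f (glide x)).im / B) =
      ((f x).re / A + 1 / 2, -((f x).im / B))
    rw [hfg]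
    simp only [Complex.add_re, Complex.add_im, Complex.conj_re, Complex.conj_im, Complex.ofReal_re,
      Complex.ofReal_im, add_zero, neg_div]
    rw [hc, add_div, mul_div_cancel_left₀ _ hA0]
  have hequiv : ∀ {T S : Pl → Pl}, (∀ x, ψ (T x) = S (ψ x)) → ∀ y, back (S y) = T (back y) :=
    fun hT y => by
      conv_lhs => rw [← hbr y, ← hT, hbl]
  have hfs : ContDiff ℝ ∞ f := (contDiff_const.mul hds).sub contDiff_const
  have hre : ContDiff ℝ ∞ fun x => (f x).re := Complex.reCLM.contDiff.comp hfs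
  have him : ContDiff ℝ ∞ fun x => (f x).im := Complex.imCLM.contDiff.comp hfs
  have hψs : ContDiff ℝ ∞ ψ := (hre.div_const A).prodMk (him.div_const B)
  have hin : ContDiff ℝ ∞ fun y : Pl =>
      k * (((A * y.1 : ℝ) : ℂ) + ((B * y.2 + c'.im / 2 : ℝ) : ℂ) * I) := by
    have h1 : ContDiff ℝ ∞ fun y : Pl => A * y.1 := contDiff_const.mul contDiff_fst
    have h2 : ContDiff ℝ ∞ fun y : Pl => B * y.2 + c'.im / 2 :=
      (contDiff_const.mul contDiff_snd).add contDiff_const
    have h1' : ContDiff ℝ ∞ fun y : Pl => ((A * y.1 : ℝ) : ℂ) :=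
      Complex.ofRealCLM.contDiff.comp h1
    have h2' : ContDiff ℝ ∞ fun y : Pl => ((B * y.2 + c'.im / 2 : ℝ) : ℂ) :=
      Complex.ofRealCLM.contDiff.comp h2
    exact contDiff_const.mul (h1'.add (h2'.mul contDiff_const))
  have hbs : ContDiff ℝ ∞ back := hG.comp hin
  refine ⟨|A|, |B|, ψ, fun y => -v (back y), abs_pos.2 hA0, abs_pos.2 hB0,
    ⟨(hv.smooth.comp hbs).neg,
      ⟨fun y => by rw [hequiv (T := fun x => x + e1) (S := fun x => x + e1) hp1, hv.per.add1],
        fun y => by rw [hequiv (T := fun x => x + e2) (S := fun x => x + e2) hp2, hv.per.add2]⟩⟩,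
    fun y => by simp only [hequiv (T := glide) (S := glide) hpg, gv], hψs, hp1, hp2, hpg,
    fun x z w => ?_⟩
  have hdf : HasFDerivAt f
      ((starRingEnd ℂ) k • fderiv ℝ (dev p q a b) x) x :=
    (((hds.differentiable (by simp)) x).hasFDerivAt.const_mul ((starRingEnd ℂ) k)).sub_const _
  have hdψ : HasFDerivAt ψ
      ((A⁻¹ • Complex.reCLM.comp ((starRingEnd ℂ) k • fderiv ℝ (dev p q a b) x)).prod
        (B⁻¹ • Complex.imCLM.comp ((starRingEnd ℂ) k • fderiv ℝ (dev p q a b) x))) x := by
    have h1 := (Complex.reCLM.hasFDerivAt.comp x hdf).const_mul A⁻¹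
    have h2 := (Complex.imCLM.hasFDerivAt.comp x hdf).const_mul B⁻¹
    refine (h1.prodMk h2).congr_of_eventuallyEq (Filter.Eventually.of_forall fun y => ?_)
    simp [hψ, div_eq_inv_mul]
  simp only [hdψ.fderiv, hbl, sq_abs]
  simp only [ContinuousLinearMap.prod_apply, ContinuousLinearMap.smul_apply,
    ContinuousLinearMap.comp_apply, Complex.reCLM_apply, Complex.imCLM_apply, smul_eq_mul]
  have key : ∀ (C s t : ℝ), C ≠ 0 → C ^ 2 * (C⁻¹ * s * (C⁻¹ * t)) = s * t := fun C s t hC => by
    field_simp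
  rw [key A _ _ hA0, key B _ _ hB0, ← hg x z w, ← hmet x z w,
    ← inner_rot (u := (starRingEnd ℂ) k) (by
      have := congrArg (fun z : ℂ => ‖z‖) hk
      simp only [norm_mul, Complex.norm_conj, norm_one] at this ⊢
      nlinarith [norm_nonneg k]) (fderiv ℝ (dev p q a b) x z) (fderiv ℝ (dev p q a b) x w)]
  congr 1
  simp [Complex.inner]
  ring

end Vale.Agent.P205.Full.Klein.Sym

namespace Vale.Agent.P205.Full.Klein

/-- Isothermal coordinates on the torus which commute with the glide reflection. -/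
theorem exists_isothermal_glide {E F H : Pl → ℝ} (hE : SP E) (hF : SP F) (hH : SP H)
    (hpos : ∀ x, 0 < E x) (hdet : ∀ x, F x ^ 2 < E x * H x)
    (gE : ∀ x : Pl, E (x.1 + 1 / 2, -x.2) = E x) (gF : ∀ x : Pl, F (x.1 + 1 / 2, -x.2) = -F x)
    (gH : ∀ x : Pl, H (x.1 + 1 / 2, -x.2) = H x) :
    ∃ (a b : ℝ) (ψ : Pl → Pl) (u : Pl → ℝ), 0 < a ∧ 0 < b ∧ SP u ∧
      (∀ x : Pl, u (x.1 + 1 / 2, -x.2) = u x) ∧ ContDiff ℝ ∞ ψ ∧
      (∀ x, ψ (x + e1) = ψ x + e1) ∧ (∀ x, ψ (x + e2) = ψ x + e2) ∧
      (∀ x : Pl, ψ (x.1 + 1 / 2, -x.2) = ((ψ x).1 + 1 / 2, -(ψ x).2)) ∧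
      ∀ x v w, Real.exp (u (ψ x)) ^ 2 *
          (a ^ 2 * ((fderiv ℝ ψ x v).1 * (fderiv ℝ ψ x w).1) +
            b ^ 2 * ((fderiv ℝ ψ x v).2 * (fderiv ℝ ψ x w).2)) =
        E x * (v.1 * w.1) + F x * (v.1 * w.2 + v.2 * w.1) + H x * (v.2 * w.2) :=
  Sym.exists_isothermal_glide hE hF hH hpos hdet gE gF gH

end Vale.Agent.P205.Full.Klein
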