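import Vale.Agent.P205.Full.Klein.Profile

/-!
Pointwise algebra of the two Klein bottle equations.
-/

namespace Vale.Agent.P205.Full.Klein

/-- The derivative of the profile. -/
noncomputable def psi1 (γ L t : ℝ) : ℝ :=
  1 - 2 * t * (pp γ L + pq γ L * (1 - t ^ 2) + t * (pr γ + pw γ L * (1 - t ^ 2))) +
    (1 - t ^ 2) * (-2 * pq γ L * t + pr γ + pw γ L * (1 - 3 * t ^ 2))

/-- The second derivative of the profile. -/
noncomputable def psi2 (γ L t : ℝ) : ℝ :=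
  -2 * (pp γ L + pq γ L * (1 - t ^ 2) + t * (pr γ + pw γ L * (1 - t ^ 2))) -
    4 * t * (-2 * pq γ L * t + pr γ + pw γ L * (1 - 3 * t ^ 2)) +
    (1 - t ^ 2) * (-2 * pq γ L - 6 * pw γ L * t)

theorem hasDerivAt_psi (γ L t : ℝ) : HasDerivAt (psi γ L) (psi1 γ L t) t := by
  have hu : HasDerivAt (fun s : ℝ => 1 - s ^ 2) (-2 * t) t := by
    simpa using ((hasDerivAt_pow 2 t).const_sub 1)
  have hi := hasDerivAt_id' t
  have h := hi.fun_add (hu.fun_mul (((hu.const_mul (pq γ L)).const_add (pp γ L)).fun_add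
    (hi.fun_mul ((hu.const_mul (pw γ L)).const_add (pr γ)))))
  exact h.congr_deriv (by unfold psi1; ring)

theorem hasDerivAt_psi1 (γ L t : ℝ) : HasDerivAt (psi1 γ L) (psi2 γ L t) t := by
  have hu : HasDerivAt (fun s : ℝ => 1 - s ^ 2) (-2 * t) t := by
    simpa using ((hasDerivAt_pow 2 t).const_sub 1)
  have h3 : HasDerivAt (fun s : ℝ => 1 - 3 * s ^ 2) (-6 * t) t :=
    (((hasDerivAt_pow 2 t).const_mul 3).const_sub 1).congr_deriv (by norm_num; ring)
  have hi := hasDerivAt_id' t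
  have hR := ((hu.const_mul (pq γ L)).const_add (pp γ L)).fun_add
    (hi.fun_mul ((hu.const_mul (pw γ L)).const_add (pr γ)))
  have hR1 := ((hi.const_mul (-2 * pq γ L)).add_const (pr γ)).fun_add (h3.const_mul (pw γ L))
  have h := (((hi.const_mul 2).fun_mul hR).const_sub 1).fun_add (hu.fun_mul hR1)
  exact h.congr_deriv (by unfold psi2; ring)

/-- The values at one point of the data and of the unknowns with their derivatives. -/
structure Jet where
  /-- Data. -/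
  u1 : ℝ
  /-- Data. -/
  u2 : ℝ
  /-- Data. -/
  u11 : ℝ
  /-- Data. -/
  u12 : ℝ
  /-- Data. -/
  u21 : ℝ
  /-- Data. -/
  u22 : ℝ
  /-- Cosine of the height. -/
  c : ℝ
  /-- Sine of the height. -/
  s : ℝ
  /-- Profile parameter. -/
  γ : ℝ
  /-- Asymmetry. -/
  L : ℝ
  /-- Scale. -/
  ε : ℝ
  /-- Winding slope. -/
  A : ℝ
  /-- Height correction. -/
  e1 : ℝ
  /-- Height correction. -/
  e2 : ℝ
  /-- Height correction. -/
  e11 : ℝ
  /-- Height correction. -/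
  e12 : ℝ
  /-- Height correction. -/
  e21 : ℝ
  /-- Height correction. -/
  e22 : ℝ
  /-- Exponent correction. -/
  f : ℝ
  /-- Exponent correction. -/
  f1 : ℝ
  /-- Exponent correction. -/
  f2 : ℝ
  /-- Exponent correction. -/
  f11 : ℝ
  /-- Exponent correction. -/
  f12 : ℝ
  /-- Exponent correction. -/
  f21 : ℝ
  /-- Exponent correction. -/
  f22 : ℝ

namespace Jet

variable (J : Jet)

/-- `H`. -/
noncomputable def H : ℝ := J.L * psi J.γ J.L J.c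
/-- `H'`. -/
noncomputable def H1 : ℝ := -(J.L * (psi1 J.γ J.L J.c * J.s))
/-- `H''`. -/
noncomputable def H2 : ℝ :=
  J.L * (psi2 J.γ J.L J.c * (J.s * J.s) - psi1 J.γ J.L J.c * J.c)
/-- Gradient of the height. -/
noncomputable def Y1 : ℝ := J.e1
/-- Gradient of the height. -/
noncomputable def Y2 : ℝ := J.A + J.e2
/-- Derivative of the exponent in `H`. -/
noncomputable def p1 : ℝ := -(1 / 2) + (1 / 2) * J.H
/-- Coefficient of the squared gradient. -/
noncomputable def p2 : ℝ := (1 / 2) * (J.H1 * J.H1) + J.p1 * J.H2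
/-- The exponent. -/
noncomputable def v : ℝ := ((-(1 / 2)) * J.H + (1 / 4) * (J.H * J.H)) + J.f
/-- Derivative of the exponent. -/
noncomputable def v1 : ℝ := J.p1 * (J.H1 * J.Y1) + J.f1
/-- Derivative of the exponent. -/
noncomputable def v2 : ℝ := J.p1 * (J.H1 * J.Y2) + J.f2
/-- Derivative of the exponent. -/
noncomputable def v11 : ℝ := J.p2 * (J.Y1 * J.Y1) + J.p1 * (J.H1 * J.e11) + J.f11
/-- Derivative of the exponent. -/
noncomputable def v12 : ℝ := J.p2 * (J.Y1 * J.Y2) + J.p1 * (J.H1 * J.e12) + J.f12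
/-- Derivative of the exponent. -/
noncomputable def v21 : ℝ := J.p2 * (J.Y1 * J.Y2) + J.p1 * (J.H1 * J.e21) + J.f21
/-- Derivative of the exponent. -/
noncomputable def v22 : ℝ := J.p2 * (J.Y2 * J.Y2) + J.p1 * (J.H1 * J.e22) + J.f22
/-- Scaled exponential. -/
noncomputable def E : ℝ := J.ε * Real.exp J.v
/-- Scaled gradient. -/
noncomputable def W1 : ℝ := J.E * (J.u1 + J.v1)
/-- Scaled gradient. -/
noncomputable def W2 : ℝ := J.E * (J.u2 + J.v2)
/-- Its derivative. -/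
noncomputable def W11 : ℝ := J.E * (J.v1 * (J.u1 + J.v1) + (J.u11 + J.v11))
/-- Its derivative. -/
noncomputable def W12 : ℝ := J.E * (J.v1 * (J.u2 + J.v2) + (J.u12 + J.v12))
/-- Its derivative. -/
noncomputable def W21 : ℝ := J.E * (J.v2 * (J.u1 + J.v1) + (J.u21 + J.v21))
/-- Its derivative. -/
noncomputable def W22 : ℝ := J.E * (J.v2 * (J.u2 + J.v2) + (J.u22 + J.v22))
/-- Squared length. -/
noncomputable def S : ℝ := J.W1 * J.W1 + J.W2 * J.W2
/-- Its derivative. -/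
noncomputable def S1 : ℝ := 2 * (J.W1 * J.W11 + J.W2 * J.W12)
/-- Its derivative. -/
noncomputable def S2 : ℝ := 2 * (J.W1 * J.W21 + J.W2 * J.W22)
/-- Flux correction. -/
noncomputable def M1 : ℝ := -(J.W2 * J.W2 * J.Y1) + J.W1 * J.W2 * J.Y2
/-- Flux correction. -/
noncomputable def M2 : ℝ := J.W1 * J.W2 * J.Y1 - J.W1 * J.W1 * J.Y2
/-- Flux. -/
noncomputable def P1 : ℝ := J.Y1 + J.M1
/-- Flux. -/
noncomputable def P2 : ℝ := J.Y2 + J.M2
/-- Divergence of the flux correction. -/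
noncomputable def divM : ℝ :=
  (-(2 * (J.W2 * J.W12 * J.Y1) + J.W2 * J.W2 * J.e11) +
      ((J.W11 * J.W2 + J.W1 * J.W12) * J.Y2 + J.W1 * J.W2 * J.e12)) +
    ((J.W21 * J.W2 + J.W1 * J.W22) * J.Y1 + J.W1 * J.W2 * J.e21 -
      (2 * (J.W1 * J.W21 * J.Y2) + J.W1 * J.W1 * J.e22))
/-- The harmonicity expression. -/
noncomputable def EY : ℝ :=
  (1 - J.S) * (J.e11 + J.e22 + J.divM) + (1 / 2) * (J.S1 * J.P1 + J.S2 * J.P2)
/-- The curvature of the coframe. -/
noncomputable def curv : ℝ :=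
  (1 - J.S) * (J.v11 + J.v22) + (1 / 2) * (J.S1 * J.v1 + J.S2 * J.v2) -
    (J.W11 * J.W22 - J.W21 * J.W12)
/-- The flatness expression. -/
noncomputable def K : ℝ :=
  (1 + J.H) ^ 2 * J.curv +
    (1 / 2) * ((1 + J.H) * J.H2 - J.H1 ^ 2) * ((1 - J.S) * (J.Y1 * J.P1 + J.Y2 * J.P2)) +
    (1 / 2) * ((1 + J.H) * J.H1) * J.EY
/-- Divergence part of the height remainder. -/
noncomputable def Q1 : ℝ := J.M1 + (1 / 2) * (J.S * J.Y1)
/-- Divergence part of the height remainder. -/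
noncomputable def Q2 : ℝ := J.M2 + (1 / 2) * (J.S * J.Y2)
/-- Divergence of `(Q1, Q2)`. -/
noncomputable def dQ : ℝ :=
  J.divM + (1 / 2) * ((J.S1 * J.Y1 + J.S2 * J.Y2) + J.S * (J.e11 + J.e22))
/-- The other part of the height remainder. -/
noncomputable def X : ℝ :=
  (-(3 / 2)) * (J.S * (J.e11 + J.e22)) +
    (-(J.S * J.divM) + (1 / 2) * (J.S1 * J.M1 + J.S2 * J.M2))

theorem EY_eq : J.EY = (J.e11 + J.e22) + (J.dQ + J.X) := by
  simp only [EY, dQ, X, P1, P2]; ring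

/-- The flatness remainder, arranged by order. -/
noncomputable def RK : ℝ :=
  ((1 / 2) * ((J.H1 * J.H1) * (2 * J.H + J.H * J.H)) +
      (1 / 2) * (((1 + J.H) * J.H2) * (J.H * J.H))) * (J.Y1 * J.Y1 + J.Y2 * J.Y2) +
    (1 / 2) * (((1 + J.H) * (J.H * J.H)) * (J.H1 * (J.e11 + J.e22))) +
    (2 * J.H + J.H * J.H) * (J.f11 + J.f22) +
    -(((1 + J.H) * (1 + J.H)) * (J.S * (J.v11 + J.v22))) +
    -((1 / 2) * (((1 + J.H) * J.H2 - J.H1 * J.H1) * (J.S * (J.Y1 * J.Y1 + J.Y2 * J.Y2)))) +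
    -((1 / 2) * (((1 + J.H) * J.H1) * (J.S * (J.e11 + J.e22)))) +
    (1 / 2) * (((1 + J.H) * J.H2 - J.H1 * J.H1) * ((1 - J.S) * (J.Y1 * J.M1 + J.Y2 * J.M2))) +
    ((1 + J.H) * (1 + J.H)) *
      ((1 / 2) * (J.S1 * J.v1 + J.S2 * J.v2) - (J.W11 * J.W22 - J.W21 * J.W12)) +
    (1 / 2) * (((1 + J.H) * J.H1) *
      ((1 - J.S) * J.divM + (1 / 2) * (J.S1 * J.P1 + J.S2 * J.P2)))

theorem K_eq : J.K = (J.f11 + J.f22) + J.RK := by
  simp only [K, RK, curv, EY, v11, v22, p2, p1, P1, P2]; ring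

/-- The values at the reflected point. -/
def flip : Jet where
  u1 := J.u1
  u2 := -J.u2
  u11 := J.u11
  u12 := -J.u12
  u21 := -J.u21
  u22 := J.u22
  c := J.c
  s := -J.s
  γ := J.γ
  L := J.L
  ε := J.ε
  A := J.A
  e1 := -J.e1
  e2 := J.e2
  e11 := -J.e11
  e12 := J.e12
  e21 := J.e21
  e22 := -J.e22
  f := J.f
  f1 := J.f1
  f2 := -J.f2
  f11 := J.f11
  f12 := -J.f12
  f21 := -J.f21
  f22 := J.f22

theorem H_flip : J.flip.H = J.H := rfl

theorem H1_flip : J.flip.H1 = -J.H1 := by simp [H1, flip]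

theorem H2_flip : J.flip.H2 = J.H2 := by simp [H2, flip]

theorem v_flip : J.flip.v = J.v := rfl

theorem p1_flip : J.flip.p1 = J.p1 := rfl

theorem p2_flip : J.flip.p2 = J.p2 := by simp [p2, H1_flip, H2_flip, p1_flip]

theorem Y_flip : J.flip.Y1 = -J.Y1 ∧ J.flip.Y2 = J.Y2 := ⟨rfl, rfl⟩

theorem W_flip : J.flip.W1 = J.W1 ∧ J.flip.W2 = -J.W2 ∧ J.flip.W11 = J.W11 ∧
    J.flip.W12 = -J.W12 ∧ J.flip.W21 = -J.W21 ∧ J.flip.W22 = J.W22 := by
  refine ⟨?_, ?_, ?_, ?_, ?_, ?_⟩ <;>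
    simp [W1, W2, W11, W12, W21, W22, E, v_flip, v1, v2, v11, v12, v21, v22, H1_flip,
      p1_flip, p2_flip, Y_flip] <;> simp [flip] <;> first | (left; ring) | ring

theorem M_flip : J.flip.M1 = -J.M1 ∧ J.flip.M2 = J.M2 := by
  constructor <;> simp [M1, M2, W_flip, Y_flip]
  ring

theorem S_flip : J.flip.S = J.S ∧ J.flip.S1 = J.S1 ∧ J.flip.S2 = -J.S2 := by
  refine ⟨?_, ?_, ?_⟩ <;> simp [S, S1, S2, W_flip]
  ring

theorem divM_flip : J.flip.divM = -J.divM := by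
  simp [divM, W_flip, Y_flip]
  simp [flip]
  ring

theorem height_flip : J.flip.Q1 = -J.Q1 ∧ J.flip.Q2 = J.Q2 ∧ J.flip.dQ + J.flip.X = -(J.dQ + J.X) := by
  refine ⟨?_, ?_, ?_⟩ <;> simp [Q1, Q2, dQ, X, S_flip, Y_flip, M_flip, divM_flip]
  · ring
  · simp [flip]; ring

theorem RK_flip : J.flip.RK = J.RK := by
  simp [RK, v11, v22, v1, v2, P1, P2, W_flip, S_flip, M_flip, divM_flip, H_flip, H1_flip, H2_flip,
    p1_flip, p2_flip, Y_flip]
  simp [flip]
  ring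

theorem EY_flip : J.flip.EY = -J.EY := by
  simp [EY, P1, P2, S_flip, M_flip, divM_flip, Y_flip]
  simp [flip]
  ring

end Jet

end Vale.Agent.P205.Full.Klein
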