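import Vale.Agent.P205.Full.Develop

/-!
A closed periodic complex one-form which is a complex multiple of a flat coframe is a constant
multiple, up to rotation, by Liouville's theorem.
-/

open scoped ContDiff
open Complex

namespace Vale.Agent.P205.Full.Klein

open Develop in
theorem rigid {p q : Pl → ℂ} {a b : Pl → ℝ} (h : FlatCoframe p q a b) {A B : Pl → ℂ} (hA : SP A)
    (hB : SP B) (hcl : ∀ x, der e1 B x = der e2 A x) {g : Pl → ℂ}
    (hg : ∀ x, A x = g x * p x ∧ B x = g x * q x) (x y : Pl) : ‖g x‖ = ‖g y‖ := by
  have hp : ∀ x, p x ≠ 0 := fun x h0 => by simpa [h0] using h.pos x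
  have ge : g = fun x => A x / p x := funext fun x => by
    rw [(hg x).1, mul_div_assoc, div_self (hp x), mul_one]
  have gc : Continuous g := by
    rw [ge]; exact hA.smooth.continuous.div h.sp.smooth.continuous hp
  have gp : IsPer g := by
    constructor <;> intro x
    · simp only [ge, hA.per.add1, h.sp.per.add1]
    · simp only [ge, hA.per.add2, h.sp.per.add2]
  obtain ⟨M, hM⟩ := isPer_bounded gc gp
  obtain ⟨G, hG, hGl, hGr⟩ := dev_inverse h
  set F : ℂ → ℂ := fun z => line A B (G z) with hF
  set k : ℂ → ℂ := fun z => g (G z) / rot a b (G z) with hk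
  have hrot : ∀ x, rot a b x ≠ 0 := fun x e => by simpa [e] using norm_rot a b x
  have hd : ∀ z, HasDerivAt F (k z) z := by
    intro z
    have hGd := (hG.differentiable (by simp) z).hasFDerivAt
    have hid : (ddev p q a b (G z)).comp (fderiv ℝ G z) = ContinuousLinearMap.id ℝ ℂ := by
      have h1 := (hasFDerivAt_dev h (G z)).comp z hGd
      rw [show dev p q a b ∘ G = id from funext hGr] at h1
      exact h1.unique (hasFDerivAt_id z)
    have hFd := (hasFDerivAt_line hA.smooth hB.smooth hcl (G z)).comp z hGd
    rw [hasDerivAt_iff_hasFDerivAt, hasFDerivAt_iff_isLittleO]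
    refine (hFd.congr_fderiv (g' := (k z) • ContinuousLinearMap.id ℝ ℂ) ?_).isLittleO.congr_left
      fun w => ?_
    · refine ContinuousLinearMap.ext fun v => ?_
      have hv := DFunLike.congr_fun hid v
      simp only [ContinuousLinearMap.comp_apply, ddev_apply, ContinuousLinearMap.id_apply] at hv
      simp only [ContinuousLinearMap.comp_apply, cof_apply, smul_apply,
        ContinuousLinearMap.id_apply, smul_eq_mul, hk, (hg (G z)).1, (hg (G z)).2]
      generalize (fderiv ℝ G z) v = d at hv ⊢
      rw [← hv]
      simp only [Complex.real_smul]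
      have := hrot (G z)
      field_simp
    · simp [hF, mul_comm]
  have hdiff : Differentiable ℂ F := fun z => (hd z).differentiableAt
  have hk' : k = deriv F := funext fun z => (hd z).deriv.symm
  have hkd : Differentiable ℂ k := by
    rw [hk']
    exact differentiableOn_univ.1 ((hdiff.differentiableOn (s := Set.univ)).deriv isOpen_univ)
  have hb : Bornology.IsBounded (Set.range k) := by
    refine (Metric.isBounded_closedBall (x := (0 : ℂ)) (r := M)).subset ?_
    rintro _ ⟨z, rfl⟩
    rw [Metric.mem_closedBall, dist_zero_right, hk]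
    simpa [norm_rot] using hM (G z)
  have := congrArg norm (hkd.apply_eq_apply_of_bounded hb (dev p q a b x) (dev p q a b y))
  simpa [hk, hGl, norm_rot] using this

end Vale.Agent.P205.Full.Klein
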