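import Vale.Agent.P205.Full.Klein.Assemble
import Vale.Agent.P205.Full.Klein.Rigid
import Vale.Agent.P205.Full.Klein.IsothermalSym

/-!
Every smooth metric on the Klein bottle is induced by a smooth immersion into four-space.
-/

open scoped ContDiff
open Complex

namespace Vale.Agent.P205.Full.Klein

theorem ratio_norm_const {p : Dat} {B : ℝ} {N : ℕ} {X : St} (h : Good p B N X) (x : Pl) :
    ‖ratio p N X x‖ = ‖ratio p N X 0‖ := by
  refine rigid (flatCoframe_klein h) (sp_z h).1 (sp_z h).2 (fun y => ?_) (z_eq_ratio h) x 0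
  obtain ⟨sA, sB⟩ := sp_dtheta h
  have hr : ∀ (f g : Pl → ℝ) (η : Pl), ContDiff ℝ ∞ f → ContDiff ℝ ∞ g →
      der η (fun x => (f x : ℂ) + (g x : ℂ) * I) y = ((der η f y : ℝ) : ℂ) + ((der η g y : ℝ) : ℂ) * I :=
    fun f g η hf hg => der_cplx η (hf.differentiable (by simp) y) (hg.differentiable (by simp) y)
  have y1 : ContDiff ℝ ∞ fun x => (jet p N X x).Y1 := h.sY1.smooth
  have y2 : ContDiff ℝ ∞ fun x => (jet p N X x).Y2 := h.sY2.smooth
  unfold zA zB
  rw [hr _ _ _ sB.smooth (contDiff_const.mul y2), hr _ _ _ sA.smooth (contDiff_const.mul y1),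
    theta_closed h]
  obtain ⟨-, g12, g21, -⟩ := hd_grad p h.hX y
  rw [der_e1 (p := p), der_e2 (p := p) (fun x => p.a * (jet p N X x).Y1),
    (g12.smul p.b).2, (g21.smul p.a).2]
  have : (jet p N X y).e12 = (jet p N X y).e21 := by
    simp only [jet, qE2]
    congr 2
    funext k
    simp only [dC]
    ring
  rw [this, smul_eq_mul, smul_eq_mul, mul_left_comm]

/-- The weight used for the winding `N`. -/
noncomputable def weight (c : ℝ) (N : ℕ) : ℕ := 2 * (⌊c * N / 2⌋₊ + 1)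

theorem weight_bounds {c : ℝ} (hc : 0 < c) (N : ℕ) :
    c * N ≤ (weight c N : ℝ) ∧ (weight c N : ℝ) ≤ c * N + 2 ∧ 2 ≤ (weight c N : ℝ) := by
  have h0 : 0 ≤ c * N / 2 := by positivity
  have h1 := Nat.floor_le h0
  have h2 := Nat.lt_floor_add_one (c * N / 2)
  have h3 : (0 : ℝ) ≤ (⌊c * N / 2⌋₊ : ℝ) := Nat.cast_nonneg _
  simp only [weight, Nat.cast_mul, Nat.cast_add, Nat.cast_one, Nat.cast_ofNat]
  refine ⟨?_, ?_, ?_⟩ <;> linarith

theorem kL_weight {c : ℝ} (hc : 0 < c) {N : ℕ} (hN : 1 ≤ N) :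
    |kL (weight c N)| ≤ 2 / c / N := by
  obtain ⟨h1, -, h3⟩ := weight_bounds hc N
  have hNp : (0 : ℝ) < N := by exact_mod_cast hN
  generalize hm : (weight c N : ℝ) = m at h1 h3
  rw [kL, hm]
  have hden : 0 < m ^ 2 + (m - 1) ^ 2 := by nlinarith
  have hnum : (0 : ℝ) ≤ m ^ 2 - (m - 1) ^ 2 := by nlinarith
  rw [abs_of_nonneg (div_nonneg hnum hden.le), div_le_div_iff₀ hden hNp]
  have key : (2 / c) * (c * N) = 2 * N := by field_simp
  nlinarith [mul_le_mul_of_nonneg_left h1 (div_nonneg two_pos.le hc.le),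
    mul_nonneg (div_nonneg two_pos.le hc.le) (sq_nonneg (m - 1)),
    mul_le_mul_of_nonneg_left h1 (mul_nonneg (div_nonneg two_pos.le hc.le) (by linarith : (0:ℝ) ≤ m))]

/-- The conformally flat case. -/
theorem exists_klein_conformal {a b : ℝ} (ha : 0 < a) (hb : 0 < b) {u : Pl → ℝ} (hu : SP u)
    (hg : ∀ x, u (glide x) = u x) :
    ∃ Φ : Pl → EuclideanSpace ℝ (Fin 4), ContDiff ℝ ∞ Φ ∧ (∀ x, Φ (glide x) = Φ x) ∧
      (∀ x, Φ (x + e2) = Φ x) ∧ ∀ x v w, inner ℝ (fderiv ℝ Φ x v) (fderiv ℝ Φ x w) =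
        Real.exp (u x) ^ 2 * (a ^ 2 * (v.1 * w.1) + b ^ 2 * (v.2 * w.2)) := by
  obtain ⟨d, hd, hmod⟩ := exists_model
  set c : ℝ := a / (Real.sqrt 2 * b) with hc
  have hc0 : 0 < c := by positivity
  let p : Dat := ⟨a, b, u, weight c, 2 / c, ha, hb, hu, hg, by positivity, fun _ h => kL_weight hc0 h⟩
  have hk : ∀ N, 1 ≤ N → |kN p N - p.c0 ^ 2 / 8| ≤ Real.pi ^ 2 / (2 * a ^ 2) * (10 * c + 13) / N := by
    intro N hN
    obtain ⟨h1, h2, h3⟩ := weight_bounds hc0 N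
    have hN1 : (1 : ℝ) ≤ N := by exact_mod_cast hN
    have hc2 : c ^ 2 = a ^ 2 / (2 * b ^ 2) := by
      rw [hc, div_pow, mul_pow, Real.sq_sqrt two_pos.le]
    have e : kN p N - p.c0 ^ 2 / 8 = Real.pi ^ 2 / (2 * a ^ 2) *
        (((weight c N : ℝ) ^ 2 + ((weight c N : ℝ) - 1) ^ 2 - 2 * (c * N) ^ 2) / (N : ℝ) ^ 2) := by
      rw [mul_pow, hc2]
      simp only [kN, Dat.c0, p]
      field_simp
      ring
    rw [e, abs_mul, abs_of_nonneg (by positivity : 0 ≤ Real.pi ^ 2 / (2 * a ^ 2)), mul_div_assoc]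
    refine mul_le_mul_of_nonneg_left ?_ (by positivity)
    generalize (weight c N : ℝ) = m at h1 h2 h3 ⊢
    rw [abs_div, abs_of_nonneg (by positivity : (0 : ℝ) ≤ (N : ℝ) ^ 2),
      div_le_div_iff₀ (by positivity) (by positivity)]
    have hcN : 0 ≤ c * N := by positivity
    have key : |m ^ 2 + (m - 1) ^ 2 - 2 * (c * N) ^ 2| ≤ (10 * c + 13) * N := by
      rw [abs_le]
      constructor <;> nlinarith [mul_le_mul_of_nonneg_left h2 (by linarith : (0 : ℝ) ≤ m),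
        mul_le_mul_of_nonneg_left h1 hcN]
    calc |m ^ 2 + (m - 1) ^ 2 - 2 * (c * N) ^ 2| * N ≤ (10 * c + 13) * N * N :=
          mul_le_mul_of_nonneg_right key (Nat.cast_nonneg N)
      _ = _ := by ring
  obtain ⟨B, N0, hgood⟩ := exists_good p (by positivity) hk
  obtain ⟨M, hM, hsm⟩ := nat_small (|B| + 2 / c) d hd
  set N := 2 * (N0 + M) with hN
  have hN1 : 1 ≤ N := by omega
  obtain ⟨X, hX⟩ := hgood N (by omega)
  have hNp : (0 : ℝ) < N := by exact_mod_cast hN1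
  have hsmall := hsm N (by omega)
  have h2c : 0 ≤ 2 / c := by positivity
  have hγ : |X.γ - 1 / 2| ≤ d := hX.hX.ng.trans ((div_le_div_of_nonneg_right
    (by linarith [le_abs_self B]) hNp.le).trans hsmall.le)
  have hL : |kL (weight c N)| ≤ d := (kL_weight hc0 hN1).trans ((div_le_div_of_nonneg_right
    (by linarith [abs_nonneg B]) hNp.le).trans hsmall.le)
  obtain ⟨P, hP, hP1, hPg, hPy, hPm⟩ := hmod (weight c N) X.γ (even_two_mul _)
    (by unfold weight; omega) hγ hL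
  exact exists_glide_immersion hX hN (by show 1 ≤ weight c N; unfold weight; omega)
    (ratio_norm_const hX) hP hP1 hPg hPy hPm

/-- Every smooth metric on the Klein bottle is induced by a smooth immersion into four-space. -/
theorem exists_klein_immersion {E F H : Pl → ℝ} (hE : SP E) (hF : SP F) (hH : SP H)
    (hpos : ∀ x, 0 < E x) (hdet : ∀ x, F x ^ 2 < E x * H x)
    (gE : ∀ x, E (glide x) = E x) (gF : ∀ x, F (glide x) = -F x) (gH : ∀ x, H (glide x) = H x) :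
    ∃ Φ : Pl → EuclideanSpace ℝ (Fin 4), ContDiff ℝ ∞ Φ ∧ (∀ x, Φ (glide x) = Φ x) ∧
      (∀ x, Φ (x + e2) = Φ x) ∧ ∀ x v w, inner ℝ (fderiv ℝ Φ x v) (fderiv ℝ Φ x w) =
        E x * (v.1 * w.1) + F x * (v.1 * w.2 + v.2 * w.1) + H x * (v.2 * w.2) := by
  obtain ⟨a, b, ψ, u, ha, hb, hu, hug, hψ, -, hψ2, hψg, hm⟩ :=
    exists_isothermal_glide hE hF hH hpos hdet gE gF gH
  obtain ⟨Φ, hΦ, hΦg, hΦ2, hΦm⟩ := exists_klein_conformal ha hb hu hug
  refine ⟨Φ ∘ ψ, hΦ.comp hψ, fun x => ?_, fun x => ?_, fun x v w => ?_⟩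
  · show Φ (ψ (glide x)) = Φ (ψ x)
    rw [show ψ (glide x) = glide (ψ x) from hψg x, hΦg]
  · show Φ (ψ (x + e2)) = Φ (ψ x)
    rw [hψ2, hΦ2]
  · rw [fderiv_comp x (hΦ.differentiable (by simp) _) (hψ.differentiable (by simp) x)]
    simp only [ContinuousLinearMap.comp_apply]
    rw [hΦm, hm]

end Vale.Agent.P205.Full.Klein
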