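import Vale.Agent.P205.Full.Klein.Atoms
import Vale.Agent.P205.Full.Isothermal
import Vale.Agent.P205.Full.Klein.Jet

/-!
Orders in the winding of all the quantities of the Klein bottle equation.
-/

open scoped ContDiff
open Complex

namespace Vale.Agent.P205.Full.Klein

/-- The glide of the standard Klein lattice. -/
noncomputable def glide (x : Pl) : Pl := (x.1 + 1 / 2, -x.2)

/-- The data: side lengths, conformal exponent, weights. -/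
structure Dat where
  /-- First side. -/
  a : ℝ
  /-- Second side. -/
  b : ℝ
  /-- Conformal exponent. -/
  u : Pl → ℝ
  /-- The first weight as a function of the winding. -/
  m : ℕ → ℕ
  /-- A bound of the asymmetry. -/
  Lb : ℝ
  apos : 0 < a
  bpos : 0 < b
  hu : SP u
  usym : ∀ x, u (glide x) = u x
  Lb0 : 0 ≤ Lb
  hL : ∀ N, 1 ≤ N → |kL (m N)| ≤ Lb / N

variable (p : Dat)

/-- The first direction. -/
noncomputable def Dat.η1 : Pl := (1 / p.a, 0)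

/-- The second direction. -/
noncomputable def Dat.η2 : Pl := (0, 1 / p.b)

/-- The height, without the correction. -/
noncomputable def hY0 (N : ℕ) (x : Pl) : ℝ := 2 * Real.pi * N * x.2

/-- The jet of a state. -/
noncomputable def jet (N : ℕ) (X : St) (x : Pl) : Jet where
  u1 := der p.η1 p.u x
  u2 := der p.η2 p.u x
  u11 := der p.η1 (der p.η1 p.u) x
  u12 := der p.η1 (der p.η2 p.u) x
  u21 := der p.η2 (der p.η1 p.u) x
  u22 := der p.η2 (der p.η2 p.u) x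
  c := Real.cos (hY0 N x + qE N X x)
  s := Real.sin (hY0 N x + qE N X x)
  γ := X.γ
  L := kL (p.m N)
  ε := X.κ * ((N : ℝ))⁻¹
  A := 2 * Real.pi / p.b * N
  e1 := qE1 p.η1 N X x
  e2 := qE1 p.η2 N X x
  e11 := qE2 p.η1 p.η1 N X x
  e12 := qE2 p.η1 p.η2 N X x
  e21 := qE2 p.η2 p.η1 N X x
  e22 := qE2 p.η2 p.η2 N X x
  f := qF N X x
  f1 := qF1 p.η1 N X x
  f2 := qF1 p.η2 N X x
  f11 := qF2 p.η1 p.η1 N X x
  f12 := qF2 p.η1 p.η2 N X x
  f21 := qF2 p.η2 p.η1 N X x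
  f22 := qF2 p.η2 p.η2 N X x

/-- The family of a jet quantity. -/
noncomputable def jf (g : Jet → ℝ) : RFam := fun N X x => g (jet p N X x)

variable {κ0 : ℝ} {w w1 w2 : ℕ → ℝ} {φ ψ : RFam}

theorem RE.cast (h : RE κ0 w φ) (he : ∀ N : ℕ, 1 ≤ N → w N = w1 N) : RE κ0 w1 φ := by
  intro B
  obtain ⟨C, N0, hC, h1, hN⟩ := h B
  refine ⟨C, N0, hC, h1, fun N hN' => ?_⟩
  obtain ⟨hw, ha⟩ := hN N hN'
  have e := he N (le_trans h1 hN')
  exact ⟨e ▸ hw, ha.sp, e ▸ ha.bdd, e ▸ ha.lip, e ▸ ha.high⟩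

theorem nat_inv_mul {N : ℕ} (hN : 1 ≤ N) : ((N : ℝ))⁻¹ * N = 1 :=
  inv_mul_cancel₀ (by have : 0 < N := hN; exact_mod_cast this.ne')

theorem inv_nat_le_one {N : ℕ} (hN : 1 ≤ N) : ((N : ℝ))⁻¹ ≤ 1 :=
  inv_le_one_of_one_le₀ (by exact_mod_cast hN)

theorem RE.S1 (h : RE κ0 oS φ) : RE κ0 o1 φ :=
  h.mono zero_le_one fun N (hN : 1 ≤ N) => ⟨by simpa [oS, o1] using inv_nat_le_one hN, zero_le_one⟩

theorem RE.oneL (h : RE κ0 o1 φ) : RE κ0 oL φ :=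
  h.mono zero_le_one fun N (hN : 1 ≤ N) =>
    ⟨by simpa [oL, o1] using (Nat.one_le_cast.2 hN : (1 : ℝ) ≤ N), Nat.cast_nonneg N⟩

theorem RE.m11 (h : RE κ0 o1 φ) (h' : RE κ0 o1 ψ) : RE κ0 o1 (fun N X x => φ N X x * ψ N X x) :=
  (h.mul h').cast fun N _ => one_mul _

theorem RE.mS1 (h : RE κ0 oS φ) (h' : RE κ0 o1 ψ) : RE κ0 oS (fun N X x => φ N X x * ψ N X x) :=
  (h.mul h').cast fun N _ => mul_one _

theorem RE.m1S (h : RE κ0 o1 φ) (h' : RE κ0 oS ψ) : RE κ0 oS (fun N X x => φ N X x * ψ N X x) :=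
  (h.mul h').cast fun N _ => one_mul _

theorem RE.mSL (h : RE κ0 oS φ) (h' : RE κ0 oL ψ) : RE κ0 o1 (fun N X x => φ N X x * ψ N X x) :=
  (h.mul h').cast fun N hN => nat_inv_mul hN

theorem RE.mLS (h : RE κ0 oL φ) (h' : RE κ0 oS ψ) : RE κ0 o1 (fun N X x => φ N X x * ψ N X x) :=
  (h.mul h').cast fun N hN => by rw [oL, oS, o1, mul_comm]; exact nat_inv_mul hN

theorem RE.m1L (h : RE κ0 o1 φ) (h' : RE κ0 oL ψ) : RE κ0 oL (fun N X x => φ N X x * ψ N X x) :=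
  (h.mul h').cast fun N _ => one_mul _

theorem RE.mSS (h : RE κ0 oS φ) (h' : RE κ0 oS ψ) : RE κ0 oS (fun N X x => φ N X x * ψ N X x) :=
  h.mS1 h'.S1

/-- The order `N⁻²`. -/
noncomputable def oSS : ℕ → ℝ := fun N => ((N : ℝ))⁻¹ * ((N : ℝ))⁻¹
/-- The order `N⁻³`. -/
noncomputable def oSSS : ℕ → ℝ := fun N => ((N : ℝ))⁻¹ * ((N : ℝ))⁻¹ * ((N : ℝ))⁻¹
/-- The order `N²`. -/
def oLL : ℕ → ℝ := fun N => (N : ℝ) * N

theorem RE.toSS (h : RE κ0 oS φ) (h' : RE κ0 oS ψ) : RE κ0 oSS (fun N X x => φ N X x * ψ N X x) :=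
  h.mul h'

theorem RE.SStoS (h : RE κ0 oSS φ) : RE κ0 oS φ :=
  h.mono zero_le_one fun N (hN : 1 ≤ N) => ⟨by
    rw [oSS, oS, one_mul]
    exact mul_le_of_le_one_left (inv_nonneg.2 (Nat.cast_nonneg N)) (inv_nat_le_one hN),
    inv_nonneg.2 (Nat.cast_nonneg N)⟩

theorem RE.mSSL (h : RE κ0 oSS φ) (h' : RE κ0 oL ψ) : RE κ0 oS (fun N X x => φ N X x * ψ N X x) :=
  (h.mul h').cast fun N hN => by
    simp only [oSS, oS, oL]; rw [mul_assoc, nat_inv_mul hN, mul_one]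

theorem RE.mSSS_LL (h : RE κ0 oSSS φ) (h' : RE κ0 oLL ψ) :
    RE κ0 oS (fun N X x => φ N X x * ψ N X x) :=
  (h.mul h').cast fun N hN => by
    have hN' : (N : ℝ) ≠ 0 := by
      have : 0 < N := hN
      exact_mod_cast this.ne'
    simp only [oSSS, oS, oLL]; field_simp

theorem est_ch {g : ℕ → Z2} : Est κ0 o1 (fun N _ x => ch (g N) x) ∧ Low κ0 (fun N _ x => ch (g N) x) := by
  classical
  have hm : ∀ (k : Z2) (m : ℕ), Mem m (fun l => if l = k then (1 : ℂ) else 0) := by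
    intro k m
    refine summable_of_ne_finset_zero (s := {k}) fun l hl => ?_
    simp [Finset.mem_singleton.not.1 hl]
  have he : ∀ (k : Z2) x, ev (fun l => if l = k then (1 : ℂ) else 0) x = ch k x := by
    intro k x
    rw [ev, tsum_eq_single k fun l hl => by simp [hl]]
    simp
  have hs : ∀ N, SP (ch (g N)) := fun N => by
    rw [← funext (he (g N))]; exact sp_ev (hm (g N))
  refine ⟨est_fixed hs zero_le_one (fun _ _ => zero_le_one) fun N _ => ?_, low_fixed hs⟩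
  rw [sqCoef_eq (hm (g N) 0) (he (g N)), nrm, tsum_eq_single (g N) fun l hl => by simp [hl]]
  simp [o1]

theorem est_cconst (z : ℂ) : Est κ0 o1 (fun _ _ _ => z) ∧ Low κ0 (fun _ _ _ => z) :=
  ⟨est_fixed (g := fun _ _ => z) (K := ‖z‖) (fun _ => sp_const _) (norm_nonneg _)
    (fun _ _ => zero_le_one) fun N _ => by
      rw [sqCoef_const, nrm_smul, nrm_unit]; simp [o1],
   low_fixed (g := fun _ _ => z) fun _ => sp_const _⟩

theorem Est.cast {φ : Fam} (h : Est κ0 w φ) (he : ∀ N : ℕ, w N = w1 N) : Est κ0 w1 φ := by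
  rwa [show w1 = w from funext fun N => (he N).symm]

theorem est_trig (z1 z2 : ℂ) :
    Est κ0 o1 (fun N X x => z1 * (ch (0, (N : ℤ)) x * Complex.exp (I * cpx qE N X x)) +
      z2 * (ch (0, -(N : ℤ)) x * Complex.exp (-I * cpx qE N X x))) ∧
    Low κ0 (fun N X x => z1 * (ch (0, (N : ℤ)) x * Complex.exp (I * cpx qE N X x)) +
      z2 * (ch (0, -(N : ℤ)) x * Complex.exp (-I * cpx qE N X x))) := by
  have hI : ∀ z : ℂ, Est κ0 o1 (fun N X x => z * cpx qE N X x) ∧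
      Low κ0 (fun N X x => z * cpx qE N X x) := fun z =>
    ⟨((est_cconst z).1.mul re_qE.1).cast fun _ => one_mul _, (est_cconst z).2.mul re_qE.2⟩
  have c1 := est_ch (κ0 := κ0) (g := fun N => (0, (N : ℤ)))
  have c2 := est_ch (κ0 := κ0) (g := fun N => (0, -(N : ℤ)))
  exact ⟨Est.add
      (((est_cconst z1).1.mul ((c1.1.mul (Est.exp (hI I).1 (hI I).2)).cast fun _ => one_mul _)).cast
        fun _ => one_mul _)
      (((est_cconst z2).1.mul ((c2.1.mul (Est.exp (hI (-I)).1 (hI (-I)).2)).cast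
        fun _ => one_mul _)).cast fun _ => one_mul _),
    ((est_cconst z1).2.mul (c1.2.mul (hI I).2.exp)).add
      ((est_cconst z2).2.mul (c2.2.mul (hI (-I)).2.exp))⟩

theorem exp_height (N : ℕ) (X : St) (x : Pl) :
    Complex.exp (((hY0 N x + qE N X x : ℝ) : ℂ) * I) =
      ch (0, (N : ℤ)) x * Complex.exp (I * cpx qE N X x) ∧
    Complex.exp (-(((hY0 N x + qE N X x : ℝ) : ℂ) * I)) =
      ch (0, -(N : ℤ)) x * Complex.exp (-I * cpx qE N X x) := by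
  constructor <;>
    · rw [ch, ← Complex.exp_add]
      congr 1
      simp [hY0, cpx]
      ring

theorem re_cos : RE κ0 o1 (jf p Jet.c) ∧ RL κ0 (jf p Jet.c) := by
  have h := est_trig (κ0 := κ0) (1 / 2) (1 / 2)
  have key : ∀ (N : ℕ) (X : St) (x : Pl), 1 / 2 * (ch (0, (N : ℤ)) x * Complex.exp (I * cpx qE N X x)) +
      1 / 2 * (ch (0, -(N : ℤ)) x * Complex.exp (-I * cpx qE N X x)) = cpx (jf p Jet.c) N X x := by
    intro N X x
    rw [← (exp_height N X x).1, ← (exp_height N X x).2]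
    simp only [cpx, jf, jet, Complex.ofReal_cos, Complex.cos, neg_mul]
    ring
  exact ⟨h.1.congr key, h.2.congr key⟩

theorem re_sin : RE κ0 o1 (jf p Jet.s) ∧ RL κ0 (jf p Jet.s) := by
  have h := est_trig (κ0 := κ0) (-I / 2) (I / 2)
  have key : ∀ (N : ℕ) (X : St) (x : Pl), -I / 2 * (ch (0, (N : ℤ)) x * Complex.exp (I * cpx qE N X x)) +
      I / 2 * (ch (0, -(N : ℤ)) x * Complex.exp (-I * cpx qE N X x)) = cpx (jf p Jet.s) N X x := by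
    intro N X x
    rw [← (exp_height N X x).1, ← (exp_height N X x).2]
    simp only [cpx, jf, jet, Complex.ofReal_sin, Complex.sin, neg_mul]
    ring
  exact ⟨h.1.congr key, h.2.congr key⟩

theorem re_data {g : Pl → ℝ} (hg : SP g) : RE κ0 o1 (fun _ _ x => g x) := by
  have hs : SP (fun x => (g x : ℂ)) :=
    ⟨Complex.ofRealCLM.contDiff.comp hg.smooth, ⟨fun x => by rw [hg.per.add1],
      fun x => by rw [hg.per.add2]⟩⟩
  exact est_fixed (g := fun _ x => (g x : ℂ)) (K := nrm 0 (sqCoef fun x => (g x : ℂ))) (fun _ => hs)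
    (nrm_nonneg _ _) (fun _ _ => zero_le_one) fun N _ => by simp [o1]

theorem re_u1 (η : Pl) : RE κ0 o1 (fun _ _ x => der η p.u x) := re_data (p.hu.derR η)

theorem re_u2 (ξ η : Pl) : RE κ0 o1 (fun _ _ x => der ξ (der η p.u) x) :=
  re_data ((p.hu.derR η).derR ξ)

theorem re_L : RE κ0 oS (jf p Jet.L) ∧ RL κ0 (jf p Jet.L) :=
  ⟨re_seq p.Lb0 (fun N _ => inv_nonneg.2 (Nat.cast_nonneg N)) fun N hN => by
    rw [oS, ← div_eq_mul_inv]; exact p.hL N hN, rl_seq _⟩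

theorem re_A : RE κ0 oL (jf p Jet.A) :=
  re_seq (s := fun N => 2 * Real.pi / p.b * N) (K := 2 * Real.pi / p.b)
    (div_nonneg (by positivity) p.bpos.le) (fun N _ => Nat.cast_nonneg N) fun N _ => by
      rw [oL, abs_of_nonneg (mul_nonneg (div_nonneg (by positivity) p.bpos.le) (Nat.cast_nonneg N))]

theorem re_eps : RE κ0 oS (jf p Jet.ε) :=
  re_kap.1.m1S (re_seq (s := fun N => ((N : ℝ))⁻¹) zero_le_one
    (fun N _ => inv_nonneg.2 (Nat.cast_nonneg N)) fun N _ => by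
      rw [oS, abs_of_nonneg (inv_nonneg.2 (Nat.cast_nonneg N)), one_mul])

theorem re_psis :
    (RE κ0 o1 (jf p fun J => psi J.γ J.L J.c) ∧ RL κ0 (jf p fun J => psi J.γ J.L J.c)) ∧
      RE κ0 o1 (jf p fun J => psi1 J.γ J.L J.c) ∧ RE κ0 o1 (jf p fun J => psi2 J.γ J.L J.c) := by
  have c := re_cos (κ0 := κ0) p
  have g := re_gam (κ0 := κ0)
  have L : RE κ0 o1 (jf p Jet.L) ∧ RL κ0 (jf p Jet.L) := ⟨(re_L p).1.S1, (re_L p).2⟩
  have k : ∀ a : ℝ, RE κ0 o1 (fun _ _ _ => a) ∧ RL κ0 (fun _ _ _ => a) :=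
    fun a => ⟨re_const a, rl_const a⟩
  have add : ∀ {φ ψ : RFam}, RE κ0 o1 φ ∧ RL κ0 φ → RE κ0 o1 ψ ∧ RL κ0 ψ →
      RE κ0 o1 (fun N X x => φ N X x + ψ N X x) ∧ RL κ0 (fun N X x => φ N X x + ψ N X x) :=
    fun h h' => ⟨h.1.add h'.1, h.2.add h'.2⟩
  have mul : ∀ {φ ψ : RFam}, RE κ0 o1 φ ∧ RL κ0 φ → RE κ0 o1 ψ ∧ RL κ0 ψ →
      RE κ0 o1 (fun N X x => φ N X x * ψ N X x) ∧ RL κ0 (fun N X x => φ N X x * ψ N X x) :=
    fun h h' => ⟨h.1.m11 h'.1, h.2.mul h'.2⟩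
  have cc := mul c c
  have u := add (k 1) (mul (k (-1)) cc)
  have hp := mul (k (-2)) (mul g L)
  have hq := mul (k (1 / 3)) (mul (add (mul (k 8) (mul g g)) (mul (k (-2)) g)) L)
  have hr := add (k (1 / 2)) (mul (k (-2)) g)
  have hw := add (add (add (k (3 / 8)) (mul (k (-(5 / 3))) g)) (mul (k (2 / 3)) (mul g g)))
    (mul (k 2) (mul (mul g g) (mul L L)))
  have hR := add (add hp (mul hq u)) (mul c (add hr (mul hw u)))
  have hR1 := add (add (mul (mul (k (-2)) hq) c) hr)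
    (mul hw (add (k 1) (mul (k (-3)) cc)))
  have h0 := add c (mul u hR)
  have h1 := add (add (k 1) (mul (mul (k (-2)) c) hR)) (mul u hR1)
  have h2 := add (add (mul (k (-2)) hR) (mul (mul (k (-4)) c) hR1))
    (mul u (add (mul (k (-2)) hq) (mul (mul (k (-6)) hw) c)))
  refine ⟨⟨h0.1.congr fun N X x => ?_, h0.2.congr fun N X x => ?_⟩, h1.1.congr fun N X x => ?_,
    h2.1.congr fun N X x => ?_⟩ <;>
    simp only [jf, psi, psi1, psi2, pp, pq, pr, pw, jet] <;> ring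

theorem re_H : RE κ0 oS (jf p Jet.H) ∧ RL κ0 (jf p Jet.H) :=
  ⟨(re_L p).1.mS1 (re_psis p).1.1, (re_L p).2.mul (re_psis p).1.2⟩

theorem re_H1 : RE κ0 oS (jf p Jet.H1) := ((re_L p).1.mS1 ((re_psis p).2.1.m11 (re_sin p).1)).neg

theorem re_H2 : RE κ0 oS (jf p Jet.H2) :=
  (re_L p).1.mS1 (((re_psis p).2.2.m11 ((re_sin p).1.m11 (re_sin p).1)).sub
    ((re_psis p).2.1.m11 (re_cos p).1))

theorem re_onePlusH : RE κ0 o1 (jf p fun J => 1 + J.H) :=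
  (re_const 1).add (re_H p).1.S1

theorem re_Y1 : RE κ0 o1 (jf p Jet.Y1) := (re_qE1 p.η1).1

theorem re_Y2 : RE κ0 oL (jf p Jet.Y2) := (re_A p).add (re_qE1 p.η2).1.oneL

theorem re_p1 : RE κ0 o1 (jf p Jet.p1) := (re_const _).add ((re_const _).m11 (re_H p).1.S1)

theorem re_p2 : RE κ0 oS (jf p Jet.p2) :=
  ((re_const _).m1S ((re_H1 p).mSS (re_H1 p))).add ((re_p1 p).m1S (re_H2 p))

theorem re_v : RE κ0 o1 (jf p Jet.v) ∧ RL κ0 (jf p Jet.v) :=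
  ⟨(((re_const _).m11 (re_H p).1.S1).add
      ((re_const _).m11 ((re_H p).1.S1.m11 (re_H p).1.S1))).add re_qF.1,
    (((rl_const _).mul (re_H p).2).add ((rl_const _).mul ((re_H p).2.mul (re_H p).2))).add re_qF.2⟩

theorem re_v1 : RE κ0 o1 (jf p Jet.v1) :=
  ((re_p1 p).m11 ((re_H1 p).mS1 (re_Y1 p)).S1).add (re_qF1 p.η1).1

theorem re_v2 : RE κ0 o1 (jf p Jet.v2) :=
  ((re_p1 p).m11 ((re_H1 p).mSL (re_Y2 p))).add (re_qF1 p.η2).1

theorem re_v11 : RE κ0 o1 (jf p Jet.v11) :=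
  (((re_p2 p).mS1 ((re_Y1 p).m11 (re_Y1 p))).S1.add
    ((re_p1 p).m11 ((re_H1 p).mSL (re_qE2 p.η1 p.η1)))).add (re_qF2 p.η1 p.η1)

theorem re_v12 : RE κ0 o1 (jf p Jet.v12) :=
  (((re_p2 p).mSL ((re_Y1 p).m1L (re_Y2 p))).add
    ((re_p1 p).m11 ((re_H1 p).mSL (re_qE2 p.η1 p.η2)))).add (re_qF2 p.η1 p.η2)

theorem re_v21 : RE κ0 o1 (jf p Jet.v21) :=
  (((re_p2 p).mSL ((re_Y1 p).m1L (re_Y2 p))).add
    ((re_p1 p).m11 ((re_H1 p).mSL (re_qE2 p.η2 p.η1)))).add (re_qF2 p.η2 p.η1)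

theorem re_v22 : RE κ0 oL (jf p Jet.v22) :=
  (((((re_p2 p).mul ((re_Y2 p).mul (re_Y2 p))).cast (w1 := oL) fun N hN => by
      simp only [oS, oL]; rw [← mul_assoc, nat_inv_mul hN, one_mul]).add
    ((re_p1 p).m11 ((re_H1 p).mSL (re_qE2 p.η2 p.η2))).oneL).add (re_qF2 p.η2 p.η2).oneL)

theorem re_E : RE κ0 oS (jf p Jet.E) := (re_eps p).mS1 (RE.exp (re_v p).1 (re_v p).2)

theorem re_W1 : RE κ0 oS (jf p Jet.W1) := (re_E p).mS1 ((re_u1 p p.η1).add (re_v1 p))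

theorem re_W2 : RE κ0 oS (jf p Jet.W2) := (re_E p).mS1 ((re_u1 p p.η2).add (re_v2 p))

theorem re_W11 : RE κ0 oS (jf p Jet.W11) :=
  (re_E p).mS1 (((re_v1 p).m11 ((re_u1 p p.η1).add (re_v1 p))).add
    ((re_u2 p p.η1 p.η1).add (re_v11 p)))

theorem re_W12 : RE κ0 oS (jf p Jet.W12) :=
  (re_E p).mS1 (((re_v1 p).m11 ((re_u1 p p.η2).add (re_v2 p))).add
    ((re_u2 p p.η1 p.η2).add (re_v12 p)))

theorem re_W21 : RE κ0 oS (jf p Jet.W21) :=
  (re_E p).mS1 (((re_v2 p).m11 ((re_u1 p p.η1).add (re_v1 p))).add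
    ((re_u2 p p.η2 p.η1).add (re_v21 p)))

theorem re_W22 : RE κ0 o1 (jf p Jet.W22) :=
  (re_E p).mSL (((re_v2 p).m11 ((re_u1 p p.η2).add (re_v2 p))).oneL.add
    ((re_u2 p p.η2 p.η2).oneL.add (re_v22 p)))

theorem re_S : RE κ0 oSS (jf p Jet.S) :=
  ((re_W1 p).toSS (re_W1 p)).add ((re_W2 p).toSS (re_W2 p))

theorem re_S1 : RE κ0 oSS (jf p Jet.S1) :=
  (((re_W1 p).toSS (re_W11 p)).add ((re_W2 p).toSS (re_W12 p))).smul 2

theorem re_S2 : RE κ0 oS (jf p Jet.S2) :=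
  (((re_W1 p).mSS (re_W21 p)).add ((re_W2 p).mS1 (re_W22 p))).smul 2

theorem re_oneSubS : RE κ0 o1 (jf p fun J => 1 - J.S) :=
  (re_const 1).sub (re_S p).SStoS.S1

theorem re_M1 : RE κ0 oS (jf p Jet.M1) :=
  (((re_W2 p).toSS (re_W2 p)).SStoS.mS1 (re_Y1 p)).neg.add
    (((re_W1 p).toSS (re_W2 p)).mSSL (re_Y2 p))

theorem re_M2 : RE κ0 oS (jf p Jet.M2) :=
  (((re_W1 p).toSS (re_W2 p)).SStoS.mS1 (re_Y1 p)).sub
    (((re_W1 p).toSS (re_W1 p)).mSSL (re_Y2 p))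

theorem re_divM : RE κ0 oS (jf p Jet.divM) :=
  (((((((re_W2 p).mSS (re_W12 p)).mS1 (re_Y1 p)).smul 2).add
      (((re_W2 p).toSS (re_W2 p)).mSSL (re_qE2 p.η1 p.η1))).neg.add
    (((((re_W11 p).toSS (re_W2 p)).add ((re_W1 p).toSS (re_W12 p))).mSSL (re_Y2 p)).add
      (((re_W1 p).toSS (re_W2 p)).mSSL (re_qE2 p.η1 p.η2))))).add
    ((((((re_W21 p).mSS (re_W2 p)).add ((re_W1 p).mS1 (re_W22 p))).mS1 (re_Y1 p)).add
        (((re_W1 p).toSS (re_W2 p)).mSSL (re_qE2 p.η2 p.η1))).sub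
      (((((re_W1 p).toSS (re_W21 p)).mSSL (re_Y2 p)).smul 2).add
        (((re_W1 p).toSS (re_W1 p)).mSSL (re_qE2 p.η2 p.η2))))

theorem re_De : RE κ0 oL (jf p fun J => J.e11 + J.e22) :=
  (re_qE2 p.η1 p.η1).add (re_qE2 p.η2 p.η2)

theorem re_Q1 : RE κ0 oS (jf p Jet.Q1) :=
  (re_M1 p).add (((re_S p).SStoS.mS1 (re_Y1 p)).smul (1 / 2))

theorem re_Q2 : RE κ0 oS (jf p Jet.Q2) :=
  (re_M2 p).add (((re_S p).mSSL (re_Y2 p)).smul (1 / 2))

theorem re_dQ : RE κ0 o1 (jf p Jet.dQ) :=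
  (re_divM p).S1.add ((((((re_S1 p).SStoS.mS1 (re_Y1 p)).S1).add ((re_S2 p).mSL (re_Y2 p))).add
    ((re_S p).mSSL (re_De p)).S1).smul (1 / 2))

theorem re_X : RE κ0 oS (jf p Jet.X) :=
  ((((re_S p).mSSL (re_De p))).smul (-(3 / 2))).add
    ((((re_S p).SStoS.mSS (re_divM p))).neg.add
      ((((re_S1 p).SStoS.mSS (re_M1 p)).add ((re_S2 p).mSS (re_M2 p))).smul (1 / 2)))

theorem re_YY : RE κ0 oLL (jf p fun J => J.Y1 * J.Y1 + J.Y2 * J.Y2) :=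
  ((re_Y1 p).oneL.mul (re_Y1 p).oneL).add ((re_Y2 p).mul (re_Y2 p))

theorem re_RK : RE κ0 oS (jf p Jet.RK) := by
  have hP := re_onePlusH (κ0 := κ0) p
  have hH := (re_H (κ0 := κ0) p).1
  have hG : RE κ0 oS (jf p fun J => (1 + J.H) * J.H2 - J.H1 * J.H1) :=
    (hP.m1S (re_H2 p)).sub ((re_H1 p).mSS (re_H1 p))
  have t1a : RE κ0 oSSS (jf p fun J => (J.H1 * J.H1) * (2 * J.H + J.H * J.H)) :=
    ((re_H1 p).toSS (re_H1 p)).mul ((hH.smul 2).add (hH.mSS hH))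
  have t1b : RE κ0 oSSS (jf p fun J => ((1 + J.H) * J.H2) * (J.H * J.H)) :=
    ((hP.m1S (re_H2 p)).mul (hH.toSS hH)).cast fun N _ => by simp only [oS, oSS, oSSS]; ring
  have t1 := ((t1a.smul (1 / 2)).add (t1b.smul (1 / 2))).mSSS_LL (re_YY p)
  have t2 : RE κ0 oS (jf p fun J =>
      (1 / 2) * (((1 + J.H) * (J.H * J.H)) * (J.H1 * (J.e11 + J.e22)))) :=
    ((hP.m1S (hH.mSS hH)).mS1 ((re_H1 p).mSL (re_De p))).smul _
  have t3 : RE κ0 oS (jf p fun J => (2 * J.H + J.H * J.H) * (J.f11 + J.f22)) :=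
    ((hH.smul 2).add (hH.mSS hH)).mS1 ((re_qF2 p.η1 p.η1).add (re_qF2 p.η2 p.η2))
  have t4 : RE κ0 oS (jf p fun J => -(((1 + J.H) * (1 + J.H)) * (J.S * (J.v11 + J.v22)))) :=
    ((hP.m11 hP).m1S ((re_S p).mSSL ((re_v11 p).oneL.add (re_v22 p)))).neg
  have t5 : RE κ0 oS (jf p fun J => -((1 / 2) * (((1 + J.H) * J.H2 - J.H1 * J.H1) *
      (J.S * (J.Y1 * J.Y1 + J.Y2 * J.Y2))))) :=
    ((hG.mS1 (((re_S p).mul (re_YY p)).cast (w1 := o1) fun N hN => by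
      have h := nat_inv_mul hN
      simp only [oSS, oLL, o1]
      linear_combination (((N : ℝ))⁻¹ * N + 1) * h)).smul (1 / 2)).neg
  have t6 : RE κ0 oS (jf p fun J =>
      -((1 / 2) * (((1 + J.H) * J.H1) * (J.S * (J.e11 + J.e22))))) :=
    (((hP.m1S (re_H1 p)).mSS ((re_S p).mSSL (re_De p))).smul (1 / 2)).neg
  have t7 : RE κ0 oS (jf p fun J => (1 / 2) * (((1 + J.H) * J.H2 - J.H1 * J.H1) *
      ((1 - J.S) * (J.Y1 * J.M1 + J.Y2 * J.M2)))) :=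
    (hG.mS1 ((re_oneSubS p).m11 (((re_Y1 p).m1S (re_M1 p)).S1.add ((re_Y2 p).mLS (re_M2 p))))).smul _
  have t8 : RE κ0 oS (jf p fun J => ((1 + J.H) * (1 + J.H)) *
      ((1 / 2) * (J.S1 * J.v1 + J.S2 * J.v2) - (J.W11 * J.W22 - J.W21 * J.W12))) :=
    (hP.m11 hP).m1S (((((re_S1 p).SStoS.mS1 (re_v1 p))).add ((re_S2 p).mS1 (re_v2 p))).smul (1 / 2)
      |>.sub (((re_W11 p).mS1 (re_W22 p)).sub ((re_W21 p).mSS (re_W12 p))))
  have hPa : RE κ0 oL (jf p Jet.P1) := ((re_Y1 p).add (re_M1 p).S1).oneL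
  have hPb : RE κ0 oL (jf p Jet.P2) := (re_Y2 p).add (re_M2 p).S1.oneL
  have t9 : RE κ0 oS (jf p fun J => (1 / 2) * (((1 + J.H) * J.H1) *
      ((1 - J.S) * J.divM + (1 / 2) * (J.S1 * J.P1 + J.S2 * J.P2)))) :=
    ((hP.m1S (re_H1 p)).mS1 (((re_oneSubS p).m1S (re_divM p)).S1.add
      (((((re_S1 p).mSSL hPa).S1).add ((re_S2 p).mSL hPb)).smul (1 / 2)))).smul _
  exact ((((((((t1.add t2).add t3).add t4).add t5).add t6).add t7).add t8).add t9).congr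
    fun N X x => rfl

end Vale.Agent.P205.Full.Klein
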