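import Vale.Agent.P205.Full.Klein.Deriv

/-!
The glide symmetry of the coefficient families and of the jets.
-/

open scoped ContDiff
open Complex

namespace Vale.Agent.P205.Full.Klein

/-- Reflection of a frequency. -/
def refl2 : Z2 ≃ Z2 where
  toFun k := (k.1, -k.2)
  invFun k := (k.1, -k.2)
  left_inv k := by simp
  right_inv k := by simp

/-- The action of the glide on coefficient families. -/
noncomputable def Tk (c : Coef) : Coef := fun k => (-1 : ℂ) ^ k.1 * c (refl2 k)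

theorem norm_Tk (c : Coef) (k : Z2) : ‖Tk c k‖ = ‖c (refl2 k)‖ := by simp [Tk]

theorem wt_refl2 (k : Z2) : wt (refl2 k) = wt k := by simp [wt, refl2]

theorem Mem.tk {m : ℕ} {c : Coef} (hc : Mem m c) : Mem m (Tk c) := by
  refine ((refl2.summable_iff (f := fun k => wt k ^ m * ‖c k‖)).2 hc).congr fun k => ?_
  simp [norm_Tk, wt_refl2]

theorem ch_glide (k : Z2) (x : Pl) : ch k (glide x) = (-1 : ℂ) ^ k.1 * ch (refl2 k) x := by
  rw [← Complex.exp_pi_mul_I, ← Complex.exp_int_mul, ch, ch, ← Complex.exp_add]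
  congr 1
  simp [refl2, glide]
  ring

theorem ev_Tk (c : Coef) (x : Pl) : ev (Tk c) x = ev c (glide x) := by
  rw [ev, ev, ← refl2.tsum_eq (fun k => c k * ch k (glide x))]
  refine tsum_congr fun k => ?_
  rw [ch_glide, Tk]
  have : refl2 (refl2 k) = k := refl2.left_inv k
  rw [this]
  simp [refl2]
  ring

theorem dC_Tk1 (p : Dat) (c : Coef) : dC p.η1 (Tk c) = Tk (dC p.η1 c) := by
  funext k; simp [dC, Tk, dsym, Dat.η1, refl2]; ring

theorem dC_Tk2 (p : Dat) (c : Coef) : dC p.η2 (Tk c) = -Tk (dC p.η2 c) := by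
  funext k; simp [dC, Tk, dsym, Dat.η2, refl2]; ring

theorem linv_Tk (p : Dat) (c : Coef) : linv p.η1 p.η2 (Tk c) = Tk (linv p.η1 p.η2 c) := by
  funext k
  have h1 : refl2 k = 0 ↔ k = 0 := by simp [refl2, Prod.ext_iff]
  have h2 : lsym p.η1 p.η2 (refl2 k) = lsym p.η1 p.η2 k := by
    simp [lsym, Dat.η1, Dat.η2, refl2]
  simp only [linv, Tk, h1, h2]
  split_ifs <;> ring

theorem Tk_neg (c : Coef) : Tk (-c) = -Tk c := by funext k; simp [Tk]

theorem Tk_add (c d : Coef) : Tk (c + d) = Tk c + Tk d := by funext k; simp [Tk]; ring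

theorem sqCoef_glide {g : Pl → ℂ} (hg : SP g) {s : ℂ} (h : ∀ x, g (glide x) = s * g x) :
    Tk (sqCoef g) = s • sqCoef g := by
  rw [← sqCoef_smul s hg]
  exact (sqCoef_eq (Mem.tk (mem_sqCoef hg 0)) fun x => by rw [ev_Tk, ev_sqCoef hg, h]).symm

/-- The symmetry of the unknowns. -/
def Par (X : St) : Prop := Tk X.f = X.f ∧ Tk X.e = -X.e

theorem der_glide {g : Pl → ℝ} (hg : ContDiff ℝ ∞ g) {s : ℝ} (h : ∀ x, g (glide x) = s * g x)
    (a b : ℝ) (x : Pl) : der (a, -b) g (glide x) = s * der (a, b) g x := by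
  have hl : HasFDerivAt glide
      ((ContinuousLinearMap.fst ℝ ℝ ℝ).prod (-ContinuousLinearMap.snd ℝ ℝ ℝ)) x := by
    have := ((hasFDerivAt_fst (𝕜 := ℝ) (E := ℝ) (F := ℝ) (p := x)).add_const (1 / 2)).prodMk
      (hasFDerivAt_snd (𝕜 := ℝ) (E := ℝ) (F := ℝ) (p := x)).fun_neg
    exact this
  have h1 := ((hg.differentiable (by simp) (glide x)).hasFDerivAt.comp x hl)
  have h2 : HasFDerivAt (g ∘ glide) (s • fderiv ℝ g x) x :=
    ((hg.differentiable (by simp) x).hasFDerivAt.const_mul s).congr_of_eventuallyEq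
      (Filter.Eventually.of_forall h)
  have := congrArg (fun T : Pl →L[ℝ] ℝ => T (a, b)) (h1.unique h2)
  simpa [der] using this

variable (p : Dat) {κ0 B : ℝ} {N : ℕ} {X : St}

theorem jet_glide (hP : Par X) (x : Pl) :
    jet p N X (glide x) = (jet p N X x).flip := by
  have du : ∀ y, der p.η1 p.u (glide y) = 1 * der p.η1 p.u y ∧
      der p.η2 p.u (glide y) = -1 * der p.η2 p.u y := by
    intro y
    have h1 := der_glide p.hu.smooth (s := 1) (fun z => by rw [p.usym, one_mul]) (1 / p.a) 0 y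
    have h2 := der_glide p.hu.smooth (s := 1) (fun z => by rw [p.usym, one_mul]) 0 (1 / p.b) y
    rw [neg_zero] at h1
    refine ⟨h1, ?_⟩
    have e : ((0, -(1 / p.b)) : Pl) = -p.η2 := by simp [Dat.η2]
    rw [e, one_mul] at h2
    simp only [der, map_neg] at h2 ⊢
    change -(fderiv ℝ p.u (glide y) p.η2) = fderiv ℝ p.u y p.η2 at h2
    linarith
  have duu : ∀ (η : Pl) (s : ℝ), (∀ y, der η p.u (glide y) = s * der η p.u y) →
      der p.η1 (der η p.u) (glide x) = s * der p.η1 (der η p.u) x ∧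
      der p.η2 (der η p.u) (glide x) = -(s * der p.η2 (der η p.u) x) := by
    intro η s hs
    have hd := (p.hu.derR η).smooth
    have h1 := der_glide hd hs (1 / p.a) 0 x
    have h2 := der_glide hd hs 0 (1 / p.b) x
    rw [neg_zero] at h1
    refine ⟨h1, ?_⟩
    have e : ((0, -(1 / p.b)) : Pl) = -p.η2 := by simp [Dat.η2]
    rw [e] at h2
    simp only [der, map_neg] at h2 ⊢
    change -(fderiv ℝ (der η p.u) (glide x) p.η2) = s * fderiv ℝ (der η p.u) x p.η2 at h2
    change fderiv ℝ (der η p.u) (glide x) p.η2 = -(s * fderiv ℝ (der η p.u) x p.η2)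
    linarith
  have a1 := (du x).1
  have a2 := (du x).2
  obtain ⟨a11, a21⟩ := duu p.η1 1 fun y => (du y).1
  obtain ⟨a12, a22⟩ := duu p.η2 (-1) fun y => (du y).2
  have ev_neg' : ∀ c : Coef, (ev (-c) x).re = -(ev c x).re := fun c => by
    rw [Full.ev_neg, Complex.neg_re]
  have E : ∀ c : Coef, (ev c (glide x)).re = (ev (Tk c) x).re := fun c => by rw [ev_Tk]
  have nd : ∀ (η : Pl) (c : Coef), dC η (-c) = -dC η c := fun η c => by funext k; simp [dC]
  have t1 : ∀ c, Tk (dC p.η1 c) = dC p.η1 (Tk c) := fun c => (dC_Tk1 p c).symm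
  have t2 : ∀ c, Tk (dC p.η2 c) = -dC p.η2 (Tk c) := fun c => by rw [dC_Tk2, neg_neg]
  have hY : hY0 N (glide x) + qE N X (glide x) = -(hY0 N x + qE N X x) := by
    simp only [qE, E, hP.2, ev_neg']
    simp [hY0, glide]
    ring
  simp only [jet, Jet.flip, hY, Real.cos_neg, Real.sin_neg, qF, qF1, qE1, qF2, qE2, E,
    t1, t2, nd, ev_neg', neg_neg, a1, a2, a11, a12, a21, a22, one_mul, neg_mul,
    hP.1, hP.2]

theorem cf_glide {g : Jet → ℝ} {s : ℝ} (hg : ∀ J : Jet, g J.flip = s * g J) (hP : Par X)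
    (hs : SP (cpx (jf p g) N X)) :
    Tk (cf (cpx (jf p g)) N X) = (s : ℂ) • cf (cpx (jf p g)) N X :=
  sqCoef_glide hs fun x => by
    simp only [cpx, jf, jet_glide p hP x, hg]
    push_cast; ring

end Vale.Agent.P205.Full.Klein
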