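import Vale.Agent.P205.Full.Klein.Step

/-!
The scalar part of the step.
-/

open scoped ContDiff
open Complex MeasureTheory

namespace Vale.Agent.P205.Full.Klein

variable (p : Dat)

theorem continuous_sp_real {φ : RFam} {N : ℕ} {X : St} (h : SP (cpx φ N X)) :
    Continuous (φ N X) := by
  simpa [cpx, Function.comp_def] using Complex.continuous_re.comp h.smooth.continuous

theorem abs_ev_re_le {c : Coef} (hc : Mem 2 c) (x : Pl) : |(ev c x).re| ≤ nrm 2 c :=
  (Complex.abs_re_le_norm _).trans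
    ((norm_ev_le (hc.mono (Nat.zero_le 2)) x).trans (nrm_mono (Nat.zero_le 2) hc))

theorem nat_small (a r : ℝ) (hr : 0 < r) : ∃ M : ℕ, 1 ≤ M ∧ ∀ N, M ≤ N → a / N < r := by
  obtain ⟨M, hM⟩ := exists_nat_gt (|a| / r)
  refine ⟨M + 1, by omega, fun N hN => ?_⟩
  have hNp : (0 : ℝ) < N := by exact_mod_cast (lt_of_lt_of_le M.succ_pos hN)
  rw [div_lt_iff₀ hNp]
  rw [div_lt_iff₀ hr] at hM
  have : (M : ℝ) ≤ N := by exact_mod_cast (Nat.le_of_succ_le hN)
  nlinarith [le_abs_self a, mul_le_mul_of_nonneg_right this hr.le]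

theorem newG_spec {κ0 Kb : ℝ} (hKb : 0 ≤ Kb)
    (hk : ∀ N, 1 ≤ N → |kN p N - p.c0 ^ 2 / 8| ≤ Kb / N) :
    ∃ G0, 0 ≤ G0 ∧ ∀ B, 0 ≤ B → ∃ (C : ℝ) (N0 : ℕ), 0 ≤ C ∧ 1 ≤ N0 ∧
      ∀ N, N0 ≤ N → ∀ X, InBall κ0 B N X → |newG p N X - 1 / 2| ≤ (G0 + C / N) / N ∧
        ∀ Y, InBall κ0 B N Y → |newG p N X - newG p N Y| ≤ C / N / N * dst N X Y := by
  obtain ⟨r, K, hr, hK, hflux, hg, -⟩ := scalar_lip p
  obtain ⟨C2, hC2, h2⟩ := (re_qR2 (κ0 := κ0) p).small
  obtain ⟨CS, hCS, hS⟩ := (re_S (κ0 := κ0) p).SStoS.small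
  refine ⟨K * (Kb + K * (C2 + CS)), by positivity, fun B hB => ?_⟩
  obtain ⟨C2', M1, hC2', hM1, h2'⟩ := h2 B hB
  obtain ⟨CS', M2, hCS', hM2, hS'⟩ := hS B hB
  set A := C2 + CS + C2' + CS' with hA
  obtain ⟨M3, hM3, hsm⟩ := nat_small (A + Kb + K * A) (min r (1 / 2)) (lt_min hr one_half_pos)
  refine ⟨K * (K * (C2' + CS')), max (max M1 M2) M3, by positivity,
    le_trans hM3 (le_max_right _ _), fun N hN X hX => ?_⟩
  obtain ⟨-, s2⟩ := h2' N (le_trans (le_trans (le_max_left _ _) (le_max_left _ _)) hN)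
  obtain ⟨-, sS⟩ := hS' N (le_trans (le_trans (le_max_right _ _) (le_max_left _ _)) hN)
  have hN1 : 1 ≤ N := le_trans hM3 (le_trans (le_max_right _ _) hN)
  have hNp : (0 : ℝ) < N := by exact_mod_cast hN1
  have hN1' : (1 : ℝ) ≤ N := by exact_mod_cast hN1
  have hlt1 := lt_of_lt_of_le (hsm N (le_trans (le_max_right _ _) hN)) (min_le_right r (1 / 2))
  have hlt := lt_of_lt_of_le (hsm N (le_trans (le_max_right _ _) hN)) (min_le_left r (1 / 2))
  have hAp : 0 ≤ A := by positivity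
  have small : ∀ a : ℝ, a ≤ A + Kb + K * A → a / N < r := fun a ha =>
    lt_of_le_of_lt (div_le_div_of_nonneg_right ha hNp.le) hlt
  have hC2A : C2 + C2' / N ≤ A := by
    have : C2' / N ≤ C2' := div_le_self hC2' hN1'
    rw [hA]; linarith
  have hCSA : CS + CS' / N ≤ A := by
    have : CS' / N ≤ CS' := div_le_self hCS' hN1'
    rw [hA]; linarith
  have hKA : 0 ≤ K * A := mul_nonneg hK hAp
  have b2 : ∀ Z, InBall κ0 B N Z → ∀ x, |qR2 p N Z x| < r ∧ |(jet p N Z x).S| < r ∧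
      |qR2 p N Z x| ≤ (C2 + C2' / N) * (1 / N) ∧ |(jet p N Z x).S| ≤ (CS + CS' / N) * (1 / N) := by
    intro Z hZ x
    have u1 := s2.pt Z hZ x
    have u2 := sS.pt Z hZ x
    simp only [oS, jf] at u1 u2
    rw [← one_div] at u1 u2
    refine ⟨lt_of_le_of_lt u1 ?_, lt_of_le_of_lt u2 ?_, u1, u2⟩ <;> rw [mul_one_div]
    · exact small _ (by linarith)
    · exact small _ (by linarith)
  have hInt : ∀ Z, InBall κ0 B N Z → IntervalIntegrable
      (fun t : ℝ => (p.c0 + qR2 p N Z (t, 0)) / Real.sqrt (1 - (jet p N Z (t, 0)).S))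
      volume 0 (1 / 2) := by
    intro Z hZ
    have hS1 : ∀ x, (jet p N Z x).S < 1 := by
      intro x
      by_contra h
      have := (b2 Z hZ x).2.2.2
      have hh : |(jet p N Z x).S| ≤ A * (1 / N) :=
        this.trans (mul_le_mul_of_nonneg_right hCSA (by positivity))
      rw [mul_one_div, le_div_iff₀ hNp] at hh
      have : 1 ≤ |(jet p N Z x).S| := le_trans (not_lt.1 h) (le_abs_self _)
      nlinarith [(div_lt_iff₀ hNp).1 hlt1]
    have c1 : Continuous fun t : ℝ => ((t, 0) : Pl) := by fun_prop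
    refine Continuous.intervalIntegrable (Continuous.div
      (continuous_const.add ((continuous_sp_real (s2.sp Z hZ)).comp c1))
      (Continuous.sqrt (continuous_const.sub ((continuous_sp_real (sS.sp Z hZ)).comp c1)))
      fun t => ?_) _ _
    exact Real.sqrt_ne_zero'.2 (sub_pos.2 (hS1 (t, 0)))
  have hc : ∫ _ in (0 : ℝ)..(1 / 2), p.c0 = p.c0 / 2 := by simp; ring
  have hJ : ∀ Z, InBall κ0 B N Z →
      |Jint p N Z - p.c0 / 2| ≤ K * ((C2 + C2' / N) + (CS + CS' / N)) / N := by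
    intro Z hZ
    rw [Jint, ← hc, ← intervalIntegral.integral_sub (hInt Z hZ) intervalIntegrable_const]
    rw [← Real.norm_eq_abs]
    refine (intervalIntegral.norm_integral_le_of_norm_le_const
      (C := K * ((C2 + C2' / N) + (CS + CS' / N)) / N) fun t _ => ?_).trans ?_
    · obtain ⟨r1, r2, u1, u2⟩ := b2 Z hZ (t, 0)
      have h0 : |(0 : ℝ)| < r := by simpa using hr
      have := hflux _ _ 0 0 r1 r2 h0 h0
      simp only [add_zero, sub_zero, Real.sqrt_one, div_one] at this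
      rw [Real.norm_eq_abs]
      refine this.trans ?_
      rw [mul_div_assoc]
      refine mul_le_mul_of_nonneg_left ?_ hK
      rw [add_div, ← mul_one_div, ← mul_one_div (CS + CS' / N)]
      exact add_le_add u1 u2
    · rw [abs_of_nonneg (by norm_num : (0 : ℝ) ≤ 1 / 2 - 0)]
      have : 0 ≤ K * ((C2 + C2' / N) + (CS + CS' / N)) / N := by positivity
      linarith
  have hkr : |kN p N - p.c0 ^ 2 / 8| < r :=
    lt_of_le_of_lt (hk N hN1) (small _ (by linarith))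
  have hJA : ∀ Z, InBall κ0 B N Z → |Jint p N Z - p.c0 / 2| < r := fun Z hZ => by
    refine lt_of_le_of_lt (hJ Z hZ) (small _ ?_)
    have : C2' / N ≤ C2' := div_le_self hC2' hN1'
    have : CS' / N ≤ CS' := div_le_self hCS' hN1'
    have : K * ((C2 + C2' / N) + (CS + CS' / N)) ≤ K * A :=
      mul_le_mul_of_nonneg_left (by rw [hA]; linarith) hK
    linarith
  refine ⟨?_, fun Y hY => ?_⟩
  · have e : p.c0 ^ 2 / 8 / (p.c0 / 2) ^ 2 = 1 / 2 := by
      have := (c0_pos p).ne'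
      field_simp; ring
    have h0 : |p.c0 ^ 2 / 8 - p.c0 ^ 2 / 8| < r := by simpa using hr
    have h0' : |p.c0 / 2 - p.c0 / 2| < r := by simpa using hr
    have := hg _ _ _ _ hkr (hJA X hX) h0 h0'
    rw [e] at this
    refine this.trans ((mul_le_mul_of_nonneg_left (add_le_add (hk N hN1) (hJ X hX)) hK).trans
      (le_of_eq ?_))
    field_simp
    ring
  · refine (hg _ _ _ _ hkr (hJA X hX) hkr (hJA Y hY)).trans ?_
    rw [sub_self, abs_zero, zero_add]
    have hdiff : |Jint p N X - Jint p N Y| ≤ K * (C2' + CS') / N / N * dst N X Y := by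
      rw [Jint, Jint, ← intervalIntegral.integral_sub (hInt X hX) (hInt Y hY)]
      rw [← Real.norm_eq_abs]
      refine (intervalIntegral.norm_integral_le_of_norm_le_const
        (C := K * (C2' + CS') / N / N * dst N X Y) fun t _ => ?_).trans ?_
      · obtain ⟨r1, r2, -, -⟩ := b2 X hX (t, 0)
        obtain ⟨q1, q2, -, -⟩ := b2 Y hY (t, 0)
        rw [Real.norm_eq_abs]
        refine (hflux _ _ _ _ r1 r2 q1 q2).trans ((mul_le_mul_of_nonneg_left
          (add_le_add (s2.ptlip X Y hX hY (t, 0)) (sS.ptlip X Y hX hY (t, 0))) hK).trans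
          (le_of_eq ?_))
        simp only [oS]; ring
      · rw [abs_of_nonneg (by norm_num : (0 : ℝ) ≤ 1 / 2 - 0)]
        have : 0 ≤ K * (C2' + CS') / N / N * dst N X Y :=
          mul_nonneg (by positivity) (dst_nonneg _ _ _)
        linarith
    refine (mul_le_mul_of_nonneg_left hdiff hK).trans (le_of_eq ?_)
    ring

theorem newK_spec {κ0 : ℝ} (hκ : κ0 = p.κ0) :
    ∃ C1 C2 : ℝ, 0 ≤ C1 ∧ 0 < C2 ∧ ∀ B, 0 ≤ B → ∃ (C : ℝ) (N0 : ℕ), 0 ≤ C ∧ 1 ≤ N0 ∧
      ∀ N, N0 ≤ N → ∀ F G : ℝ, 0 ≤ F → 0 ≤ G → F / N < 1 / C2 → G / N < 1 / C2 →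
        ∀ X, InBall κ0 B N X → Mem 2 (newF p N X) → nrm 2 (newF p N X) ≤ F / N →
        |newG p N X - 1 / 2| ≤ G / N →
        |newK p N X - κ0| ≤ C1 * (1 + C / N + F + G) / N ∧
        ∀ Y, InBall κ0 B N Y → Mem 2 (newF p N Y) → nrm 2 (newF p N Y) ≤ F / N →
        |newG p N Y - 1 / 2| ≤ G / N →
          |newK p N X - newK p N Y| ≤ C / N / N * dst N X Y +
            C1 * (nrm 2 (newF p N X - newF p N Y) + |newG p N X - newG p N Y|) := by
  obtain ⟨r, K, hr, hK, -, -, hφ⟩ := scalar_lip p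
  obtain ⟨CS, hCS, hS⟩ := (re_S (κ0 := κ0) p).SStoS.small
  obtain ⟨CP, hCP, hP⟩ := (re_qPH (κ0 := κ0) p).small
  obtain ⟨CH, hCH, hH⟩ := (re_H (κ0 := κ0) p).1.small
  obtain ⟨CR, hCR, hR⟩ := (re_qR0 (κ0 := κ0) p).small
  refine ⟨K * (1 + CS + CP + CH + CR), 2 / r, by positivity, by positivity, fun B hB => ?_⟩
  obtain ⟨CS', M1, hCS', -, hS'⟩ := hS B hB
  obtain ⟨CP', M2, hCP', -, hP'⟩ := hP B hB
  obtain ⟨CH', M3, hCH', -, hH'⟩ := hH B hB
  obtain ⟨CR', M4, hCR', -, hR'⟩ := hR B hB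
  set A := CS + CP + CH + CR + CS' + CP' + CH' + CR' with hA
  obtain ⟨M5, hM5, hsm⟩ := nat_small A (r / 2) (half_pos hr)
  refine ⟨(1 + K) * (CS' + CP' + CH' + CR'), max (max (max M1 M2) (max M3 M4)) M5, by positivity,
    le_trans hM5 (le_max_right _ _), fun N hN F G hF hG hFr hGr X hX hfm hfn hgn => ?_⟩
  have hN' := le_trans (le_max_left _ _) hN
  obtain ⟨-, sS⟩ := hS' N (le_trans (le_trans (le_max_left M1 M2) (le_max_left _ _)) hN')
  obtain ⟨-, sP⟩ := hP' N (le_trans (le_trans (le_max_right M1 M2) (le_max_left _ _)) hN')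
  obtain ⟨-, sH⟩ := hH' N (le_trans (le_trans (le_max_left M3 M4) (le_max_right _ _)) hN')
  obtain ⟨-, sR⟩ := hR' N (le_trans (le_trans (le_max_right M3 M4) (le_max_right _ _)) hN')
  have hN1 : 1 ≤ N := le_trans hM5 (le_trans (le_max_right _ _) hN)
  have hNp : (0 : ℝ) < N := by exact_mod_cast hN1
  have hN1' : (1 : ℝ) ≤ N := by exact_mod_cast hN1
  have hlt := hsm N (le_trans (le_max_right _ _) hN)
  rw [one_div_div] at hFr hGr
  have bounds : ∀ Z, InBall κ0 B N Z → Mem 2 (newF p N Z) → nrm 2 (newF p N Z) ≤ F / N →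
      |newG p N Z - 1 / 2| ≤ G / N →
      |(jet p N Z 0).S| < r ∧ |qPH p N Z 0 + (ev (newF p N Z) 0).re| < r ∧
      |newG p N Z - 1 / 2| < r ∧ |(jet p N Z 0).H| < r ∧ |qR0 p N Z 0| < r ∧
      |(jet p N Z 0).S| + |qPH p N Z 0 + (ev (newF p N Z) 0).re| + |newG p N Z - 1 / 2| +
        |(jet p N Z 0).H| + |qR0 p N Z 0| ≤
          ((CS + CS' / N) + (CP + CP' / N) + (CH + CH' / N) + (CR + CR' / N) + F + G) / N := by
    intro Z hZ hm hn hg
    have u1 := sS.pt Z hZ 0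
    have u2 := sP.pt Z hZ 0
    have u3 := sH.pt Z hZ 0
    have u4 := sR.pt Z hZ 0
    simp only [oS, jf, ← div_eq_mul_inv] at u1 u2 u3 u4
    have u5 := (abs_ev_re_le hm 0).trans hn
    have w1 : CS' / N ≤ CS' := div_le_self hCS' hN1'
    have w2 : CP' / N ≤ CP' := div_le_self hCP' hN1'
    have w3 : CH' / N ≤ CH' := div_le_self hCH' hN1'
    have w4 : CR' / N ≤ CR' := div_le_self hCR' hN1'
    have lt : ∀ a : ℝ, a ≤ A → a / N < r / 2 := fun a ha =>
      lt_of_le_of_lt (div_le_div_of_nonneg_right ha hNp.le) hlt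
    have a2 := (abs_add_le (qPH p N Z 0) (ev (newF p N Z) 0).re).trans (add_le_add u2 u5)
    refine ⟨?_, ?_, ?_, ?_, ?_, ?_⟩
    · linarith [lt (CS + CS' / N) (by rw [hA]; linarith)]
    · linarith [lt (CP + CP' / N) (by rw [hA]; linarith)]
    · linarith
    · linarith [lt (CH + CH' / N) (by rw [hA]; linarith)]
    · linarith [lt (CR + CR' / N) (by rw [hA]; linarith)]
    · simp only [add_div] at *
      linarith
  obtain ⟨x1, x2, x3, x4, x5, xs⟩ := bounds X hX hfm hfn hgn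
  have z0 : |(0 : ℝ)| < r := by simpa using hr
  have z1 : |(1 / 2 : ℝ) - 1 / 2| < r := by simpa using hr
  refine ⟨?_, fun Y hY hfm' hfn' hgn' => ?_⟩
  · rw [hκ, ← kapFun_ctr p]
    have := hφ _ _ _ _ _ 0 0 (1 / 2) 0 0 x1 x2 x3 x4 x5 z0 z0 z1 z0 z0
    simp only [sub_zero] at this
    refine this.trans ((mul_le_mul_of_nonneg_left xs hK).trans ?_)
    rw [← mul_div_assoc]
    refine div_le_div_of_nonneg_right ?_ hNp.le
    rw [mul_assoc K]
    refine mul_le_mul_of_nonneg_left ?_ hK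
    have h1 : (1 + K) * (CS' + CP' + CH' + CR') / N ≥ CS' / N + CP' / N + CH' / N + CR' / N := by
      rw [← add_div, ← add_div, ← add_div]
      refine div_le_div_of_nonneg_right ?_ hNp.le
      have : 0 ≤ K * (CS' + CP' + CH' + CR') := by positivity
      linarith
    have h2 : 0 ≤ (1 + K) * (CS' + CP' + CH' + CR') / N := by positivity
    have h3 : 0 ≤ CS + CP + CH + CR := by positivity
    nlinarith [mul_nonneg h3 (add_nonneg (add_nonneg h2 hF) hG)]
  · obtain ⟨y1, y2, y3, y4, y5, -⟩ := bounds Y hY hfm' hfn' hgn'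
    refine (hφ _ _ _ _ _ _ _ _ _ _ x1 x2 x3 x4 x5 y1 y2 y3 y4 y5).trans ?_
    have v1 := sS.ptlip X Y hX hY 0
    have v2 := sP.ptlip X Y hX hY 0
    have v3 := sH.ptlip X Y hX hY 0
    have v4 := sR.ptlip X Y hX hY 0
    simp only [oS, jf] at v1 v2 v3 v4
    have v5 : |(ev (newF p N X) 0).re - (ev (newF p N Y) 0).re| ≤
        nrm 2 (newF p N X - newF p N Y) := by
      rw [← Complex.sub_re, ← ev_sub (hfm.mono (Nat.zero_le 2)) (hfm'.mono (Nat.zero_le 2))]
      exact abs_ev_re_le (hfm.sub hfm') 0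
    have a2 : |qPH p N X 0 + (ev (newF p N X) 0).re - (qPH p N Y 0 + (ev (newF p N Y) 0).re)| ≤
        CP' * (((N : ℝ))⁻¹ / N) * dst N X Y + nrm 2 (newF p N X - newF p N Y) := by
      rw [add_sub_add_comm]; exact (abs_add_le _ _).trans (add_le_add v2 v5)
    refine (mul_le_mul_of_nonneg_left
      (add_le_add (add_le_add (add_le_add (add_le_add v1 a2) le_rfl) v3) v4) hK).trans ?_
    have hd : 0 ≤ ((N : ℝ))⁻¹ / N * dst N X Y := mul_nonneg (by positivity) (dst_nonneg _ _ _)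
    have hn0 := nrm_nonneg 2 (newF p N X - newF p N Y)
    have hg0 := abs_nonneg (newG p N X - newG p N Y)
    have : 0 ≤ (CS' + CP' + CH' + CR') * (((N : ℝ))⁻¹ / N * dst N X Y) := by positivity
    have : 0 ≤ K * (CS + CP + CH + CR) * (nrm 2 (newF p N X - newF p N Y) +
        |newG p N X - newG p N Y|) := by positivity
    have e : (1 + K) * (CS' + CP' + CH' + CR') / N / N * dst N X Y =
        (1 + K) * ((CS' + CP' + CH' + CR') * (((N : ℝ))⁻¹ / N * dst N X Y)) := by ring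
    rw [e]
    linarith

end Vale.Agent.P205.Full.Klein
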