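import Vale.Agent.P205.Full.Klein.Bound
import Vale.Agent.P205.Full.Solve

/-!
The contraction map of the Klein bottle problem.
-/

open scoped ContDiff
open Complex

namespace Vale.Agent.P205.Full.Klein

variable (p : Dat)

/-- The leading slope of the height. -/
noncomputable def Dat.c0 : ℝ := 2 * Real.pi / p.b

/-- The reference scale. -/
noncomputable def Dat.κ0 : ℝ := Real.sqrt (1 / (1 / 2 * p.c0 ^ 2))

/-- The normalised flux correction. -/
noncomputable def qR2 : RFam := fun N X x => ((N : ℝ))⁻¹ * ((jet p N X x).e2 + (jet p N X x).M2)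

/-- The normalised energy correction. -/
noncomputable def qR0 : RFam := fun N X x => ((N : ℝ))⁻¹ * ((N : ℝ))⁻¹ *
  (((jet p N X x).Y1 * ((jet p N X x).Y1 + (jet p N X x).M1) +
      (jet p N X x).Y2 * (jet p N X x).M2) +
    (2 * ((jet p N X x).A * (jet p N X x).e2) + (jet p N X x).e2 * (jet p N X x).e2))

/-- The part of the exponent given by `H`. -/
noncomputable def qPH : RFam := fun N X x =>
  -(1 / 2) * (jet p N X x).H + 1 / 4 * ((jet p N X x).H * (jet p N X x).H)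

variable {κ0 : ℝ}

theorem re_invN : RE κ0 oS (fun N _ _ => ((N : ℝ))⁻¹) :=
  re_seq zero_le_one (fun N _ => inv_nonneg.2 (Nat.cast_nonneg N)) fun N _ => by
    rw [oS, abs_of_nonneg (inv_nonneg.2 (Nat.cast_nonneg N)), one_mul]

theorem re_qR2 : RE κ0 oS (qR2 p) := re_invN.mS1 ((re_qE1 p.η2).1.add (re_M2 p).S1)

theorem re_qR0 : RE κ0 oS (qR0 p) := by
  have hi : RE κ0 oSS (fun N _ _ => ((N : ℝ))⁻¹ * ((N : ℝ))⁻¹) := re_invN.toSS re_invN
  exact hi.mSSL (((((re_Y1 p).m11 ((re_Y1 p).add (re_M1 p).S1)).add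
    ((re_Y2 p).mLS (re_M2 p))).oneL).add
    ((((re_A p).mul (re_qE1 p.η2).1).cast (w1 := oL) fun N _ => mul_one _).smul 2 |>.add
      ((re_qE1 p.η2).1.m11 (re_qE1 p.η2).1).oneL))

theorem re_qPH : RE κ0 oS (qPH p) :=
  ((re_H p).1.smul (-(1 / 2))).add (((re_H p).1.mSS (re_H p).1).smul (1 / 4))

/-- The normalised flux through a horizontal segment. -/
noncomputable def Jint (N : ℕ) (X : St) : ℝ :=
  ∫ t in (0 : ℝ)..(1 / 2), (p.c0 + qR2 p N X (t, 0)) / Real.sqrt (1 - (jet p N X (t, 0)).S)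

/-- The discrete constant of the weights. -/
noncomputable def kN (N : ℕ) : ℝ :=
  Real.pi ^ 2 * ((p.m N : ℝ) ^ 2 + ((p.m N : ℝ) - 1) ^ 2) / (2 * p.a ^ 2 * (N : ℝ) ^ 2)

/-- The new correction of the exponent. -/
noncomputable def newF (N : ℕ) (X : St) : Coef :=
  linv p.η1 p.η2 (-cf (cpx (jf p Jet.RK)) N X)

/-- The new correction of the height. -/
noncomputable def newE (N : ℕ) (X : St) : Coef :=
  linv p.η1 p.η2 (-(cf (cpx (jf p Jet.dQ)) N X + cf (cpx (jf p Jet.X)) N X))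

/-- The new profile parameter. -/
noncomputable def newG (N : ℕ) (X : St) : ℝ := kN p N / Jint p N X ^ 2

/-- The scale as a function of the five small quantities. -/
noncomputable def kapFun (c : ℝ) (z : ℝ × ℝ × ℝ × ℝ × ℝ) : ℝ :=
  Real.sqrt ((1 - z.1) * Real.exp (-2 * z.2.1) / (z.2.2.1 * ((1 + z.2.2.2.1) * (c ^ 2 + z.2.2.2.2))))

/-- The new scale. -/
noncomputable def newK (N : ℕ) (X : St) : ℝ :=
  kapFun p.c0 ((jet p N X 0).S, qPH p N X 0 + (ev (newF p N X) 0).re, newG p N X, (jet p N X 0).H,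
    qR0 p N X 0)

/-- The iteration map. -/
noncomputable def stepT (N : ℕ) (X : St) : St :=
  ⟨newF p N X, newE p N X, newK p N X, newG p N X⟩

theorem c0_pos : 0 < p.c0 := div_pos (by positivity) p.bpos

theorem hdet : p.η1.1 * p.η2.2 - p.η1.2 * p.η2.1 ≠ 0 := by
  simp only [Dat.η1, Dat.η2, mul_zero, sub_zero]
  exact mul_ne_zero (one_div_ne_zero p.apos.ne') (one_div_ne_zero p.bpos.ne')

variable {B : ℝ} {N : ℕ}

theorem linv_dC (η : Pl) (c : Coef) :
    linv p.η1 p.η2 (dC η c) = dC η (linv p.η1 p.η2 c) := by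
  funext k; simp only [linv, dC]; split_ifs <;> ring

theorem linv_add (c d : Coef) :
    linv p.η1 p.η2 (c + d) = linv p.η1 p.η2 c + linv p.η1 p.η2 d := by
  funext k; simp only [linv, Pi.add_apply]; split_ifs <;> simp [mul_add]

theorem linv_neg (c : Coef) : linv p.η1 p.η2 (-c) = -linv p.η1 p.η2 c := by
  funext k; simp only [linv, Pi.neg_apply]; split_ifs <;> simp

theorem der_ofReal {g : Pl → ℝ} {η x : Pl} (h : DifferentiableAt ℝ g x) :
    der η (fun y => (g y : ℂ)) x = ((der η g x : ℝ) : ℂ) := by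
  have h' := (Complex.ofRealCLM.hasFDerivAt.comp x h.hasFDerivAt).fderiv
  simp only [der]
  rw [show (fun y => (g y : ℂ)) = Complex.ofRealCLM ∘ g from rfl, h']
  rfl

theorem cf_dQ {X : St} (hX : InBall κ0 B N X) (h1 : SP (cpx (jf p Jet.Q1) N X))
    (h2 : SP (cpx (jf p Jet.Q2) N X)) :
    cf (cpx (jf p Jet.dQ)) N X =
      dC p.η1 (cf (cpx (jf p Jet.Q1)) N X) + dC p.η2 (cf (cpx (jf p Jet.Q2)) N X) := by
  rw [cf, cf, cf, ← sqCoef_der _ h1, ← sqCoef_der _ h2,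
    ← sqCoef_add (h1.der' p.η1) (h2.der' p.η2)]
  congr 1
  funext x
  obtain ⟨-, -, d1, d2, hd1, hd2, hd⟩ := hd_flux p hX x
  have e1 : der p.η1 (cpx (jf p Jet.Q1) N X) x = (d1 : ℂ) := by
    rw [show cpx (jf p Jet.Q1) N X = fun y => (((jet p N X y).Q1 : ℝ) : ℂ) from rfl,
      der_ofReal hd1.1, hd1.2]
  have e2 : der p.η2 (cpx (jf p Jet.Q2) N X) x = (d2 : ℂ) := by
    rw [show cpx (jf p Jet.Q2) N X = fun y => (((jet p N X y).Q2 : ℝ) : ℂ) from rfl,
      der_ofReal hd2.1, hd2.2]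
  rw [e1, e2, ← Complex.ofReal_add, hd]
  rfl

theorem sym_cf {φ : RFam} {X : St} (h : SP (cpx φ N X)) : Sym (cf (cpx φ) N X) :=
  sqCoef_ofReal_sym (r := φ N X) h

theorem sym_neg {c : Coef} (hc : Sym c) : Sym (-c) := fun k => by simp [hc k]

/-- Bounds of the first order inverse applied to a divergence. -/
theorem divergence_bound :
    ∃ K : ℝ, 0 ≤ K ∧ ∀ q1 q2 r : Coef, Mem 1 q1 → Mem 1 q2 → Mem 0 r →
      nrm 2 (linv p.η1 p.η2 r) ≤ K * nrm 0 r ∧
      nrm 1 (linv p.η1 p.η2 (dC p.η1 q1 + dC p.η2 q2 + r)) ≤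
        K * (nrm 0 q1 + nrm 0 q2 + nrm 0 r) := by
  obtain ⟨K, hK0, hK⟩ := exists_lsym_bound (hdet p)
  refine ⟨K * (dconst p.η1 + dconst p.η2 + 1), by
    have := dconst_nonneg p.η1; have := dconst_nonneg p.η2; positivity, fun q1 q2 r h1 h2 hr => ?_⟩
  have d1 := dconst_nonneg p.η1
  have d2 := dconst_nonneg p.η2
  have b1 := linv_bound hK hK0 (h1.mono (Nat.zero_le 1))
  have b2 := linv_bound hK hK0 (h2.mono (Nat.zero_le 1))
  have b3 := linv_bound hK hK0 hr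
  have n1 := nrm_nonneg 0 q1
  have n2 := nrm_nonneg 0 q2
  have n3 := nrm_nonneg 0 r
  refine ⟨b3.2.trans (mul_le_mul_of_nonneg_right (le_mul_of_one_le_right hK0 (by linarith)) n3), ?_⟩
  rw [linv_add, linv_add, linv_dC, linv_dC]
  have m1 : Mem 1 (dC p.η1 (linv p.η1 p.η2 q1)) := b1.1.dC _
  have m2 : Mem 1 (dC p.η2 (linv p.η1 p.η2 q2)) := b2.1.dC _
  have m3 : Mem 1 (linv p.η1 p.η2 r) := b3.1.mono one_le_two
  refine (nrm_add_le (m1.add m2) m3).trans ((add_le_add (nrm_add_le m1 m2) le_rfl).trans ?_)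
  have c1 : nrm 1 (dC p.η1 (linv p.η1 p.η2 q1)) ≤ dconst p.η1 * (K * nrm 0 q1) :=
    (nrm_dC_le _ b1.1).trans (mul_le_mul_of_nonneg_left b1.2 d1)
  have c2 : nrm 1 (dC p.η2 (linv p.η1 p.η2 q2)) ≤ dconst p.η2 * (K * nrm 0 q2) :=
    (nrm_dC_le _ b2.1).trans (mul_le_mul_of_nonneg_left b2.2 d2)
  have c3 : nrm 1 (linv p.η1 p.η2 r) ≤ K * nrm 0 r := (nrm_mono one_le_two b3.1).trans b3.2
  nlinarith [mul_nonneg (mul_nonneg hK0 d1) n2, mul_nonneg (mul_nonneg hK0 d1) n3,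
    mul_nonneg (mul_nonneg hK0 d2) n1, mul_nonneg (mul_nonneg hK0 d2) n3, mul_nonneg hK0 n1,
    mul_nonneg hK0 n2]

theorem kapFun_ctr : kapFun p.c0 (0, 0, 1 / 2, 0, 0) = p.κ0 := by
  simp [kapFun, Dat.κ0]

theorem oneSubS_pos {r : ℝ} (h : |r| ≤ 1 / 2) : 0 < 1 - r := by
  linarith [(abs_le.1 h).2]

/-- The three scalar Lipschitz estimates. -/
theorem scalar_lip :
    ∃ r K : ℝ, 0 < r ∧ 0 ≤ K ∧
      (∀ s t s' t' : ℝ, |s| < r → |t| < r → |s'| < r → |t'| < r →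
        |(p.c0 + s) / Real.sqrt (1 - t) - (p.c0 + s') / Real.sqrt (1 - t')| ≤
          K * (|s - s'| + |t - t'|)) ∧
      (∀ k J k' J' : ℝ, |k - p.c0 ^ 2 / 8| < r → |J - p.c0 / 2| < r → |k' - p.c0 ^ 2 / 8| < r →
        |J' - p.c0 / 2| < r → |k / J ^ 2 - k' / J' ^ 2| ≤ K * (|k - k'| + |J - J'|)) ∧
      ∀ a b g h q a' b' g' h' q' : ℝ, |a| < r → |b| < r → |g - 1 / 2| < r → |h| < r → |q| < r →
        |a'| < r → |b'| < r → |g' - 1 / 2| < r → |h'| < r → |q'| < r →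
        |kapFun p.c0 (a, b, g, h, q) - kapFun p.c0 (a', b', g', h', q')| ≤
          K * (|a - a'| + |b - b'| + |g - g'| + |h - h'| + |q - q'|) := by
  have hc := c0_pos p
  obtain ⟨r1, K1, hr1, hK1, h1⟩ := exists_lip
    (φ := fun z : ℝ × ℝ => (p.c0 + z.1) / Real.sqrt (1 - z.2)) (z0 := (0, 0)) (by
    refine ContDiffAt.div (by fun_prop) (ContDiffAt.sqrt (by fun_prop) (by simp)) (by simp))
  obtain ⟨r2, K2, hr2, hK2, h2⟩ := exists_lip
    (φ := fun z : ℝ × ℝ => z.1 / z.2 ^ 2) (z0 := (p.c0 ^ 2 / 8, p.c0 / 2)) (by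
    refine ContDiffAt.div (by fun_prop) (by fun_prop) (pow_ne_zero 2 (div_pos hc two_pos).ne'))
  have hd : (1 / 2 : ℝ) * ((1 + 0) * (p.c0 ^ 2 + 0)) ≠ 0 := by
    have : 0 < p.c0 ^ 2 := pow_pos hc 2
    positivity
  obtain ⟨r3, K3, hr3, hK3, h3⟩ := exists_lip
    (φ := kapFun p.c0) (z0 := ((0, 0, 1 / 2, 0, 0) : ℝ × ℝ × ℝ × ℝ × ℝ)) (by
    unfold kapFun
    refine ContDiffAt.sqrt (ContDiffAt.div (by fun_prop) (by fun_prop) hd) ?_
    simp [hc.ne'])
  refine ⟨min r1 (min r2 r3), K1 + K2 + K3, lt_min hr1 (lt_min hr2 hr3), by positivity, ?_, ?_, ?_⟩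
  · intro s t s' t' hs ht hs' ht'
    have e : ∀ a b : ℝ, |a| < min r1 (min r2 r3) → |b| < min r1 (min r2 r3) →
        ‖((a, b) : ℝ × ℝ) - (0, 0)‖ < r1 := fun a b ha hb => by
      rw [Prod.norm_def]
      exact max_lt (by simpa using lt_of_lt_of_le ha (min_le_left _ _))
        (by simpa using lt_of_lt_of_le hb (min_le_left _ _))
    refine (h1 _ _ (e s t hs ht) (e s' t' hs' ht')).trans
      (mul_le_mul (by linarith) ?_ (norm_nonneg _) (by positivity))
    rw [Prod.norm_def]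
    exact max_le (le_add_of_nonneg_right (abs_nonneg _)) (le_add_of_nonneg_left (abs_nonneg _))
  · intro k J k' J' hk hJ hk' hJ'
    have e : ∀ a b : ℝ, |a - p.c0 ^ 2 / 8| < min r1 (min r2 r3) →
        |b - p.c0 / 2| < min r1 (min r2 r3) →
        ‖((a, b) : ℝ × ℝ) - (p.c0 ^ 2 / 8, p.c0 / 2)‖ < r2 := fun a b ha hb => by
      rw [Prod.norm_def]
      exact max_lt (by simpa using lt_of_lt_of_le ha ((min_le_right _ _).trans (min_le_left _ _)))
        (by simpa using lt_of_lt_of_le hb ((min_le_right _ _).trans (min_le_left _ _)))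
    refine (h2 _ _ (e k J hk hJ) (e k' J' hk' hJ')).trans
      (mul_le_mul (by linarith) ?_ (norm_nonneg _) (by positivity))
    rw [Prod.norm_def]
    exact max_le (le_add_of_nonneg_right (abs_nonneg _)) (le_add_of_nonneg_left (abs_nonneg _))
  · intro a b g h q a' b' g' h' q' ha hb hg hh hq ha' hb' hg' hh' hq'
    have e : ∀ a b g h q : ℝ, |a| < min r1 (min r2 r3) → |b| < min r1 (min r2 r3) →
        |g - 1 / 2| < min r1 (min r2 r3) → |h| < min r1 (min r2 r3) →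
        |q| < min r1 (min r2 r3) →
        ‖((a, b, g, h, q) : ℝ × ℝ × ℝ × ℝ × ℝ) - (0, 0, 1 / 2, 0, 0)‖ < r3 :=
      fun a b g h q ha hb hg hh hq => by
        have m : min r1 (min r2 r3) ≤ r3 := (min_le_right _ _).trans (min_le_right _ _)
        simp only [Prod.norm_def, Prod.mk_sub_mk, sub_zero, Real.norm_eq_abs]
        exact max_lt (lt_of_lt_of_le ha m) (max_lt (lt_of_lt_of_le hb m)
          (max_lt (lt_of_lt_of_le hg m) (max_lt (lt_of_lt_of_le hh m) (lt_of_lt_of_le hq m))))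
    refine (h3 _ _ (e a b g h q ha hb hg hh hq) (e a' b' g' h' q' ha' hb' hg' hh' hq')).trans
      (mul_le_mul (by linarith) ?_ (norm_nonneg _) (by positivity))
    simp only [Prod.norm_def, Prod.mk_sub_mk, Real.norm_eq_abs]
    have := abs_nonneg (a - a'); have := abs_nonneg (b - b'); have := abs_nonneg (g - g')
    have := abs_nonneg (h - h'); have := abs_nonneg (q - q')
    simp only [max_le_iff]
    refine ⟨?_, ?_, ?_, ?_, ?_⟩ <;> linarith

end Vale.Agent.P205.Full.Klein
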