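import Vale.Agent.P205.Full.Klein.Scalar

/-!
The step maps a ball to itself and contracts.
-/

open scoped ContDiff
open Complex

namespace Vale.Agent.P205.Full.Klein

variable (p : Dat)

theorem rap_linv {c : Coef} (hc : ∀ m, Mem m c) (m : ℕ) : Mem m (linv p.η1 p.η2 c) := by
  obtain ⟨K, hK0, hK⟩ := exists_lsym_bound (hdet p)
  exact (linv_bound hK hK0 (hc m)).1.mono (Nat.le_add_right m 2)

theorem par_stepT {N : ℕ} {X : St} (hP : Par X) (h1 : SP (cpx (jf p Jet.RK) N X))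
    (h2 : SP (cpx (jf p Jet.dQ) N X)) (h3 : SP (cpx (jf p Jet.X) N X)) :
    Par (stepT p N X) := by
  constructor
  · show Tk (newF p N X) = newF p N X
    have := cf_glide p (g := Jet.RK) (s := 1) (fun J => by rw [J.RK_flip, one_mul]) hP h1
    rw [Complex.ofReal_one, one_smul] at this
    rw [newF, ← linv_Tk, Tk_neg, this]
  · show Tk (newE p N X) = -newE p N X
    have h : SP (cpx (jf p fun J => J.dQ + J.X) N X) := by
      have := sp_add h2 h3
      refine (?_ : cpx (jf p fun J => J.dQ + J.X) N X = _) ▸ this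
      funext x; simp [cpx, jf]
    have key := cf_glide p (g := fun J => J.dQ + J.X) (s := -1)
      (fun J => by rw [J.height_flip.2.2, neg_one_mul]) hP h
    have e : cf (cpx (jf p fun J => J.dQ + J.X)) N X =
        cf (cpx (jf p Jet.dQ)) N X + cf (cpx (jf p Jet.X)) N X := by
      rw [cf, cf, cf, ← sqCoef_add h2 h3]
      congr 1; funext x; simp [cpx, jf]
    rw [e] at key
    rw [newE, ← linv_Tk, Tk_neg, key, ← linv_neg]
    simp [add_comm]

/-- The step statement. -/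
theorem step_spec {Kb : ℝ} (hKb : 0 ≤ Kb)
    (hk : ∀ N, 1 ≤ N → |kN p N - p.c0 ^ 2 / 8| ≤ Kb / N) :
    ∃ (B : ℝ) (N0 : ℕ), 0 ≤ B ∧ 1 ≤ N0 ∧ ∀ N, N0 ≤ N →
      (∀ X, InBall p.κ0 B N X → InBall p.κ0 B N (stepT p N X)) ∧
      (∀ X, InBall p.κ0 B N X → Par X → Par (stepT p N X)) ∧
      (∀ X Y, InBall p.κ0 B N X → InBall p.κ0 B N Y →
        dst N (stepT p N X) (stepT p N Y) ≤ 1 / 2 * dst N X Y) ∧
      ∀ j R, ∃ D, ∀ X, InBall p.κ0 B N X → nrm (j + 1) X.f ≤ R → nrm (j + 1) X.e ≤ R →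
        topN N j (stepT p N X) ≤ 1 / 2 * topN N j X + D := by
  obtain ⟨K, hK, hdiv⟩ := divergence_bound p
  obtain ⟨Kl, hKl0, hKl⟩ := exists_lsym_bound (hdet p)
  obtain ⟨CR, hCR, hR⟩ := (re_RK (κ0 := p.κ0) p).small
  obtain ⟨CQ1, hCQ1, hQ1⟩ := (re_Q1 (κ0 := p.κ0) p).small
  obtain ⟨CQ2, hCQ2, hQ2⟩ := (re_Q2 (κ0 := p.κ0) p).small
  obtain ⟨CD, hCD, hD⟩ := (re_dQ (κ0 := p.κ0) p).small
  obtain ⟨CX, hCX, hX'⟩ := (re_X (κ0 := p.κ0) p).small
  obtain ⟨G0, hG0, hG⟩ := newG_spec (κ0 := p.κ0) p hKb hk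
  obtain ⟨P1, P2, hP1, hP2, hK'⟩ := newK_spec (κ0 := p.κ0) p rfl
  set F0 := K * (CR + 1) with hF0
  set E1 := K * (CQ1 + CQ2 + CX + 3) with hE1
  set E2 := K * (CD + CX + 2) with hE2
  set B := F0 + E1 + E2 + (G0 + 1) + P1 * (2 + F0 + (G0 + 1)) with hBdef
  have hF0p : 0 ≤ F0 := by rw [hF0]; positivity
  have hE1p : 0 ≤ E1 := by rw [hE1]; positivity
  have hE2p : 0 ≤ E2 := by rw [hE2]; positivity
  have hP1p : 0 ≤ P1 * (2 + F0 + (G0 + 1)) := by positivity
  have hB : 0 ≤ B := by rw [hBdef]; linarith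
  obtain ⟨CR', M1, hCR', -, hR⟩ := hR B hB
  obtain ⟨CQ1', M2, hCQ1', -, hQ1⟩ := hQ1 B hB
  obtain ⟨CQ2', M3, hCQ2', -, hQ2⟩ := hQ2 B hB
  obtain ⟨CD', M4, hCD', -, hD⟩ := hD B hB
  obtain ⟨CX', M5, hCX', -, hX'⟩ := hX' B hB
  obtain ⟨G', M6, hG', -, hG⟩ := hG B hB
  obtain ⟨P', M7, hP', -, hK'⟩ := hK' B hB
  set A := CR' + CQ1' + CQ2' + CD' + CX' + G' + P' with hA
  set Θ := (K + Kl + 1) * (CR' + CQ1' + CQ2' + CD' + CX') * (2 + P1) + G' * (1 + P1) + P' with hΘ
  have hΘ0 : 0 ≤ Θ := by rw [hΘ]; positivity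
  obtain ⟨M8, hM8, hsm⟩ := nat_small (A + 2 * Θ) 1 one_pos
  obtain ⟨M9, hM9, hsm'⟩ := nat_small (F0 + (G0 + 1)) (1 / (P2 + 1))
    (div_pos one_pos (by linarith))
  refine ⟨B, max (max (max (max M1 M2) (max M3 M4)) (max (max M5 M6) (max M7 M8))) M9, hB,
    le_trans hM9 (le_max_right _ _), fun N hN => ?_⟩
  simp only [max_le_iff] at hN
  obtain ⟨⟨⟨⟨m1, m2⟩, m3, m4⟩, ⟨m5, m6⟩, m7, m8⟩, m9⟩ := hN
  obtain ⟨-, sR⟩ := hR N m1
  obtain ⟨-, sQ1⟩ := hQ1 N m2
  obtain ⟨-, sQ2⟩ := hQ2 N m3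
  obtain ⟨-, sD⟩ := hD N m4
  obtain ⟨-, sX⟩ := hX' N m5
  have hN1 : 1 ≤ N := le_trans hM8 m8
  have hNp : (0 : ℝ) < N := by exact_mod_cast hN1
  have hN1' : (1 : ℝ) ≤ N := by exact_mod_cast hN1
  have hAN := hsm N m8
  have small1 : ∀ a : ℝ, a ≤ A + 2 * Θ → a / N ≤ 1 := fun a ha =>
    le_trans (div_le_div_of_nonneg_right ha hNp.le) hAN.le
  have hAp : 0 ≤ A := by rw [hA]; positivity
  have i1 : CR' / N ≤ 1 := small1 _ (by rw [hA]; linarith)
  have i2 : CQ1' / N ≤ 1 := small1 _ (by rw [hA]; linarith)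
  have i3 : CQ2' / N ≤ 1 := small1 _ (by rw [hA]; linarith)
  have i4 : CD' / N ≤ 1 := small1 _ (by rw [hA]; linarith)
  have i5 : CX' / N ≤ 1 := small1 _ (by rw [hA]; linarith)
  have i6 : G' / N ≤ 1 := small1 _ (by rw [hA]; linarith)
  have i7 : P' / N ≤ 1 := small1 _ (by rw [hA]; linarith)
  have hΘN : Θ / N ≤ 1 / 2 := by
    have := small1 (2 * Θ) (by linarith)
    rw [mul_div_assoc] at this; linarith
  have hmem : ∀ {φ : RFam} {X : St}, SP (cpx φ N X) → ∀ m, Mem m (cf (cpx φ) N X) :=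
    fun h => mem_sqCoef h
  -- coefficient bounds
  have hf : ∀ X, InBall p.κ0 B N X → (∀ m, Mem m (newF p N X)) ∧
      nrm 2 (newF p N X) ≤ F0 / N := fun X hX => by
    have hm := hmem (sR.sp X hX)
    refine ⟨rap_linv p fun m => (Full.Mem.neg (hm m)), ?_⟩
    refine ((hdiv 0 0 _ (mem_zero' 1) (mem_zero' 1) ((Full.Mem.neg (hm 0)))).1).trans ?_
    rw [nrm_neg, hF0, mul_div_assoc]
    refine mul_le_mul_of_nonneg_left ((sR.nrm X hX).trans ?_) hK
    rw [oS, ← div_eq_mul_inv]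
    exact div_le_div_of_nonneg_right (by linarith) hNp.le
  have heq : ∀ X, InBall p.κ0 B N X → newE p N X = linv p.η1 p.η2 (dC p.η1 (-cf (cpx (jf p Jet.Q1)) N X)
      + dC p.η2 (-cf (cpx (jf p Jet.Q2)) N X) + -cf (cpx (jf p Jet.X)) N X) := fun X hX => by
    rw [newE, cf_dQ p hX (sQ1.sp X hX) (sQ2.sp X hX)]
    congr 1
    funext k
    simp only [Pi.add_apply, Pi.neg_apply, dC]
    ring
  have he : ∀ X, InBall p.κ0 B N X → (∀ m, Mem m (newE p N X)) ∧
      nrm 1 (newE p N X) ≤ E1 / N ∧ nrm 2 (newE p N X) ≤ E2 := fun X hX => by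
    have hm1 := hmem (sQ1.sp X hX)
    have hm2 := hmem (sQ2.sp X hX)
    have hmD := hmem (sD.sp X hX)
    have hmX := hmem (sX.sp X hX)
    refine ⟨rap_linv p fun m => (Full.Mem.neg ((hmD m).add (hmX m))), ?_, ?_⟩
    · rw [heq X hX]
      refine ((hdiv _ _ _ (Full.Mem.neg (hm1 1)) (Full.Mem.neg (hm2 1)) (Full.Mem.neg (hmX 0))).2).trans ?_
      simp only [nrm_neg]
      rw [hE1, mul_div_assoc]
      refine mul_le_mul_of_nonneg_left ((add_le_add (add_le_add (sQ1.nrm X hX) (sQ2.nrm X hX))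
        (sX.nrm X hX)).trans ?_) hK
      simp only [oS, ← div_eq_mul_inv]
      rw [← add_div, ← add_div]
      exact div_le_div_of_nonneg_right (by linarith) hNp.le
    · refine ((hdiv 0 0 _ (mem_zero' 1) (mem_zero' 1) (Full.Mem.neg ((hmD 0).add (hmX 0)))).1).trans ?_
      rw [nrm_neg, hE2]
      refine mul_le_mul_of_nonneg_left ((nrm_add_le (hmD 0) (hmX 0)).trans
        ((add_le_add (sD.nrm X hX) (sX.nrm X hX)).trans ?_)) hK
      simp only [oS, o1, mul_one, ← div_eq_mul_inv]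
      have : (CX + CX' / N) / N ≤ CX + CX' / N := div_le_self (by positivity) hN1'
      linarith
  have hg : ∀ X, InBall p.κ0 B N X → |newG p N X - 1 / 2| ≤ (G0 + 1) / N := fun X hX =>
    ((hG N m6 X hX).1).trans (div_le_div_of_nonneg_right (by linarith) hNp.le)
  have h1 := lt_of_lt_of_le (hsm' N m9) (one_div_le_one_div_of_le hP2 (by linarith : P2 ≤ P2 + 1))
  have ha : F0 / N < 1 / P2 :=
    lt_of_le_of_lt (div_le_div_of_nonneg_right (by linarith) hNp.le) h1
  have hb : (G0 + 1) / N < 1 / P2 :=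
    lt_of_le_of_lt (div_le_div_of_nonneg_right (by linarith) hNp.le) h1
  have hball : ∀ X, InBall p.κ0 B N X → InBall p.κ0 B N (stepT p N X) := by
    intro X hX
    obtain ⟨fm, fn⟩ := hf X hX
    obtain ⟨em, en1, en2⟩ := he X hX
    refine ⟨fm, em, sym_linv (sym_neg (sym_cf (sR.sp X hX))),
      sym_linv (sym_neg (Sym.add (sym_cf (sD.sp X hX)) (sym_cf (sX.sp X hX)))),
      fn.trans (div_le_div_of_nonneg_right (by rw [hBdef]; linarith) hNp.le),
      en1.trans (div_le_div_of_nonneg_right (by rw [hBdef]; linarith) hNp.le),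
      en2.trans (by rw [hBdef]; linarith), ?_,
      (hg X hX).trans (div_le_div_of_nonneg_right (by rw [hBdef]; linarith) hNp.le)⟩
    refine ((hK' N m7 F0 (G0 + 1) hF0p (by linarith) ha hb X hX (fm 2) fn (hg X hX)).1).trans
        (div_le_div_of_nonneg_right ?_ hNp.le)
    have : P1 * (1 + P' / N + F0 + (G0 + 1)) ≤ P1 * (2 + F0 + (G0 + 1)) :=
      mul_le_mul_of_nonneg_left (by linarith) hP1
    rw [hBdef]; linarith
  refine ⟨hball, fun X hX hP => par_stepT p hP (sR.sp X hX) (sD.sp X hX) (sX.sp X hX), ?_, ?_⟩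
  · intro X Y hX hY
    obtain ⟨fm, fn⟩ := hf X hX
    obtain ⟨fm', fn'⟩ := hf Y hY
    set d := dst N X Y with hd
    have hd0 : 0 ≤ d := dst_nonneg _ _ _
    have lf : nrm 2 (newF p N X - newF p N Y) ≤ K * CR' / N / N * d := by
      rw [newF, newF, ← linv_sub]
      have ma := (Full.Mem.neg (hmem (sR.sp X hX) 0))
      have mb := (Full.Mem.neg (hmem (sR.sp Y hY) 0))
      refine ((hdiv 0 0 _ (mem_zero' 1) (mem_zero' 1) (ma.sub mb)).1).trans ?_
      rw [← neg_sub', nrm_neg]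
      refine (mul_le_mul_of_nonneg_left (sR.lip X Y hX hY) hK).trans (le_of_eq ?_)
      simp only [oS]; ring
    have lg := (hG N m6 X hX).2 Y hY
    have le1 : nrm 1 (newE p N X - newE p N Y) ≤ K * (CQ1' + CQ2' + CX') / N / N * d := by
      rw [heq X hX, heq Y hY, ← linv_sub]
      have a1 := hmem (sQ1.sp X hX)
      have a2 := hmem (sQ2.sp X hX)
      have a3 := hmem (sX.sp X hX)
      have b1 := hmem (sQ1.sp Y hY)
      have b2 := hmem (sQ2.sp Y hY)
      have b3 := hmem (sX.sp Y hY)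
      rw [show dC p.η1 (-cf (cpx (jf p Jet.Q1)) N X) + dC p.η2 (-cf (cpx (jf p Jet.Q2)) N X) +
          -cf (cpx (jf p Jet.X)) N X - (dC p.η1 (-cf (cpx (jf p Jet.Q1)) N Y) +
          dC p.η2 (-cf (cpx (jf p Jet.Q2)) N Y) + -cf (cpx (jf p Jet.X)) N Y) =
          dC p.η1 (-(cf (cpx (jf p Jet.Q1)) N X - cf (cpx (jf p Jet.Q1)) N Y)) +
          dC p.η2 (-(cf (cpx (jf p Jet.Q2)) N X - cf (cpx (jf p Jet.Q2)) N Y)) +
          -(cf (cpx (jf p Jet.X)) N X - cf (cpx (jf p Jet.X)) N Y) by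
        funext k; simp only [Pi.add_apply, Pi.sub_apply, Pi.neg_apply, dC]; ring]
      refine ((hdiv _ _ _ (Full.Mem.neg ((a1 1).sub (b1 1))) (Full.Mem.neg ((a2 1).sub (b2 1)))
        (Full.Mem.neg ((a3 0).sub (b3 0)))).2).trans ?_
      simp only [nrm_neg]
      refine (mul_le_mul_of_nonneg_left (add_le_add (add_le_add (sQ1.lip X Y hX hY)
        (sQ2.lip X Y hX hY)) (sX.lip X Y hX hY)) hK).trans (le_of_eq ?_)
      simp only [oS]; ring
    have le2 : nrm 2 (newE p N X - newE p N Y) ≤ K * (CD' + CX') / N * d := by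
      rw [newE, newE, ← linv_sub, ← neg_sub', add_sub_add_comm]
      have a1 := (hmem (sD.sp X hX) 0).sub (hmem (sD.sp Y hY) 0)
      have a2 := (hmem (sX.sp X hX) 0).sub (hmem (sX.sp Y hY) 0)
      refine ((hdiv 0 0 _ (mem_zero' 1) (mem_zero' 1) (Full.Mem.neg (a1.add a2))).1).trans ?_
      rw [nrm_neg]
      refine (mul_le_mul_of_nonneg_left ((nrm_add_le a1 a2).trans
        (add_le_add (sD.lip X Y hX hY) (sX.lip X Y hX hY))) hK).trans ?_
      have : CX' * (oS N / N) * d ≤ CX' * (1 / N) * d := by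
        refine mul_le_mul_of_nonneg_right (mul_le_mul_of_nonneg_left
          (div_le_div_of_nonneg_right (inv_le_one_of_one_le₀ hN1') hNp.le) hCX') hd0
      have e : K * (CD' + CX') / N * d = K * (CD' * (o1 N / N) * d + CX' * (1 / N) * d) := by
        simp only [o1]; ring
      rw [e]
      exact mul_le_mul_of_nonneg_left (add_le_add le_rfl this) hK
    have lk : |newK p N X - newK p N Y| ≤ P' / N / N * d +
        P1 * (nrm 2 (newF p N X - newF p N Y) + |newG p N X - newG p N Y|) := by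
      exact (hK' N m7 F0 (G0 + 1) hF0p (by linarith) ha hb X hX (fm 2) fn (hg X hX)).2 Y hY
          (fm' 2) fn' (hg Y hY)
    have hN0 : (N : ℝ) ≠ 0 := hNp.ne'
    have goal : dst N (stepT p N X) (stepT p N Y) ≤ Θ / N * d := by
      simp only [dst, stepT]
      have s1 := mul_le_mul_of_nonneg_left (add_le_add (add_le_add (add_le_add lf le1)
        (lk.trans (add_le_add le_rfl (mul_le_mul_of_nonneg_left (add_le_add lf lg) hP1)))) lg) hNp.le
      refine (add_le_add s1 le2).trans ?_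
      field_simp
      rw [hΘ]
      have q1 : 0 ≤ CR' * d := by positivity
      have q2 : 0 ≤ CQ1' * d := by positivity
      have q3 : 0 ≤ CQ2' * d := by positivity
      have q4 : 0 ≤ CD' * d := by positivity
      have q5 : 0 ≤ CX' * d := by positivity
      have q6 : 0 ≤ K * P1 * (CQ1' + CQ2' + CD' + CX') * d := by positivity
      have q7 : 0 ≤ (Kl + 1) * (CR' + CQ1' + CQ2' + CD' + CX') * (2 + P1) * d := by positivity
      have q8 : 0 ≤ K * (CR' + CQ1' + CQ2' + CD') * d := by positivity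
      linarith
    exact goal.trans (mul_le_mul_of_nonneg_right hΘN hd0)
  · intro j R
    obtain ⟨DR, hDR⟩ := sR.high j R
    obtain ⟨DD, hDD⟩ := sD.high j R
    obtain ⟨DX, hDX⟩ := sX.high j R
    refine ⟨N * (Kl * |DR|) + Kl * (|DD| + |DX|), fun X hX hfR heR => ?_⟩
    have hT := topN_nonneg N j X
    have mR := hmem (sR.sp X hX) j
    have mD := hmem (sD.sp X hX) j
    have mX := hmem (sX.sp X hX) j
    have bR : nrm (j + 2) (newF p N X) ≤ Kl * (CR' * (oS N / N) * topN N j X + |DR|) := by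
      refine ((linv_bound hKl hKl0 (Full.Mem.neg mR)).2).trans ?_
      rw [nrm_neg]
      exact mul_le_mul_of_nonneg_left ((hDR X hX hfR heR).trans
        (add_le_add le_rfl (le_abs_self _))) hKl0
    have bE : nrm (j + 2) (newE p N X) ≤
        Kl * ((CD' * (o1 N / N) * topN N j X + |DD|) + (CX' * (oS N / N) * topN N j X + |DX|)) := by
      refine ((linv_bound hKl hKl0 (Full.Mem.neg (mD.add mX))).2).trans ?_
      rw [nrm_neg]
      exact mul_le_mul_of_nonneg_left ((nrm_add_le mD mX).trans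
        (add_le_add ((hDD X hX hfR heR).trans (add_le_add le_rfl (le_abs_self _)))
          ((hDX X hX hfR heR).trans (add_le_add le_rfl (le_abs_self _))))) hKl0
    have s := add_le_add (mul_le_mul_of_nonneg_left bR hNp.le) bE
    simp only [topN, stepT] at *
    refine s.trans ?_
    set T := (N : ℝ) * nrm (j + 2) X.f + nrm (j + 2) X.e
    have e1 : (N : ℝ) * (Kl * (CR' * (oS N / N) * T + |DR|)) =
        Kl * CR' / N * T + N * (Kl * |DR|) := by
      simp only [oS]; field_simp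
    have e2 : CX' * (oS N / N) * T ≤ CX' * (1 / N) * T :=
      mul_le_mul_of_nonneg_right (mul_le_mul_of_nonneg_left
        (div_le_div_of_nonneg_right (inv_le_one_of_one_le₀ hN1') hNp.le) hCX') hT
    have hcoef : Kl * (CR' + CD' + CX') / N * T ≤ 1 / 2 * T := by
      refine mul_le_mul_of_nonneg_right (le_trans (div_le_div_of_nonneg_right ?_ hNp.le) hΘN) hT
      rw [hΘ]
      have q1 : Kl * (CR' + CD' + CX') ≤ (K + Kl + 1) * (CR' + CQ1' + CQ2' + CD' + CX') * 1 := by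
        rw [mul_one]
        exact mul_le_mul (by linarith) (by linarith) (by positivity) (by linarith)
      have q2 : (K + Kl + 1) * (CR' + CQ1' + CQ2' + CD' + CX') * 1 ≤
          (K + Kl + 1) * (CR' + CQ1' + CQ2' + CD' + CX') * (2 + P1) :=
        mul_le_mul_of_nonneg_left (by linarith) (by positivity)
      have q3 : 0 ≤ G' * (1 + P1) + P' := by positivity
      linarith
    have e3 : Kl * ((CD' * (o1 N / N) * T + |DD|) + (CX' * (oS N / N) * T + |DX|)) ≤
        Kl * (CD' + CX') / N * T + Kl * (|DD| + |DX|) := by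
      calc _ ≤ Kl * ((CD' * (o1 N / N) * T + |DD|) + (CX' * (1 / N) * T + |DX|)) := by gcongr
        _ = _ := by simp only [o1]; ring
    rw [e1]
    have : Kl * CR' / N * T + Kl * (CD' + CX') / N * T = Kl * (CR' + CD' + CX') / N * T := by ring
    linarith

end Vale.Agent.P205.Full.Klein
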