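import Vale.Agent.P205.Full.Klein.Coframe

/-!
The coordinate `θ` and the behaviour of all quantities under the glide.
-/

open scoped ContDiff
open Complex

namespace Vale.Agent.P205.Full.Klein

variable (p : Dat) (N : ℕ) (X : St)

/-- The height. -/
noncomputable def hYt (x : Pl) : ℝ := hY0 N x + qE N X x

/-- The coordinate conjugate to the height. -/
noncomputable def theta : Pl → ℝ :=
  Develop.line (fun x => p.a * flux2 p N X x) (fun x => -(p.b * flux1 p N X x))

variable {p N X} {B : ℝ}

theorem sp_dtheta (h : Good p B N X) :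
    SP (fun x => p.a * flux2 p N X x) ∧ SP (fun x => -(p.b * flux1 p N X x)) := by
  obtain ⟨s1, s2⟩ := sp_flux h
  exact ⟨⟨contDiff_const.mul s2.smooth, ⟨fun x => by rw [s2.per.add1], fun x => by rw [s2.per.add2]⟩⟩,
    ⟨(contDiff_const.mul s1.smooth).neg,
      ⟨fun x => by rw [s1.per.add1], fun x => by rw [s1.per.add2]⟩⟩⟩

theorem theta_closed (h : Good p B N X) (x : Pl) :
    der e1 (fun x => -(p.b * flux1 p N X x)) x = der e2 (fun x => p.a * flux2 p N X x) x := by
  obtain ⟨d1, d2, h1, h2, -⟩ := hd_flux_div h x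
  have hc := flux_closed h x
  rw [h1.2, h2.2] at hc
  rw [der_e1 (p := p), der_e2 (p := p), (h2.smul p.a).2, ((h1.smul p.b).neg).2]
  simp only [smul_eq_mul]
  linear_combination (-(p.a * p.b)) * hc

theorem hasFDerivAt_theta (h : Good p B N X) (x : Pl) :
    HasFDerivAt (theta p N X)
      (Develop.cof (fun x => p.a * flux2 p N X x) (fun x => -(p.b * flux1 p N X x)) x) x :=
  Develop.hasFDerivAt_line (sp_dtheta h).1.smooth (sp_dtheta h).2.smooth (theta_closed h) x

theorem contDiff_theta (h : Good p B N X) : ContDiff ℝ ∞ (theta p N X) :=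
  Develop.contDiff_line (sp_dtheta h).1.smooth (sp_dtheta h).2.smooth (theta_closed h)

theorem contDiff_hYt (h : Good p B N X) : ContDiff ℝ ∞ (hYt N X) := by
  unfold hYt hY0
  exact (contDiff_const.mul contDiff_snd).add (SP_re_ev h.hX.re).smooth

theorem fderiv_hYt (h : Good p B N X) (x v : Pl) :
    fderiv ℝ (hYt N X) x v =
      v.1 * (p.a * (jet p N X x).Y1) + v.2 * (p.b * (jet p N X x).Y2) := by
  have hv : v = v.1 • e1 + v.2 • e2 := by ext <;> simp [e1, e2]
  conv_lhs => rw [hv, map_add, map_smul, map_smul]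
  have a1 := (hd_Y h.hX p.η1 x).2
  have a2 := (hd_Y h.hX p.η2 x).2
  rw [Y_η1] at a1
  rw [Y_η2] at a2
  have b1 : fderiv ℝ (hYt N X) x e1 = p.a * (jet p N X x).Y1 := by
    have := der_e1 (p := p) (hYt N X) x
    unfold hYt at this ⊢
    rw [a1] at this
    exact this
  have b2 : fderiv ℝ (hYt N X) x e2 = p.b * (jet p N X x).Y2 := by
    have := der_e2 (p := p) (hYt N X) x
    unfold hYt at this ⊢
    rw [a2] at this
    exact this
  rw [b1, b2, smul_eq_mul, smul_eq_mul]

theorem hYt_glide (h : Good p B N X) (x : Pl) : hYt N X (glide x) = -hYt N X x := by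
  have E : qE N X (glide x) = -qE N X x := by
    simp only [qE]
    rw [← ev_Tk, h.par.2, Full.ev_neg, Complex.neg_re]
  simp only [hYt, E]
  simp [hY0, glide]
  ring

theorem flux_glide (h : Good p B N X) (x : Pl) :
    flux1 p N X (glide x) = -flux1 p N X x ∧ flux2 p N X (glide x) = flux2 p N X x := by
  simp only [flux1, flux2, rR, jet_glide p h.par x, Jet.P1, Jet.P2, (Jet.S_flip _).1,
    (Jet.M_flip _).1, (Jet.M_flip _).2, (Jet.Y_flip _).1, (Jet.Y_flip _).2]
  exact ⟨by ring, trivial⟩

theorem v_glide (h : Good p B N X) (x : Pl) :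
    jq p N X Jet.v (glide x) = jq p N X Jet.v x := by
  simp only [jq, jet_glide p h.par x]
  rfl

theorem theta_glide (h : Good p B N X) (x : Pl) :
    theta p N X (glide x) = theta p N X x + theta p N X (1 / 2, 0) := by
  have hl : ∀ y, HasFDerivAt glide
      ((ContinuousLinearMap.fst ℝ ℝ ℝ).prod (-ContinuousLinearMap.snd ℝ ℝ ℝ)) y := fun y =>
    ((hasFDerivAt_fst (𝕜 := ℝ) (E := ℝ) (F := ℝ) (p := y)).add_const (1 / 2)).prodMk
      (hasFDerivAt_snd (𝕜 := ℝ) (E := ℝ) (F := ℝ) (p := y)).fun_neg
  have hd : ∀ y, HasFDerivAt (fun z => theta p N X (glide z) - theta p N X z) (0 : Pl →L[ℝ] ℝ) y := by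
    intro y
    refine (((hasFDerivAt_theta h (glide y)).comp y (hl y)).sub
      (hasFDerivAt_theta h y)).congr_fderiv ?_
    refine ContinuousLinearMap.ext fun v => ?_
    simp [Develop.cof_apply, (flux_glide h y).1, (flux_glide h y).2]
  have := is_const_of_fderiv_eq_zero (fun y => (hd y).differentiableAt)
    (fun y => (hd y).fderiv) x 0
  have h0 : theta p N X 0 = 0 := Develop.line_zero _ _
  have hg : glide 0 = ((1 / 2, 0) : Pl) := by simp [glide]
  rw [h0, hg, sub_zero] at this
  linarith

theorem theta_e2 (h : Good p B N X) (x : Pl) : theta p N X (x + e2) = theta p N X x := by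
  obtain ⟨sA, sB⟩ := sp_dtheta h
  have hd : ∀ y, HasFDerivAt (fun z => theta p N X (z + e2) - theta p N X z) (0 : Pl →L[ℝ] ℝ) y := by
    intro y
    refine (((hasFDerivAt_theta h (y + e2)).comp y ((hasFDerivAt_id y).add_const e2)).sub
      (hasFDerivAt_theta h y)).congr_fderiv ?_
    refine ContinuousLinearMap.ext fun v => ?_
    have e1' := sA.per.add2 y
    have e2' := sB.per.add2 y
    simp only [ContinuousLinearMap.comp_id, sub_apply, Develop.cof_apply, zero_apply]
    rw [e1', e2', sub_self]
  have hc := fun z => is_const_of_fderiv_eq_zero (fun y => (hd y).differentiableAt)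
    (fun y => (hd y).fderiv) z 0
  have h0 : theta p N X 0 = 0 := Develop.line_zero _ _
  simp only [h0, sub_zero, zero_add] at hc
  have g1 := theta_glide h e2
  have g2 : glide e2 + e2 = ((1 / 2, 0) : Pl) := by simp [glide, e2]
  have g3 := hc (glide e2)
  rw [g2, g1] at g3
  have := hc x
  linarith

theorem theta_half (h : Good p B N X) :
    theta p N X (1 / 2, 0) = p.a * N * Jint p N X := by
  obtain ⟨sA, -⟩ := sp_dtheta h
  have e : theta p N X (1 / 2, 0) = ∫ t in (0 : ℝ)..(1 / 2), p.a * flux2 p N X (t, 0) := by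
    have := intervalIntegral.smul_integral_comp_mul_left
      (f := fun t : ℝ => p.a * flux2 p N X (t, 0)) (a := 0) (b := 1) (1 / 2 : ℝ)
    rw [mul_zero, mul_one] at this
    rw [← this, ← intervalIntegral.integral_smul]
    simp only [theta, Develop.line, Prod.smul_mk, smul_eq_mul, mul_zero, zero_mul, add_zero]
    congr 1
    funext s
    rw [mul_comm s]
  rw [e, Jint, ← intervalIntegral.integral_const_mul]
  congr 1
  funext t
  have hN : (N : ℝ) ≠ 0 := by
    have := h.hN
    positivity
  simp only [flux2, rR, qR2, Jet.P2, Jet.Y2]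
  simp only [jet, Dat.c0]
  field_simp
  ring

end Vale.Agent.P205.Full.Klein
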