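import Vale.Agent.P205.Full.Klein.Closed

/-!
Both constants vanish: the height is harmonic and the connection is flat.
-/

open scoped ContDiff
open Complex

namespace Vale.Agent.P205.Full.Klein

/-- The scale `ε`. -/
noncomputable def eps (N : ℕ) (X : St) : ℝ := X.κ * ((N : ℝ))⁻¹

variable (p : Dat) (N : ℕ) (X : St)

/-- The square root of `1 - S`. -/
noncomputable def rR (x : Pl) : ℝ := Real.sqrt (1 - (jet p N X x).S)

/-- The first flux over the root. -/
noncomputable def flux1 (x : Pl) : ℝ := (jet p N X x).P1 / rR p N X x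

/-- The second flux over the root. -/
noncomputable def flux2 (x : Pl) : ℝ := (jet p N X x).P2 / rR p N X x

/-- The half logarithmic derivative of `1 + H`. -/
noncomputable def dlog (x : Pl) : ℝ := (jet p N X x).H1 * (2 * (1 + (jet p N X x).H))⁻¹

/-- The connection of the rescaled coframe, first component. -/
noncomputable def con1 (x : Pl) : ℝ :=
  conn1 p.η1 p.η2 (eps N X) p.u (jq p N X Jet.v) x - dlog p N X x * flux2 p N X x

/-- The connection of the rescaled coframe, second component. -/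
noncomputable def con2 (x : Pl) : ℝ :=
  conn2 p.η1 p.η2 (eps N X) p.u (jq p N X Jet.v) x + dlog p N X x * flux1 p N X x

variable {p N X}

theorem der_e1 {α : Type*} [NormedAddCommGroup α] [NormedSpace ℝ α] (f : Pl → α) (x : Pl) :
    der e1 f x = p.a • der p.η1 f x := by
  have : (e1 : Pl) = p.a • p.η1 := by simp [e1, Dat.η1, p.apos.ne']
  rw [this]; simp [der, map_smul]

theorem der_e2 {α : Type*} [NormedAddCommGroup α] [NormedSpace ℝ α] (f : Pl → α) (x : Pl) :
    der e2 f x = p.b • der p.η2 f x := by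
  have : (e2 : Pl) = p.b • p.η2 := by simp [e2, Dat.η2, p.bpos.ne']
  rw [this]; simp [der, map_smul]

theorem HD.eq {η x : Pl} {g : Pl → ℝ} {g' : ℝ} (h : HD η x g g') : der η g x = g' := h.2

variable {B : ℝ}

theorem sp_rR (h : Good p B N X) : SP (rR p N X) :=
  ⟨(contDiff_const.sub h.sS.smooth).sqrt fun x => (sub_pos.2 (h.S_lt x)).ne',
    ⟨fun x => congrArg (fun s : ℝ => Real.sqrt (1 - s)) (h.sS.per.add1 x),
      fun x => congrArg (fun s : ℝ => Real.sqrt (1 - s)) (h.sS.per.add2 x)⟩⟩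

theorem rR_pos (h : Good p B N X) (x : Pl) : 0 < rR p N X x :=
  Real.sqrt_pos.2 (sub_pos.2 (h.S_lt x))

theorem rR_sq (h : Good p B N X) (x : Pl) : rR p N X x ^ 2 = 1 - (jet p N X x).S :=
  Real.sq_sqrt (sub_pos.2 (h.S_lt x)).le

theorem sp_flux (h : Good p B N X) : SP (flux1 p N X) ∧ SP (flux2 p N X) := by
  have hR := sp_rR h
  have ne : ∀ x, rR p N X x ≠ 0 := fun x => (rR_pos h x).ne'
  constructor
  · exact ⟨(h.sY1.smooth.add h.sM1.smooth).div hR.smooth ne,
      ⟨fun x => congrArg₂ (· / ·) (congrArg₂ (· + ·) (h.sY1.per.add1 x) (h.sM1.per.add1 x))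
          (hR.per.add1 x),
        fun x => congrArg₂ (· / ·) (congrArg₂ (· + ·) (h.sY1.per.add2 x) (h.sM1.per.add2 x))
          (hR.per.add2 x)⟩⟩
  · exact ⟨(h.sY2.smooth.add h.sM2.smooth).div hR.smooth ne,
      ⟨fun x => congrArg₂ (· / ·) (congrArg₂ (· + ·) (h.sY2.per.add1 x) (h.sM2.per.add1 x))
          (hR.per.add1 x),
        fun x => congrArg₂ (· / ·) (congrArg₂ (· + ·) (h.sY2.per.add2 x) (h.sM2.per.add2 x))
          (hR.per.add2 x)⟩⟩

theorem sp_dlog (h : Good p B N X) : SP (dlog p N X) :=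
  ⟨h.sH1.smooth.mul ((contDiff_const.mul (contDiff_const.add h.sH.smooth)).inv
      fun x => (mul_pos two_pos (h.H_gt x)).ne'),
    ⟨fun x => congrArg₂ (fun a b : ℝ => a * (2 * (1 + b))⁻¹) (h.sH1.per.add1 x) (h.sH.per.add1 x),
      fun x => congrArg₂ (fun a b : ℝ => a * (2 * (1 + b))⁻¹) (h.sH1.per.add2 x)
        (h.sH.per.add2 x)⟩⟩

theorem gN_W (h : Good p B N X) (x : Pl) :
    gN (eps N X) p.u (jq p N X Jet.v) p.η1 x = (jet p N X x).W1 ∧
      gN (eps N X) p.u (jq p N X Jet.v) p.η2 x = (jet p N X x).W2 := by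
  obtain ⟨⟨hv1, hv2⟩, -⟩ := hd_all p h.hX x
  have e1 : der p.η1 (jq p N X Jet.v) x = (jet p N X x).v1 := hv1.2
  have e2 : der p.η2 (jq p N X Jet.v) x = (jet p N X x).v2 := hv2.2
  constructor
  · rw [gN, e1]; rfl
  · rw [gN, e2]; rfl

theorem gS_S (h : Good p B N X) (x : Pl) :
    gS p.η1 p.η2 (eps N X) p.u (jq p N X Jet.v) x = (jet p N X x).S := by
  rw [gS, (gN_W h x).1, (gN_W h x).2, sq, sq]; rfl

theorem gR_rR (h : Good p B N X) (x : Pl) :
    gR p.η1 p.η2 (eps N X) p.u (jq p N X Jet.v) x = rR p N X x := by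
  rw [gR, gS_S h]; rfl

theorem gS_lt (h : Good p B N X) (x : Pl) :
    gS p.η1 p.η2 (eps N X) p.u (jq p N X Jet.v) x < 1 := (gS_S h x).symm ▸ h.S_lt x

theorem curvQ_curv (h : Good p B N X) (x : Pl) :
    curvQ p.η1 p.η2 (eps N X) p.u (jq p N X Jet.v) x = (jet p N X x).curv := by
  obtain ⟨-, ⟨a11, -, -, a22⟩, b11, b12, b21, b22⟩ := hd_all p h.hX x
  obtain ⟨⟨c1, c2⟩, -⟩ := hd_flux p h.hX x
  have fv1 : der p.η1 (jq p N X Jet.v) = fun y => (jet p N X y).v1 :=
    funext fun y => (hd_all p h.hX y).1.1.2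
  have fv2 : der p.η2 (jq p N X Jet.v) = fun y => (jet p N X y).v2 :=
    funext fun y => (hd_all p h.hX y).1.2.2
  have fW1 : gN (eps N X) p.u (jq p N X Jet.v) p.η1 = fun y => (jet p N X y).W1 :=
    funext fun y => (gN_W h y).1
  have fW2 : gN (eps N X) p.u (jq p N X Jet.v) p.η2 = fun y => (jet p N X y).W2 :=
    funext fun y => (gN_W h y).2
  have fS : gS p.η1 p.η2 (eps N X) p.u (jq p N X Jet.v) = fun y => (jet p N X y).S :=
    funext fun y => gS_S h y
  rw [curvQ, fv1, fv2, fW1, fW2, fS, a11.2, a22.2, b11.2, b12.2, b21.2, b22.2, c1.2, c2.2]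
  rfl

theorem hd_flux_div (h : Good p B N X) (x : Pl) :
    ∃ d1 d2, HD p.η1 x (flux1 p N X) d1 ∧ HD p.η2 x (flux2 p N X) d2 ∧
      d1 + d2 = (rR p N X x ^ 3)⁻¹ * (jet p N X x).EY := by
  obtain ⟨⟨c1, c2⟩, ⟨d1, d2, hd1, hd2, hd⟩, -⟩ := hd_flux p h.hX x
  have hs : 0 < 1 - (jet p N X x).S := sub_pos.2 (h.S_lt x)
  have hφ : HasDerivAt (fun t : ℝ => (Real.sqrt (1 - t))⁻¹)
      ((1 / 2) * (rR p N X x ^ 3)⁻¹) (jet p N X x).S := by
    have h0 : HasDerivAt (fun t : ℝ => 1 - t) (-1) (jet p N X x).S := by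
      simpa using (hasDerivAt_id ((jet p N X x).S)).const_sub 1
    refine ((h0.sqrt hs.ne').inv (Real.sqrt_pos.2 hs).ne').congr_deriv ?_
    have := (Real.sqrt_pos.2 hs).ne'
    simp only [rR]
    field_simp
  have r1 := (hd1.mul (c1.comp hφ)).congr (h := flux1 p N X)
    (fun y => by rw [flux1, div_eq_mul_inv]; rfl) rfl
  have r2 := (hd2.mul (c2.comp hφ)).congr (h := flux2 p N X)
    (fun y => by rw [flux2, div_eq_mul_inv]; rfl) rfl
  refine ⟨_, _, r1, r2, ?_⟩
  have hr := rR_sq h x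
  have hne := (rR_pos h x).ne'
  rw [show Real.sqrt (1 - (jet p N X x).S) = rR p N X x from rfl, Jet.EY, ← hd, ← hr]
  field_simp
  ring

theorem EY_zero (h : Good p B N X) : ∀ x, (jet p N X x).EY = 0 := by
  obtain ⟨q, hq⟩ := EY_const h
  obtain ⟨s1, s2⟩ := sp_flux h
  have a0 : SP fun x => -(p.b⁻¹) * flux2 p N X x :=
    ⟨contDiff_const.mul s2.smooth, ⟨fun x => by rw [s2.per.add1], fun x => by rw [s2.per.add2]⟩⟩
  have b0 : SP fun x => p.a⁻¹ * flux1 p N X x :=
    ⟨contDiff_const.mul s1.smooth, ⟨fun x => by rw [s1.per.add1], fun x => by rw [s1.per.add2]⟩⟩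
  have hq0 : q = 0 := by
    refine eq_zero_of_curl a0 b0 (r := fun x => (rR p N X x ^ 3)⁻¹)
      (((sp_rR h).smooth.continuous.pow 3).inv₀ fun x => (pow_pos (rR_pos h x) 3).ne')
      (fun x => inv_pos.2 (pow_pos (rR_pos h x) 3)) fun x => ?_
    obtain ⟨d1, d2, h1, h2, hd⟩ := hd_flux_div h x
    rw [der_e1 (p := p), der_e2 (p := p), (h1.smul (p.a⁻¹)).2, (h2.smul (-(p.b⁻¹))).2, ← hq x, ← hd]
    have := p.apos.ne'; have := p.bpos.ne'
    simp only [smul_eq_mul]
    field_simp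
    ring
  intro x
  rw [hq x, hq0]

theorem sp_con (h : Good p B N X) : SP (con1 p N X) ∧ SP (con2 p N X) := by
  have hd := sp_dlog h
  obtain ⟨s1, s2⟩ := sp_flux h
  have c1 := sp_conn1 (η1 := p.η1) (η2 := p.η2) (ε := eps N X) p.hu h.sv (gS_lt h)
  have c2 := sp_conn2 (η1 := p.η1) (η2 := p.η2) (ε := eps N X) p.hu h.sv (gS_lt h)
  exact ⟨⟨c1.smooth.sub (hd.smooth.mul s2.smooth),
      ⟨fun x => by simp only [con1, c1.per.add1, hd.per.add1, s2.per.add1],
        fun x => by simp only [con1, c1.per.add2, hd.per.add2, s2.per.add2]⟩⟩,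
    ⟨c2.smooth.add (hd.smooth.mul s1.smooth),
      ⟨fun x => by simp only [con2, c2.per.add1, hd.per.add1, s1.per.add1],
        fun x => by simp only [con2, c2.per.add2, hd.per.add2, s1.per.add2]⟩⟩⟩

theorem con_curl (h : Good p B N X) (x : Pl) :
    der p.η1 (con2 p N X) x - der p.η2 (con1 p N X) x =
      (rR p N X x ^ 3)⁻¹ * ((1 + (jet p N X x).H) ^ 2)⁻¹ * (jet p N X x).K := by
  obtain ⟨d1, d2, h1, h2, hd⟩ := hd_flux_div h x
  have hH := hd_H p h.hX
  have hp : (2 : ℝ) * (1 + (jet p N X x).H) ≠ 0 := (mul_pos two_pos (h.H_gt x)).ne'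
  have hD : ∀ η, HD η x (dlog p N X) ((((1 + (jet p N X x).H) * (jet p N X x).H2 -
      (jet p N X x).H1 ^ 2) * (2 * (1 + (jet p N X x).H) ^ 2)⁻¹) *
        (2 * Real.pi * N * η.2 + qE1 η N X x)) := fun η => by
    have hφ : HasDerivAt (fun t : ℝ => (2 * (1 + t))⁻¹) (-2 / (2 * (1 + (jet p N X x).H)) ^ 2)
        (jet p N X x).H :=
      ((((hasDerivAt_id' _).const_add (1 : ℝ)).const_mul 2).congr_deriv (mul_one _)).inv hp
    refine ((hH η x).2.mul ((hH η x).1.comp hφ)).congr (fun _ => rfl) ?_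
    have := (h.H_gt x).ne'
    field_simp
    ring
  have t1 := (hD p.η1).mul h1
  have t2 := (hD p.η2).mul h2
  rw [Y_η1] at t1
  rw [Y_η2] at t2
  have d' : ∀ _ : Pl, DifferentiableAt ℝ (conn1 p.η1 p.η2 (eps N X) p.u (jq p N X Jet.v)) x ∧
      DifferentiableAt ℝ (conn2 p.η1 p.η2 (eps N X) p.u (jq p N X Jet.v)) x := fun _ =>
    ⟨(sp_conn1 p.hu h.sv (gS_lt h)).smooth.differentiable (by simp) x,
      (sp_conn2 p.hu h.sv (gS_lt h)).smooth.differentiable (by simp) x⟩
  have hc := conn_curv (η1 := p.η1) (η2 := p.η2) (ε := eps N X) p.hu.smooth h.sv.smooth (gS_lt h) x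
  rw [gR_rR h, curvQ_curv h] at hc
  unfold con1 con2
  rw [der_add' _ (d' p.η1).2 t1.1, der_sub' _ (d' p.η2).1 t2.1, t1.2, t2.2]
  have he := EY_zero h x
  rw [he, mul_zero] at hd
  obtain rfl : d2 = -d1 := by linarith
  have hr := rR_sq h x
  have hne := (rR_pos h x).ne'
  have hHne := (h.H_gt x).ne'
  rw [Jet.K, he, mul_zero, add_zero]
  have e : ∀ a b d e : ℝ, a + d - (b - e) = (a - b) + (d + e) := by intros; ring
  rw [e, hc, flux1, flux2, ← hr]
  field_simp
  ring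

theorem K_zero (h : Good p B N X) : ∀ x, (jet p N X x).K = 0 := by
  obtain ⟨q, hq⟩ := K_const h
  obtain ⟨s1, s2⟩ := sp_con h
  have a0 : SP fun x => p.a * con1 p N X x :=
    ⟨contDiff_const.mul s1.smooth, ⟨fun x => by rw [s1.per.add1], fun x => by rw [s1.per.add2]⟩⟩
  have b0 : SP fun x => p.b * con2 p N X x :=
    ⟨contDiff_const.mul s2.smooth, ⟨fun x => by rw [s2.per.add1], fun x => by rw [s2.per.add2]⟩⟩
  have hpos : ∀ x, 0 < p.a * p.b * ((rR p N X x ^ 3)⁻¹ * ((1 + (jet p N X x).H) ^ 2)⁻¹) :=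
    fun x => mul_pos (mul_pos p.apos p.bpos)
      (mul_pos (inv_pos.2 (pow_pos (rR_pos h x) 3)) (inv_pos.2 (pow_pos (h.H_gt x) 2)))
  have hq0 : q = 0 := by
    refine eq_zero_of_curl a0 b0 ?_ hpos fun x => ?_
    · exact continuous_const.mul ((((sp_rR h).smooth.continuous.pow 3).inv₀
        fun x => (pow_pos (rR_pos h x) 3).ne').mul
        (((continuous_const.add h.sH.smooth.continuous).pow 2).inv₀
          fun x => (pow_pos (h.H_gt x) 2).ne'))
    · have hc := con_curl h x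
      rw [← hq x, mul_assoc (p.a * p.b), ← hc, der_e1 (p := p), der_e2 (p := p),
        der_const_mul' _ _ (s2.smooth.differentiable (by simp) x),
        der_const_mul' _ _ (s1.smooth.differentiable (by simp) x)]
      simp only [smul_eq_mul]
      ring
  intro x
  rw [hq x, hq0]

/-- The rescaled connection is flat. -/
theorem con_flat (h : Good p B N X) (x : Pl) :
    der p.η1 (con2 p N X) x = der p.η2 (con1 p N X) x := by
  have := con_curl h x
  rw [K_zero h x, mul_zero] at this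
  linarith

/-- The flux form is closed. -/
theorem flux_closed (h : Good p B N X) (x : Pl) :
    der p.η1 (flux1 p N X) x + der p.η2 (flux2 p N X) x = 0 := by
  obtain ⟨d1, d2, h1, h2, hd⟩ := hd_flux_div h x
  rw [h1.2, h2.2, hd, EY_zero h x, mul_zero]

end Vale.Agent.P205.Full.Klein
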